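import Vale.Agent.P161.Crit.Spread

/-!
# Averages of retention products along arms

The average over all arms of length `ℓ` of the product of the retention factors has mean at most
`(1 - δ √t) ^ ℓ`, and it exceeds a multiple of its mean only with probability doubly exponentially
small in `ℓ`.
-/

open MeasureTheory ProbabilityTheory Finset Real
open scoped ENNReal NNReal Classical

noncomputable section

namespace Vale.Agent.P161

variable {Q : ℕ} {θ t : ℝ}

/-- The average over arms of length `ℓ` of the retention products, in a branch of depth `R`. -/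
def armF (θ t : ℝ) : ℕ → ℕ → Lbl Q → ℝ
  | 0, _, _ => 1
  | _ + 1, 0, _ => 1
  | ℓ + 1, R + 1, ω =>
    (∑ i, rc Q (tanh (msgX θ t R (sub i ω))) * armF θ t ℓ R (sub i ω)) / Q

theorem measurable_armF : ∀ (ℓ R : ℕ), Measurable (armF (Q := Q) θ t ℓ R) := by
  intro ℓ
  induction ℓ with
  | zero =>
    intro R
    show Measurable fun _ : Lbl Q => (1 : ℝ)
    exact measurable_const
  | succ ℓ ih =>
    intro R
    cases R with
    | zero =>
      show Measurable fun _ : Lbl Q => (1 : ℝ)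
      exact measurable_const
    | succ R =>
      show Measurable fun ω : Lbl Q =>
        (∑ i, rc Q (tanh (msgX θ t R (sub i ω))) * armF θ t ℓ R (sub i ω)) / Q
      exact (Finset.measurable_sum _ fun i _ =>
        (measurable_rc.comp (measurable_tanh'.comp ((measurable_msgX R).comp (measurable_sub i)))).mul
          ((ih R).comp (measurable_sub i))).div_const _

theorem armF_mem (hQ : 2 ≤ Q) : ∀ (ℓ R : ℕ) (ω : Lbl Q),
    0 ≤ armF θ t ℓ R ω ∧ armF θ t ℓ R ω ≤ 1 := by
  have hQ0 : (0 : ℝ) < Q := by exact_mod_cast (by omega : 0 < Q)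
  intro ℓ
  induction ℓ with
  | zero => intro R ω; simp [armF]
  | succ ℓ ih =>
    intro R ω
    cases R with
    | zero => simp [armF]
    | succ R =>
      simp only [armF]
      refine ⟨div_nonneg (Finset.sum_nonneg fun i _ => mul_nonneg (rc_tanh hQ _).1 (ih R _).1)
        hQ0.le, ?_⟩
      rw [div_le_one hQ0]
      refine (Finset.sum_le_card_nsmul _ _ 1 fun i _ =>
        mul_le_one₀ (rc_tanh hQ _).2 (ih R _).1 (ih R _).2).trans (le_of_eq (by simp))

/-- The retention factor of the root times the average of the arms below it. -/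
def rootArm (θ t : ℝ) (ℓ R : ℕ) (ω : Lbl Q) : ℝ :=
  rc Q (tanh (msgX θ t R ω)) * armF θ t ℓ R ω

theorem measurable_rootArm (ℓ R : ℕ) : Measurable (rootArm (Q := Q) θ t ℓ R) :=
  (measurable_rc.comp (measurable_tanh'.comp (measurable_msgX R))).mul (measurable_armF ℓ R)

theorem rootArm_mem (hQ : 2 ≤ Q) (ℓ R : ℕ) (ω : Lbl Q) :
    0 ≤ rootArm θ t ℓ R ω ∧ rootArm θ t ℓ R ω ≤ 1 :=
  ⟨mul_nonneg (rc_tanh hQ _).1 (armF_mem hQ ℓ R ω).1,
    mul_le_one₀ (rc_tanh hQ _).2 (armF_mem hQ ℓ R ω).1 (armF_mem hQ ℓ R ω).2⟩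

theorem sub_mp (i : Fin Q) : MeasurePreserving (sub i) (lblLaw Q) (lblLaw Q) := by
  refine ⟨measurable_sub i, ?_⟩
  have h1 : MeasurePreserving (fun p : (ℝ × ℝ) × (Fin Q → Lbl Q) => p.2 i)
      (nodeLaw.prod (Measure.pi fun _ : Fin Q => lblLaw Q)) (lblLaw Q) :=
    (measurePreserving_eval (fun _ : Fin Q => lblLaw Q) i).comp measurePreserving_snd
  have h2 := h1.comp (split_mp (Q := Q))
  exact h2.map_eq

theorem armF_succ_mean (hQ : 2 ≤ Q) (ℓ R : ℕ) :
    ∫ ω, armF θ t (ℓ + 1) (R + 1) ω ∂lblLaw Q = ∫ ω, rootArm θ t ℓ R ω ∂lblLaw Q := by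
  have hQ0 : (0 : ℝ) < Q := by exact_mod_cast (by omega : 0 < Q)
  have hi : ∀ i : Fin Q, Integrable (fun ω => rootArm θ t ℓ R (sub i ω)) (lblLaw Q) := fun i =>
    integrable_of_bdd ((measurable_rootArm ℓ R).comp (measurable_sub i)) (B := 1) fun ω => by
      show |rootArm θ t ℓ R (sub i ω)| ≤ 1
      rw [abs_of_nonneg (rootArm_mem hQ ℓ R _).1]
      exact (rootArm_mem hQ ℓ R _).2
  show ∫ ω, (∑ i, rootArm θ t ℓ R (sub i ω)) / Q ∂lblLaw Q = _
  have he : ∀ i : Fin Q, ∫ ω, rootArm θ t ℓ R (sub i ω) ∂lblLaw Q =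
      ∫ ω, rootArm θ t ℓ R ω ∂lblLaw Q := fun i => by
    conv_rhs => rw [← (sub_mp i).map_eq, integral_map (measurable_sub i).aemeasurable
      (measurable_rootArm ℓ R).aestronglyMeasurable]
  rw [integral_div, integral_finsetSum _ fun i _ => hi i]
  simp only [he, Finset.sum_const, Finset.card_univ, Fintype.card_fin, nsmul_eq_mul]
  field_simp

/-- One more edge costs a factor `1 - δ √t`. -/
theorem rootArm_mean (hQ : 2 ≤ Q) {β : ℝ} {R : ℕ}
    (hret : ∀ (x : ℝ) (n : ℕ), ∫ y, rc Q (tanh (x + y)) ∂sumLaw (WLaw Q θ t R) (n + 1) ≤ β)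
    (ℓ : ℕ) : ∫ ω, rootArm θ t (ℓ + 1) (R + 1) ω ∂lblLaw Q ≤ β * ∫ ω, rootArm θ t ℓ R ω ∂lblLaw Q := by
  obtain ⟨n, rfl⟩ : ∃ n, Q = n + 2 := ⟨Q - 2, by omega⟩
  set μ := lblLaw (n + 2) with hμ
  set g : ℝ × ℝ → ℝ := fun a => t + √t * a.2 with hg
  set S : (Fin (n + 2) → Lbl (n + 2)) → ℝ := fun ωs => ∑ k, msgW θ t R (ωs k) with hS
  set T : Fin (n + 2) → (ℝ × ℝ) × (Fin (n + 2) → Lbl (n + 2)) → ℝ := fun i p =>
    rc (n + 2) (tanh (g p.1 + S p.2)) * rootArm θ t ℓ R (p.2 i) with hT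
  have hSm : Measurable S := Finset.measurable_sum _ fun k _ =>
    (measurable_msgW R).comp (measurable_pi_apply k)
  have hgm : Measurable g := by rw [hg]; fun_prop
  have hTm : ∀ i, Measurable (T i) := fun i =>
    (measurable_rc.comp (measurable_tanh'.comp
      ((hgm.comp measurable_fst).add (hSm.comp measurable_snd)))).mul
      ((measurable_rootArm ℓ R).comp ((measurable_pi_apply i).comp measurable_snd))
  have hTb : ∀ i p, |T i p| ≤ 1 := fun i p => by
    rw [hT, abs_of_nonneg (mul_nonneg (rc_tanh hQ _).1 (rootArm_mem hQ ℓ R _).1)]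
    exact mul_le_one₀ (rc_tanh hQ _).2 (rootArm_mem hQ ℓ R _).1 (rootArm_mem hQ ℓ R _).2
  have key : ∀ i, ∫ p, T i p ∂(nodeLaw.prod (Measure.pi fun _ : Fin (n + 2) => μ)) ≤
      β * ∫ ω, rootArm θ t ℓ R ω ∂μ := by
    intro i
    rw [integral_prod _ (integrable_of_bdd (hTm i) (hTb i))]
    have inner : ∀ a, ∫ ωs, T i (a, ωs) ∂(Measure.pi fun _ : Fin (n + 2) => μ) ≤
        β * ∫ ω, rootArm θ t ℓ R ω ∂μ := by
      intro a
      set e := MeasurableEquiv.piFinSuccAbove (fun _ : Fin (n + 2) => Lbl (n + 2)) i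
      have he := measurePreserving_piFinSuccAbove (fun _ : Fin (n + 2) => μ) i
      set H : Lbl (n + 2) × (Fin (n + 1) → Lbl (n + 2)) → ℝ := fun q =>
        rc (n + 2) (tanh (g a + (msgW θ t R q.1 + ∑ k, msgW θ t R (q.2 k)))) * rootArm θ t ℓ R q.1
        with hH
      have hHs : Measurable fun q : Lbl (n + 2) × (Fin (n + 1) → Lbl (n + 2)) =>
          g a + (msgW θ t R q.1 + ∑ k, msgW θ t R (q.2 k)) :=
        measurable_const.add (((measurable_msgW R).comp measurable_fst).add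
          (Finset.measurable_sum _ fun k _ =>
            (measurable_msgW R).comp ((measurable_pi_apply k).comp measurable_snd)))
      have hHm : Measurable H :=
        (measurable_rc.comp (measurable_tanh'.comp hHs)).mul
          ((measurable_rootArm ℓ R).comp measurable_fst)
      have hHb : ∀ q, |H q| ≤ 1 := fun q => by
        rw [hH, abs_of_nonneg (mul_nonneg (rc_tanh hQ _).1 (rootArm_mem hQ ℓ R _).1)]
        exact mul_le_one₀ (rc_tanh hQ _).2 (rootArm_mem hQ ℓ R _).1 (rootArm_mem hQ ℓ R _).2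
      have hrw : ∀ ωs, T i (a, ωs) = H (e ωs) := by
        intro ωs
        simp only [hT, hH, hS, e, MeasurableEquiv.piFinSuccAbove_apply, Fin.sum_univ_succAbove _ i]
        rfl
      simp only [hrw]
      rw [← integral_map (e.measurable.aemeasurable) hHm.aestronglyMeasurable, he.map_eq,
        integral_prod _ (integrable_of_bdd hHm hHb)]
      have inner2 : ∀ ω, ∫ rest, H (ω, rest) ∂(Measure.pi fun _ : Fin (n + 1) => μ) ≤
          β * rootArm θ t ℓ R ω := by
        intro ω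
        simp only [hH, integral_mul_const]
        refine mul_le_mul_of_nonneg_right ?_ (rootArm_mem hQ ℓ R ω).1
        have hsum : (Measure.pi fun _ : Fin (n + 1) => μ).map
            (fun rest => ∑ k, msgW θ t R (rest k)) = sumLaw (WLaw (n + 2) θ t R) (n + 1) := by
          have hm2 : Measurable fun rest : Fin (n + 1) → Lbl (n + 2) => fun k => msgW θ t R (rest k) :=
            measurable_pi_lambda _ fun k => (measurable_msgW R).comp (measurable_pi_apply k)
          have hW : (Measure.pi fun _ : Fin (n + 1) => μ).map (fun rest k => msgW θ t R (rest k)) =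
              Measure.pi fun _ : Fin (n + 1) => WLaw (n + 2) θ t R :=
            Measure.pi_map_pi fun _ => (measurable_msgW R).aemeasurable
          rw [sumLaw, ← hW, Measure.map_map (g := fun x : Fin (n + 1) → ℝ => ∑ k, x k) (by fun_prop) hm2]
          rfl
        have hb := hret (g a + msgW θ t R ω) n
        have hm3 : Measurable fun y => rc (n + 2) (tanh (g a + msgW θ t R ω + y)) :=
          measurable_rc.comp (measurable_tanh'.comp (measurable_const_add _))
        have hm4 : Measurable fun rest : Fin (n + 1) → Lbl (n + 2) => ∑ k, msgW θ t R (rest k) :=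
          Finset.measurable_sum _ fun k _ => (measurable_msgW R).comp (measurable_pi_apply k)
        rw [← hsum, integral_map hm4.aemeasurable hm3.aestronglyMeasurable] at hb
        exact le_trans (le_of_eq (integral_congr_ae (ae_of_all _ fun rest => by ring_nf))) hb
      have iH : Integrable (fun ω => ∫ rest, H (ω, rest) ∂(Measure.pi fun _ : Fin (n + 1) => μ)) μ :=
        (integrable_of_bdd hHm hHb : Integrable H (μ.prod _)).integral_prod_left
      refine (integral_mono iH ((integrable_of_bdd (measurable_rootArm ℓ R) (B := 1) fun ω => by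
        rw [abs_of_nonneg (rootArm_mem hQ ℓ R ω).1]; exact (rootArm_mem hQ ℓ R ω).2).const_mul β)
        inner2).trans (le_of_eq (integral_const_mul _ _))
    refine (integral_mono (integrable_of_bdd (hTm i) (hTb i) : Integrable _ _).integral_prod_left
      (integrable_const _) inner).trans (le_of_eq (by simp))
  have hQ0 : (0 : ℝ) < ((n + 2 : ℕ) : ℝ) := by exact_mod_cast (by omega : 0 < n + 2)
  have hexp : ∀ ω : Lbl (n + 2), rootArm θ t (ℓ + 1) (R + 1) ω =
      (∑ i, T i (splitLbl ω)) / ((n + 2 : ℕ) : ℝ) := by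
    intro ω
    simp only [hT, hS, hg, splitLbl]
    show rc (n + 2) (tanh (msgX θ t (R + 1) ω)) *
      ((∑ i, rootArm θ t ℓ R (sub i ω)) / ((n + 2 : ℕ) : ℝ)) = _
    rw [msgX_succ, Finset.sum_div, Finset.sum_div, Finset.mul_sum]
    exact Finset.sum_congr rfl fun i _ => by ring
  simp only [hexp]
  rw [integral_div, integral_split (f := fun p => ∑ i, T i p) (Finset.measurable_sum _ fun i _ => hTm i),
    integral_finsetSum _ fun i _ => integrable_of_bdd (hTm i) (hTb i), div_le_iff₀ hQ0]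
  refine (Finset.sum_le_card_nsmul _ _ _ fun i _ => key i).trans (le_of_eq ?_)
  rw [Finset.card_univ, Fintype.card_fin, nsmul_eq_mul, mul_comm]

/-- The mean of the average over arms decays geometrically. -/
theorem armF_mean (hQ : 2 ≤ Q) {β : ℝ} (hβ : 0 ≤ β) {L : ℕ}
    (hret : ∀ R, L ≤ R → ∀ (x : ℝ) (n : ℕ),
      ∫ y, rc Q (tanh (x + y)) ∂sumLaw (WLaw Q θ t R) (n + 1) ≤ β) :
    ∀ ℓ R, ℓ + L ≤ R → ∫ ω, armF θ t (ℓ + 1) (R + 1) ω ∂lblLaw Q ≤ β ^ ℓ := by
  have key : ∀ ℓ R, ℓ + L ≤ R → ∫ ω, rootArm θ t ℓ R ω ∂lblLaw Q ≤ β ^ ℓ := by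
    intro ℓ
    induction ℓ with
    | zero =>
      intro R _
      rw [pow_zero]
      exact (integral_mono (integrable_of_bdd (measurable_rootArm 0 R) (B := 1) fun ω => by
        rw [abs_of_nonneg (rootArm_mem hQ 0 R ω).1]; exact (rootArm_mem hQ 0 R ω).2)
        (integrable_const 1) fun ω => (rootArm_mem hQ 0 R ω).2).trans (le_of_eq (by simp))
    | succ ℓ ih =>
      intro R hR
      obtain ⟨R', rfl⟩ : ∃ R', R = R' + 1 := ⟨R - 1, by omega⟩
      refine (rootArm_mean hQ (hret R' (by omega)) ℓ).trans ?_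
      rw [pow_succ']
      exact mul_le_mul_of_nonneg_left (ih R' (by omega)) hβ
  intro ℓ R hR
  rw [armF_succ_mean hQ]
  exact key ℓ R hR

/-- The sum over the `k`-th generation of the averages over arms below it. -/
def genSum (θ t : ℝ) (ℓ R : ℕ) : ℕ → Lbl Q → ℝ
  | 0, ω => armF θ t ℓ R ω
  | k + 1, ω => ∑ i, genSum θ t ℓ R k (sub i ω)

theorem genSum_nonneg (hQ : 2 ≤ Q) (ℓ R : ℕ) : ∀ (k : ℕ) (ω : Lbl Q),
    0 ≤ genSum θ t ℓ R k ω ∧ genSum θ t ℓ R k ω ≤ (Q : ℝ) ^ k := by
  intro k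
  induction k with
  | zero => intro ω; simpa [genSum] using armF_mem hQ ℓ R ω
  | succ k ih =>
    intro ω
    refine ⟨Finset.sum_nonneg fun i _ => (ih _).1,
      (Finset.sum_le_card_nsmul _ _ _ fun i _ => (ih (sub i ω)).2).trans (le_of_eq ?_)⟩
    rw [Finset.card_univ, Fintype.card_fin, nsmul_eq_mul, pow_succ']

theorem measurable_genSum (ℓ R : ℕ) : ∀ k, Measurable (genSum (Q := Q) θ t ℓ R k) := by
  intro k
  induction k with
  | zero => exact measurable_armF ℓ R
  | succ k ih => exact Finset.measurable_sum _ fun i _ => ih.comp (measurable_sub i)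

theorem armF_le_genSum (hQ : 2 ≤ Q) (ℓ R : ℕ) : ∀ (k : ℕ) (ω : Lbl Q),
    armF θ t (k + ℓ) (R + k) ω ≤ genSum θ t ℓ R k ω / (Q : ℝ) ^ k := by
  have hQ0 : (0 : ℝ) < Q := by exact_mod_cast (by omega : 0 < Q)
  intro k
  induction k with
  | zero => intro ω; simp [genSum]
  | succ k ih =>
    intro ω
    rw [show k + 1 + ℓ = (k + ℓ) + 1 by omega, show R + (k + 1) = (R + k) + 1 by omega, pow_succ,
      ← div_div]
    show (∑ i, _) / (Q : ℝ) ≤ _
    refine div_le_div_of_nonneg_right ?_ hQ0.le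
    rw [genSum, Finset.sum_div]
    refine Finset.sum_le_sum fun i _ => ?_
    exact (mul_le_of_le_one_left (armF_mem hQ _ _ _).1 (rc_tanh hQ _).2).trans (ih _)

theorem integrable_exp_genSum (hQ : 2 ≤ Q) (ℓ R k : ℕ) :
    Integrable (fun ω => exp (genSum θ t ℓ R k ω)) (lblLaw Q) :=
  integrable_of_bdd (measurable_genSum ℓ R k).exp (B := exp ((Q : ℝ) ^ k)) fun ω => by
    rw [abs_of_pos (exp_pos _)]
    exact exp_le_exp.2 (genSum_nonneg hQ ℓ R k ω).2

theorem mgf_genSum (hQ : 2 ≤ Q) (ℓ R : ℕ) {p : ℝ} (hp : ∫ ω, armF θ t ℓ R ω ∂lblLaw Q ≤ p) :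
    ∀ k, ∫ ω, exp (genSum θ t ℓ R k ω) ∂lblLaw Q ≤ exp (2 * p * (Q : ℝ) ^ k) := by
  intro k
  induction k with
  | zero =>
    rw [pow_zero, mul_one]
    have hi : Integrable (armF θ t ℓ R) (lblLaw Q) := integrable_of_bdd (measurable_armF ℓ R) (B := 1)
      fun ω => by rw [abs_of_nonneg (armF_mem hQ ℓ R ω).1]; exact (armF_mem hQ ℓ R ω).2
    have hiB : Integrable (fun ω => 1 + 2 * armF θ t ℓ R ω) (lblLaw Q) :=
      (integrable_const _).add (hi.const_mul 2)
    refine (integral_mono (integrable_exp_genSum hQ ℓ R 0) hiB fun ω => ?_).trans ?_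
    · obtain ⟨a0, a1⟩ := armF_mem (θ := θ) (t := t) hQ ℓ R ω
      show exp (armF θ t ℓ R ω) ≤ 1 + 2 * armF θ t ℓ R ω
      have := (abs_le.1 (abs_exp_sub_one_sub_id_le (x := armF θ t ℓ R ω)
        (by rw [abs_of_nonneg a0]; exact a1))).2
      nlinarith
    · rw [integral_add (integrable_const _) (hi.const_mul 2), integral_const_mul]
      simp only [integral_const, probReal_univ, smul_eq_mul, one_mul]
      linarith [add_one_le_exp (2 * p)]
  | succ k ih =>
    have hm : Measurable fun p : (ℝ × ℝ) × (Fin Q → Lbl Q) => ∏ i, exp (genSum θ t ℓ R k (p.2 i)) :=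
      Finset.measurable_prod _ fun i _ => ((measurable_genSum ℓ R k).comp
        ((measurable_pi_apply i).comp measurable_snd)).exp
    have e : ∀ ω : Lbl Q, exp (genSum θ t ℓ R (k + 1) ω) =
        (fun p : (ℝ × ℝ) × (Fin Q → Lbl Q) => ∏ i, exp (genSum θ t ℓ R k (p.2 i))) (splitLbl ω) :=
      fun ω => by simp only [genSum, Real.exp_sum, splitLbl]
    simp only [e]
    rw [integral_split hm, integral_fun_snd (fun ωs : Fin Q → Lbl Q => ∏ i, exp (genSum θ t ℓ R k (ωs i))),
      probReal_univ, one_smul, integral_fintype_prod_eq_prod (fun _ => fun ω => exp (genSum θ t ℓ R k ω)),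
      Finset.prod_const, Finset.card_univ, Fintype.card_fin]
    refine (pow_le_pow_left₀ (integral_nonneg fun ω => (exp_pos _).le) ih Q).trans (le_of_eq ?_)
    rw [← Real.exp_nat_mul]
    congr 1
    ring

/-- The average over arms seldom exceeds three times its mean. -/
theorem armF_excess (hQ : 2 ≤ Q) (ℓ R k : ℕ) {p : ℝ}
    (hp : ∫ ω, armF θ t ℓ R ω ∂lblLaw Q ≤ p) :
    ∫ ω, max (armF θ t (k + ℓ) (R + k) ω - 3 * p) 0 ∂lblLaw Q ≤ exp (-(p * (Q : ℝ) ^ k)) := by
  have hQ0 : (0 : ℝ) < Q := by exact_mod_cast (by omega : 0 < Q)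
  have hQk : (0 : ℝ) < (Q : ℝ) ^ k := pow_pos hQ0 k
  have hp0 : 0 ≤ p := (integral_nonneg fun ω => (armF_mem hQ ℓ R ω).1).trans hp
  have hpt : ∀ ω : Lbl Q, max (armF θ t (k + ℓ) (R + k) ω - 3 * p) 0 ≤
      exp (genSum θ t ℓ R k ω) * exp (-(3 * p * (Q : ℝ) ^ k)) := by
    intro ω
    rw [← Real.exp_add]
    refine max_le ?_ (exp_pos _).le
    obtain ⟨a0, a1⟩ := armF_mem (θ := θ) (t := t) hQ (k + ℓ) (R + k) ω
    rcases le_or_gt (armF θ t (k + ℓ) (R + k) ω) (3 * p) with h | h
    · linarith [exp_pos (genSum θ t ℓ R k ω + -(3 * p * (Q : ℝ) ^ k))]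
    · have h2 := (armF_le_genSum hQ ℓ R k ω).trans_lt' h
      rw [lt_div_iff₀ hQk] at h2
      refine le_trans (by linarith : _ ≤ (1 : ℝ)) (Real.one_le_exp (by linarith))
  refine (integral_mono (integrable_of_bdd (((measurable_armF _ _).sub_const _).max measurable_const)
    (B := 1) fun ω => ?_) ((integrable_exp_genSum hQ ℓ R k).mul_const _) hpt).trans ?_
  · obtain ⟨a0, a1⟩ := armF_mem (θ := θ) (t := t) hQ (k + ℓ) (R + k) ω
    rw [abs_of_nonneg (le_max_right _ _)]
    exact max_le (by linarith) zero_le_one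
  rw [integral_mul_const]
  refine (mul_le_mul_of_nonneg_right (mgf_genSum hQ ℓ R hp k) (exp_pos _).le).trans (le_of_eq ?_)
  rw [← Real.exp_add]
  congr 1
  ring

end Vale.Agent.P161
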