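import Vale.Agent.P161.Crit.Pointwise

/-!
# Observables of the schemes in balls centred at their own vertex
-/

open MeasureTheory Finset Real
open scoped Classical

noncomputable section

namespace Vale.Agent.P161

variable {V : Type*} {G : SimpleGraph V} {d : ℕ} {θ θ' : ℝ}

/-- The scheme in the ball of radius `R` around `c`. -/
def hs (G : SimpleGraph V) (θ : ℝ) (R j k : ℕ) (c : V) (z : ℕ × V → ℝ) : V → ℝ :=
  scheme G θ (ball G c R) (dt j) z k

/-- The magnetization of a vertex in its own ball. -/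
def mc (G : SimpleGraph V) (θ : ℝ) (R j k : ℕ) (c : V) (z : ℕ × V → ℝ) : ℝ :=
  mag G θ (ball G c R) (hs G θ R j k c z) c

/-- The message of an edge in the ball around its head. -/
def muc (G : SimpleGraph V) (θ : ℝ) (R j k : ℕ) (a b : V) (z : ℕ × V → ℝ) : ℝ :=
  mu G θ (ball G b R) (hs G θ R j k b z) a b

/-- The mean square difference of the magnetizations of two systems. -/
def gap (G : SimpleGraph V) (θ θ' : ℝ) (R j k : ℕ) (c : V) : ℝ :=
  ∫ z, (mc G θ R j k c z - mc G θ' R j k c z) ^ 2 ∂gN (ℕ × V)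

/-- The squares of the two messages of an edge. -/
def edgeSq (G : SimpleGraph V) (θ : ℝ) (R j k : ℕ) (a b : V) (z : ℕ × V → ℝ) : ℝ :=
  muc G θ R j k a b z ^ 2 + muc G θ R j k b a z ^ 2

/-- The centred difference of the squared messages of an edge. -/
def edgeW (G : SimpleGraph V) (θ θ' : ℝ) (R j k : ℕ) (a b : V) (z : ℕ × V → ℝ) : ℝ :=
  (edgeSq G θ R j k a b z - edgeSq G θ' R j k a b z) -
    ∫ y, (edgeSq G θ R j k a b y - edgeSq G θ' R j k a b y) ∂gN (ℕ × V)

theorem measurable_hs (R j k : ℕ) (c : V) : Measurable (hs G θ R j k c) :=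
  measurable_scheme _ _ _

theorem measurable_mc (R j k : ℕ) (c : V) : Measurable (mc G θ R j k c) :=
  (measurable_mag _ c).comp (measurable_hs R j k c)

theorem measurable_muc (R j k : ℕ) (a b : V) : Measurable (muc G θ R j k a b) :=
  (measurable_mu (G := G) (θ := θ) _ a b).comp (measurable_hs R j k b)

theorem abs_mc_le (h0 : 0 ≤ θ) (h1 : θ < 1) (R j k : ℕ) (c : V) (z : ℕ × V → ℝ) :
    |mc G θ R j k c z| ≤ 1 :=
  abs_mag_le h0 h1 _ _ _

theorem abs_muc_le (h0 : 0 ≤ θ) (h1 : θ < 1) (R j k : ℕ) (a b : V) (z : ℕ × V → ℝ) :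
    |muc G θ R j k a b z| ≤ 1 :=
  abs_mu_le h0 h1 _ _ _ _

theorem measurable_edgeSq (R j k : ℕ) (a b : V) : Measurable (edgeSq G θ R j k a b) :=
  ((measurable_muc R j k a b).pow_const 2).add ((measurable_muc R j k b a).pow_const 2)

theorem edgeSq_mem (h0 : 0 ≤ θ) (h1 : θ < 1) (R j k : ℕ) (a b : V) (z : ℕ × V → ℝ) :
    0 ≤ edgeSq G θ R j k a b z ∧ edgeSq G θ R j k a b z ≤ 2 := by
  have e1 := sq_le_one' (abs_muc_le (G := G) h0 h1 R j k a b z)
  have e2 := sq_le_one' (abs_muc_le (G := G) h0 h1 R j k b a z)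
  unfold edgeSq
  constructor <;> nlinarith [sq_nonneg (muc G θ R j k a b z), sq_nonneg (muc G θ R j k b a z)]

/-! ## Symmetries -/

/-- Relabelling the noise along an automorphism. -/
def rl (g : G ≃g G) (z : ℕ × V → ℝ) : ℕ × V → ℝ := fun p => z (p.1, g p.2)

theorem rl_mp (g : G ≃g G) : MeasurePreserving (rl g) (gN (ℕ × V)) (gN (ℕ × V)) :=
  reindex_mp (f := fun p : ℕ × V => (p.1, g p.2)) fun a b h => by
    simp only [Prod.mk.injEq] at h
    exact Prod.ext h.1 (g.injective h.2)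

theorem integral_rl (g : G ≃g G) {F : (ℕ × V → ℝ) → ℝ} (hF : Measurable F) :
    ∫ z, F (rl g z) ∂gN (ℕ × V) = ∫ z, F z ∂gN (ℕ × V) := by
  rw [← integral_map (rl_mp g).measurable.aemeasurable hF.aestronglyMeasurable, (rl_mp g).map_eq]

theorem branch_map (hT : RTree G d) (g : G ≃g G) (D : Finset V) (a b : V) :
    branch G (D.map g.toEquiv.toEmbedding) (g a) (g b) =
      (branch G D a b).map g.toEquiv.toEmbedding := by
  ext u
  obtain ⟨v, rfl⟩ := g.surjective u
  have h1 : g v ∈ D.map g.toEquiv.toEmbedding ↔ v ∈ D := Finset.mem_map' g.toEquiv.toEmbedding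
  have h2 : g v ∈ (branch G D a b).map g.toEquiv.toEmbedding ↔ v ∈ branch G D a b :=
    Finset.mem_map' g.toEquiv.toEmbedding
  rw [h2]
  simp only [branch, Finset.mem_filter, h1, iso_dist hT]

theorem hs_map (hT : RTree G d) (g : G ≃g G) (R j k : ℕ) (c : V) (z : ℕ × V → ℝ) (v : V) :
    hs G θ R j k (g c) z (g v) = hs G θ R j k c (rl g z) v := by
  rw [hs, hs, ball_map hT, scheme_map]
  rfl

theorem mc_map (hT : RTree G d) (g : G ≃g G) (R j k : ℕ) (c : V) (z : ℕ × V → ℝ) :
    mc G θ R j k (g c) z = mc G θ R j k c (rl g z) := by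
  rw [mc, mc, ball_map hT, mag_map]
  exact mag_congr (fun u _ => hs_map hT g R j k c z u) c

theorem muc_map (hT : RTree G d) (g : G ≃g G) (R j k : ℕ) (a b : V) (z : ℕ × V → ℝ) :
    muc G θ R j k (g a) (g b) z = muc G θ R j k a b (rl g z) := by
  rw [muc, muc, mu, mu, ball_map hT, branch_map hT, mag_map]
  exact mag_congr (fun u _ => hs_map hT g R j k b z u) b

theorem edgeSq_map (hT : RTree G d) (g : G ≃g G) (R j k : ℕ) (a b : V) (z : ℕ × V → ℝ) :
    edgeSq G θ R j k (g a) (g b) z = edgeSq G θ R j k a b (rl g z) := by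
  simp only [edgeSq, muc_map hT]

theorem edgeW_map (hT : RTree G d) (g : G ≃g G) (R j k : ℕ) (a b : V) (z : ℕ × V → ℝ) :
    edgeW G θ θ' R j k (g a) (g b) z = edgeW G θ θ' R j k a b (rl g z) := by
  simp only [edgeW, edgeSq_map hT]
  rw [integral_rl g (F := fun y => edgeSq G θ R j k a b y - edgeSq G θ' R j k a b y)
    ((measurable_edgeSq R j k a b).sub (measurable_edgeSq R j k a b))]

theorem gap_eq_centre (hT : RTree G d) (R j k : ℕ) (c c' : V) :
    gap G θ θ' R j k c' = gap G θ θ' R j k c := by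
  obtain ⟨g, hg, -⟩ := exists_pair_iso hT (a := c) (b := c) (a' := c') (b' := c') (by simp)
  subst hg
  simp only [gap, mc_map hT]
  exact integral_rl g (F := fun z => (mc G θ R j k c z - mc G θ' R j k c z) ^ 2)
    (((measurable_mc R j k c).sub (measurable_mc R j k c)).pow_const 2)

/-! ## Finite range -/

theorem muc_dep (R j k : ℕ) (a b : V) :
    DependsOn (muc G θ R j k a b) (coords (ball G b R) k : Set (ℕ × V)) := fun x y h => by
  rw [muc, muc, hs, hs, scheme_congr h]

theorem integral_mul_disjoint {ι : Type*} {S T : Finset ι} (hST : Disjoint S T)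
    {F H : (ι → ℝ) → ℝ} (hF : Measurable F) (hH : Measurable H) {B : ℝ} (hFb : ∀ z, |F z| ≤ B)
    (hHb : ∀ z, |H z| ≤ B) (hFd : DependsOn F (S : Set ι)) (hHd : DependsOn H (T : Set ι)) :
    ∫ z, F z * H z ∂gN ι = (∫ z, F z ∂gN ι) * ∫ z, H z ∂gN ι := by
  have hB : ∀ z, |F z * H z| ≤ B * B := fun z => by
    rw [abs_mul]; exact mul_le_mul (hFb z) (hHb z) (abs_nonneg _) ((abs_nonneg _).trans (hFb z))
  have hg : ∀ z z', H (splice S (z, z')) = H z := fun z z' =>
    hHd fun i hi => by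
      have : i ∉ S := fun h => Finset.disjoint_left.1 hST h (Finset.mem_coe.1 hi)
      simp [splice, this]
  have hr : ∀ z, resamp S F z = ∫ w, F w ∂gN ι := fun z => by
    refine integral_congr_ae (ae_of_all _ fun w => ?_)
    exact hFd fun i hi => by simp [splice, Finset.mem_coe.1 hi]
  have : ∀ z, F z * H z = H z * F z := fun z => mul_comm _ _
  simp only [this]
  rw [integral_splice S (f := fun z => H z * F z) (hH.mul hF) (B := B * B) (fun z => by
    rw [← this]; exact hB z)]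
  simp only [resamp_const_mul S hg, hr]
  rw [integral_mul_const, mul_comm]

theorem edgeW_indep (hT : RTree G d) (h0 : 0 ≤ θ) (h1 : θ < 1) (g0 : 0 ≤ θ') (g1 : θ' < 1)
    (R j k : ℕ) {a b a' b' : V} (hab : G.Adj a b) (hab' : G.Adj a' b')
    (hd : 2 * R + 2 < G.dist a a') :
    ∫ z, edgeW G θ θ' R j k a b z * edgeW G θ θ' R j k a' b' z ∂gN (ℕ × V) = 0 := by
  set F := fun (a b : V) z => edgeSq G θ R j k a b z - edgeSq G θ' R j k a b z with hF
  have hFm : ∀ a b, Measurable (F a b) := fun a b =>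
    (measurable_edgeSq R j k a b).sub (measurable_edgeSq R j k a b)
  have hFb : ∀ a b z, |F a b z| ≤ 2 := fun a b z => by
    have e1 := edgeSq_mem (G := G) h0 h1 R j k a b z
    have e2 := edgeSq_mem (G := G) g0 g1 R j k a b z
    simp only [hF]; rw [abs_le]; constructor <;> linarith [e1.1, e1.2, e2.1, e2.2]
  have hsub : ∀ {a b : V}, G.Adj a b →
      ball G a R ⊆ ball G a (R + 1) ∧ ball G b R ⊆ ball G a (R + 1) := fun {a b} h =>
    ⟨ball_mono hT a (Nat.le_succ R), ball_subset_ball hT (by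
      rw [SimpleGraph.dist_eq_one_iff_adj.2 h]; omega)⟩
  have hdep : ∀ {a b : V}, G.Adj a b →
      DependsOn (F a b) (coords (ball G a (R + 1)) k : Set (ℕ × V)) := fun {a b} h x y hxy => by
    have hc : ∀ {E : Finset V}, E ⊆ ball G a (R + 1) → ∀ p ∈ (coords E k : Set (ℕ × V)),
        x p = y p := fun {E} hE p hp => hxy p (by
      rw [Finset.mem_coe, mem_coords] at hp ⊢; exact ⟨hp.1, hE hp.2⟩)
    simp only [hF, edgeSq]
    rw [muc_dep R j k a b (hc (hsub h).2), muc_dep R j k b a (hc (hsub h).1),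
      muc_dep R j k a b (hc (hsub h).2), muc_dep R j k b a (hc (hsub h).1)]
  have hdisj : Disjoint (coords (ball G a (R + 1)) k) (coords (ball G a' (R + 1)) k) := by
    rw [Finset.disjoint_left]
    intro p hp hp'
    have e1 := (mem_ball hT).1 (mem_coords.1 hp).2
    have e2 := (mem_ball hT).1 (mem_coords.1 hp').2
    have := hT.conn.dist_triangle (u := a) (v := p.2) (w := a')
    rw [SimpleGraph.dist_comm (u := p.2)] at this
    omega
  have key := integral_mul_disjoint hdisj (B := 4)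
    (F := fun z => F a b z - ∫ y, F a b y ∂gN (ℕ × V))
    (H := fun z => F a' b' z - ∫ y, F a' b' y ∂gN (ℕ × V))
    ((hFm a b).sub_const _) ((hFm a' b').sub_const _) ?_ ?_
    (fun x y h => by show _ - _ = _ - _; rw [hdep hab h])
    (fun x y h => by show _ - _ = _ - _; rw [hdep hab' h])
  · show ∫ z, (F a b z - _) * (F a' b' z - _) ∂gN (ℕ × V) = 0
    rw [key, integral_sub (integrable_of_bdd (hFm a b) (hFb a b)) (integrable_const _),
      integral_const, probReal_univ, one_smul, sub_self, zero_mul]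
  all_goals
    intro z
    refine (abs_sub _ _).trans ?_
    have h2 : ∀ a b, |∫ y, F a b y ∂gN (ℕ × V)| ≤ 2 := fun a b => by
      refine (abs_integral_le_integral_abs).trans ?_
      refine (integral_mono (integrable_of_bdd (hFm a b) (hFb a b)).abs (integrable_const _)
        (hFb a b)).trans ?_
      simp
    linarith [hFb a b z, h2 a b, hFb a' b' z, h2 a' b']

/-! ## Comparisons -/

theorem mag_eq_eMag (hT : RTree G d) (h0 : 0 ≤ θ) (h1 : θ < 1) {D : Finset V} {a b : V}
    (hab : G.Adj a b) (ha : a ∈ D) (hb : b ∈ D) (h : V → ℝ) :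
    mag G θ D h b = eMag θ (mu G θ D h a b) (mu G θ D h b a) :=
  mag_edge hT h0 h1 hab ha hb h

theorem mu_close (hT : RTree G d) (h0 : 0 ≤ θ) (h1 : θ ≤ 3 / 4) (g0 : 0 ≤ θ') (g1 : θ' ≤ 3 / 4)
    {D D' : Finset V} {a b : V} (hab : G.Adj a b) (ha : a ∈ D) (hb : b ∈ D) (ha' : a ∈ D')
    (hb' : b ∈ D') (h h' : V → ℝ) :
    |mu G θ D h a b - mu G θ' D' h' a b| ≤ 24 * (|mag G θ D h b - mag G θ' D' h' b| +
      |mag G θ D h a - mag G θ' D' h' a| + 32 * |θ - θ'|) := by
  have l1 : θ < 1 := by linarith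
  have l2 : θ' < 1 := by linarith
  rw [mag_eq_eMag hT h0 l1 hab ha hb, mag_eq_eMag hT g0 l2 hab ha' hb',
    mag_eq_eMag hT h0 l1 hab.symm hb ha, mag_eq_eMag hT g0 l2 hab.symm hb' ha']
  exact inv_lip h0 h1 g0 g1 (abs_mu_le h0 l1 _ _ _ _) (abs_mu_le h0 l1 _ _ _ _)
    (abs_mu_le g0 l2 _ _ _ _) (abs_mu_le g0 l2 _ _ _ _)

theorem abs_eMag_le (h0 : 0 ≤ θ) (h1 : θ ≤ 3 / 4) {x y : ℝ} (hx : |x| ≤ 1) (hy : |y| ≤ 1) :
    |eMag θ x y| ≤ 4 * (|x| + |y|) := by
  have hden := (eMag_den h0 h1 hx hy).1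
  rw [eMag, abs_div, abs_of_pos (by linarith : 0 < 1 + θ * (y * x)), div_le_iff₀ (by linarith)]
  have e1 : |x + θ * y| ≤ |x| + |y| := by
    refine (abs_add_le _ _).trans ?_
    rw [abs_mul, abs_of_nonneg h0]
    nlinarith [abs_nonneg y]
  nlinarith [abs_nonneg x, abs_nonneg y]

end Vale.Agent.P161
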