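import Vale.Agent.P161.Construct
import Vale.Agent.P161.Crit.Obs

/-!
# Limits of factors of IID along stable sequences of parameters
-/

open MeasureTheory Finset Real Filter Topology
open scoped ENNReal Classical

noncomputable section

namespace Vale.Agent.P161

universe u

variable {V : Type u} {G : SimpleGraph V} {d : ℕ} {θ θ' : ℝ}

/-- The magnetizations along the sequence form a Cauchy sequence in mean square, uniformly in the
radius and the level. -/
def Stable (G : SimpleGraph V) (θs : ℕ → ℝ) : Prop :=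
  ∀ (T : ℕ) (η : ℝ), 0 < η → ∃ i0, ∀ i i', i0 ≤ i → i0 ≤ i' → ∀ᶠ R in atTop, ∀ᶠ j in atTop,
    ∀ c : V, gap G (θs i) (θs i') R j (steps T j) c ≤ η

/-! ## Limits of equivariant stages -/

/-- The configuration read from a sequence of stages. -/
def cfg (X : ℕ → V → (Lab V → ℝ) → ℝ) (ξ : Lab V → ℝ) : V → Bool :=
  fun v => decide (0 < limsup (fun i => X i v ξ) atTop)

theorem measurable_cfg {X : ℕ → V → (Lab V → ℝ) → ℝ} (hm : ∀ i v, Measurable (X i v)) :
    Measurable (cfg X) := by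
  refine measurable_pi_lambda _ fun v => measurable_to_bool ?_
  have h : Measurable (fun ξ => limsup (fun i => X i v ξ) atTop) :=
    Measurable.limsup fun i => hm i v
  simpa [Set.preimage, cfg] using measurableSet_lt (measurable_const (a := (0 : ℝ))) h

theorem cfg_map {X : ℕ → V → (Lab V → ℝ) → ℝ} (g : G ≃g G)
    (heq : ∀ i v ξ, X i (g v) ξ = X i v fun q => ξ (q.1, (q.2.1, g q.2.2))) (v : V)
    (ξ : Lab V → ℝ) : cfg X ξ (g v) = cfg X (fun q => ξ (q.1, (q.2.1, g q.2.2))) v := by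
  simp only [cfg, heq]

theorem integrable_abs_sub' {f g : (Lab V → ℝ) → ℝ} (hf : Measurable f) (hg : Measurable g)
    (hfb : ∀ ξ, |f ξ| ≤ 1) (hgb : ∀ ξ, |g ξ| ≤ 1) :
    Integrable (fun ξ => |f ξ - g ξ|) (gN (Lab V)) :=
  integrable_of_bdd (hf.sub hg).abs (B := 2) fun ξ => by
    rw [abs_abs]; exact (abs_sub _ _).trans (by linarith [hfb ξ, hgb ξ])

theorem d1_trans {f g h : (Lab V → ℝ) → ℝ} (hf : Measurable f) (hg : Measurable g)
    (hh : Measurable h) (hfb : ∀ ξ, |f ξ| ≤ 1) (hgb : ∀ ξ, |g ξ| ≤ 1) (hhb : ∀ ξ, |h ξ| ≤ 1) :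
    d1 f h ≤ d1 f g + d1 g h := by
  rw [d1, d1, d1, ← integral_add (integrable_abs_sub' hf hg hfb hgb)
    (integrable_abs_sub' hg hh hgb hhb)]
  exact integral_mono (integrable_abs_sub' hf hh hfb hhb)
    ((integrable_abs_sub' hf hg hfb hgb).add (integrable_abs_sub' hg hh hgb hhb))
    fun ξ => abs_sub_le _ _ _

/-- Stages with summable increments and squares tending to one converge to spins. -/
theorem cfg_limit {X : ℕ → V → (Lab V → ℝ) → ℝ} (hm : ∀ i v, Measurable (X i v))
    (hb : ∀ i v ξ, |X i v ξ| ≤ 1) {ε : ℕ → ℝ} (hε : Summable ε) (v : V)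
    (hinc : ∀ᶠ i in atTop, d1 (X i v) (X (i + 1) v) ≤ ε i)
    (hsq : Tendsto (fun i => ∫ ξ, (1 - X i v ξ ^ 2) ∂gN (Lab V)) atTop (𝓝 0)) :
    ∀ᵐ ξ ∂gN (Lab V), Tendsto (fun i => X i v ξ) atTop (𝓝 (spin (cfg X ξ v))) := by
  obtain ⟨i0, hi0⟩ := eventually_atTop.1 hinc
  set D := fun (i : ℕ) (ξ : Lab V → ℝ) => |X i v ξ - X (i + 1) v ξ| with hD
  have hDm : ∀ i, Measurable (D i) := fun i => ((hm i v).sub (hm (i + 1) v)).abs
  have hsum : Summable (fun k => ε (k + i0)) := (summable_nat_add_iff i0).2 hε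
  have hfin : ∫⁻ ξ, ∑' k, ENNReal.ofReal (D (k + i0) ξ) ∂gN (Lab V) ≠ ∞ := by
    rw [lintegral_tsum fun k => (hDm _).ennreal_ofReal.aemeasurable]
    refine ne_top_of_le_ne_top hsum.tsum_ofReal_ne_top (ENNReal.tsum_le_tsum fun k => ?_)
    rw [← ofReal_integral_eq_lintegral_ofReal (f := D (k + i0))
      (integrable_abs_sub' (hm _ v) (hm _ v) (hb _ v) (hb _ v))
      (ae_of_all _ fun _ => abs_nonneg _)]
    exact ENNReal.ofReal_le_ofReal (hi0 _ (Nat.le_add_left i0 k))
  set L := fun ξ => limsup (fun i => X i v ξ) atTop with hL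
  have hLm : Measurable L := Measurable.limsup fun i => hm i v
  have hconv : ∀ᵐ ξ ∂gN (Lab V), Tendsto (fun i => X i v ξ) atTop (𝓝 (L ξ)) := by
    filter_upwards [ae_lt_top (Measurable.tsum fun k => (hDm _).ennreal_ofReal) hfin] with ξ hξ
    have hs : Summable (fun k => D (k + i0) ξ) := by
      refine (ENNReal.summable_toReal hξ.ne).congr fun k => ?_
      rw [ENNReal.toReal_ofReal (abs_nonneg _)]
    have hs' : Summable (fun i => D i ξ) := (summable_nat_add_iff (f := fun i => D i ξ) i0).1 hs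
    obtain ⟨l, hl⟩ := cauchySeq_tendsto_of_complete (cauchySeq_of_dist_le_of_summable _
      (fun i => (Real.dist_eq (X i v ξ) (X (i + 1) v ξ)).le) hs')
    show Tendsto _ _ (𝓝 (limsup (fun i => X i v ξ) atTop))
    rwa [show limsup (fun i => X i v ξ) atTop = l from hl.limsup_eq]
  have hLb : ∀ᵐ ξ ∂gN (Lab V), |L ξ| ≤ 1 := by
    filter_upwards [hconv] with ξ h
    exact le_of_tendsto' h.abs fun i => hb i v ξ
  have hlim : Tendsto (fun i => ∫ ξ, (1 - X i v ξ ^ 2) ∂gN (Lab V)) atTop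
      (𝓝 (∫ ξ, (1 - L ξ ^ 2) ∂gN (Lab V))) := by
    refine tendsto_integral_of_dominated_convergence (fun _ => 2)
      (fun i => (((hm i v).pow_const 2).const_sub 1).aestronglyMeasurable)
      (integrable_const _) (fun i => ae_of_all _ fun ξ => ?_) ?_
    · have := abs_le.1 (hb i v ξ)
      rw [Real.norm_eq_abs, abs_le]; constructor <;> nlinarith
    · filter_upwards [hconv] with ξ h
      exact (h.pow 2).const_sub 1
  have hnn : 0 ≤ᵐ[gN (Lab V)] fun ξ => 1 - L ξ ^ 2 := by
    filter_upwards [hLb] with ξ h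
    have := abs_le.1 h
    show 0 ≤ 1 - L ξ ^ 2
    nlinarith
  have hint : Integrable (fun ξ => 1 - L ξ ^ 2) (gN (Lab V)) := by
    refine Integrable.of_bound ((hLm.pow_const 2).const_sub 1).aestronglyMeasurable 2 ?_
    filter_upwards [hLb] with ξ h
    have := abs_le.1 h
    rw [Real.norm_eq_abs, abs_le]; constructor <;> nlinarith
  have hae := (integral_eq_zero_iff_of_nonneg_ae hnn hint).1 (tendsto_nhds_unique hlim hsq)
  filter_upwards [hae, hconv] with ξ h hc
  have h2 : L ξ * L ξ = 1 := by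
    have : (1 : ℝ) - L ξ ^ 2 = 0 := h
    nlinarith
  have : spin (cfg X ξ v) = L ξ := by
    rcases mul_self_eq_one_iff.1 h2 with h3 | h3 <;>
      simp only [hL] at h3 <;> simp [cfg, spin, hL, h3]
  rwa [this]

/-- The law of the configuration is the limit of the laws of the stages. -/
theorem cfg_law {X : ℕ → V → (Lab V → ℝ) → ℝ} (hm : ∀ i v, Measurable (X i v))
    (hb : ∀ i v ξ, |X i v ξ| ≤ 1)
    (hlim : ∀ v, ∀ᵐ ξ ∂gN (Lab V), Tendsto (fun i => X i v ξ) atTop (𝓝 (spin (cfg X ξ v))))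
    (S : Finset V) (η : V → Bool) {p : ℝ}
    (hp : Tendsto (fun i => ∫ ξ, ∏ u ∈ S, (1 + spin (η u) * X i u ξ) / 2 ∂gN (Lab V)) atTop (𝓝 p)) :
    gN (Lab V) {ξ | ∀ v ∈ S, cfg X ξ v = η v} = ENNReal.ofReal p := by
  set E := {ξ : Lab V → ℝ | ∀ v ∈ S, cfg X ξ v = η v} with hE
  have hEm : MeasurableSet E := by
    have : E = ⋂ v ∈ S, (fun ξ => cfg X ξ v) ⁻¹' {η v} := by ext ξ; simp [hE]
    rw [this]
    exact Finset.measurableSet_biInter _ fun v _ =>
      ((measurable_pi_apply v).comp (measurable_cfg hm)) (measurableSet_singleton _)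
  set P := fun (w : V → ℝ) => ∏ u ∈ S, (1 + spin (η u) * w u) / 2 with hP
  have hind : ∀ ξ, E.indicator (1 : (Lab V → ℝ) → ℝ) ξ = P (fun u => spin (cfg X ξ u)) := by
    intro ξ
    by_cases h : ξ ∈ E
    · rw [Set.indicator_of_mem h, Pi.one_apply]
      refine (Finset.prod_eq_one fun u hu => ?_).symm
      simp only [h u hu]
      cases η u <;> simp [spin]
    · rw [Set.indicator_of_notMem h]
      simp only [hE, Set.mem_ofPred_eq] at h
      push Not at h
      obtain ⟨u, hu, hne⟩ := h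
      refine (Finset.prod_eq_zero hu ?_).symm
      cases hη : η u <;> cases hc : cfg X ξ u <;> simp_all [spin]
  have hsp : ∀ b : Bool, |spin b| = 1 := fun b => by cases b <;> simp [spin]
  have hl : Tendsto (fun i => ∫ ξ, P (fun u => X i u ξ) ∂gN (Lab V)) atTop
      (𝓝 (∫ ξ, P (fun u => spin (cfg X ξ u)) ∂gN (Lab V))) := by
    refine tendsto_integral_of_dominated_convergence (fun _ => 1)
      (fun i => (Finset.measurable_prod _ fun u _ =>
        (((hm i u).const_mul _).const_add 1).div_const 2).aestronglyMeasurable)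
      (integrable_const _) (fun i => ae_of_all _ fun ξ => ?_) ?_
    · rw [hP, Real.norm_eq_abs, Finset.abs_prod]
      refine Finset.prod_le_one (fun u _ => abs_nonneg _) fun u _ => ?_
      rw [abs_div, abs_two, div_le_one two_pos]
      refine (abs_add_le _ _).trans ?_
      rw [abs_one, abs_mul, hsp, one_mul]
      linarith [hb i u ξ]
    · have := (ae_ball_iff S.countable_toSet).2 fun v (_ : v ∈ (S : Set V)) => hlim v
      filter_upwards [this] with ξ h
      exact tendsto_finsetProd _ fun u hu => (((h u hu).const_mul _).const_add 1).div_const 2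
  have hval := tendsto_nhds_unique hl hp
  simp only [← hind] at hval
  rw [integral_indicator_one hEm] at hval
  rw [← ofReal_measureReal, hval]

/-- Equivariant stages with the right limiting laws give a factor of IID. -/
theorem fiid_of_stages (hT : RTree G d) {θc : ℝ} {X : ℕ → V → (Lab V → ℝ) → ℝ}
    (hm : ∀ i v, Measurable (X i v)) (hb : ∀ i v ξ, |X i v ξ| ≤ 1)
    (heq : ∀ (g : G ≃g G) i v ξ, X i (g v) ξ = X i v fun q => ξ (q.1, (q.2.1, g q.2.2)))
    {ε : ℕ → ℝ} (hε : Summable ε) (hinc : ∀ v, ∀ᶠ i in atTop, d1 (X i v) (X (i + 1) v) ≤ ε i)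
    (hsq : ∀ v, Tendsto (fun i => ∫ ξ, (1 - X i v ξ ^ 2) ∂gN (Lab V)) atTop (𝓝 0))
    (hlaw : ∀ (S : Finset V), Conn G S → ∀ η : V → Bool,
      Tendsto (fun i => ∫ ξ, ∏ u ∈ S, (1 + spin (η u) * X i u ξ) / 2 ∂gN (Lab V)) atTop
        (𝓝 (wt G θc S (S.filter fun u => η u = true)))) :
    ∃ ν, IsFreeIsing G θc ν ∧ IsFIID G ν := by
  have hlim : ∀ v, ∀ᵐ ξ ∂gN (Lab V), Tendsto (fun i => X i v ξ) atTop (𝓝 (spin (cfg X ξ v))) :=
    fun v => cfg_limit hm hb hε v (hinc v) (hsq v)
  have hcount := countable_vertices hT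
  obtain ⟨ψ, hψ, hψmap⟩ := exists_split
  have hmp := spread_mp (V := V) hψ hψmap
  have hΦ : Measurable (fun U => cfg X (spread ψ U)) := (measurable_cfg hm).comp hmp.measurable
  refine ⟨(iidLaw V).map (fun U => cfg X (spread ψ U)), ⟨?_, fun D hD η => ?_⟩,
    _, hΦ, fun g => ae_of_all _ fun U => ?_, rfl⟩
  · have : IsProbabilityMeasure (iidLaw V) := by unfold iidLaw; infer_instance
    exact Measure.isProbabilityMeasure_map hΦ.aemeasurable
  · have hms : MeasurableSet {σ : V → Bool | ∀ v ∈ D, σ v = η v} := by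
      have : {σ : V → Bool | ∀ v ∈ D, σ v = η v} = ⋂ v ∈ D, (fun σ => σ v) ⁻¹' {η v} := by
        ext σ; simp
      rw [this]
      exact Finset.measurableSet_biInter _ fun v _ =>
        (measurable_pi_apply v) (measurableSet_singleton _)
    have hwt : wt G θc D (D.filter fun u => η u = true) =
        (1 / 2) * ∏ e ∈ edgesIn G D, edgeWeight θc η e := by
      refine congrArg ((1 / 2 : ℝ) * ·) (Finset.prod_congr rfl fun e he => ?_)
      induction e using Sym2.ind with
      | h a b =>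
        simp only [edgesIn, Finset.mem_filter, Finset.mk_mem_sym2_iff] at he
        simp [edgeWeight_mk, Finset.mem_filter, he.1.1, he.1.2]
    rw [← hwt, ← cfg_law hm hb hlim D η (hlaw D hD η), ← hmp.map_eq]
    rw [Measure.map_apply hΦ hms, Measure.map_apply hmp.measurable]
    · rfl
    · exact (measurable_cfg hm) hms
  · funext v
    have h := cfg_map g (heq g) (g.symm v) (spread ψ fun w => U (g.symm w))
    rw [RelIso.apply_symm_apply] at h
    show cfg X (spread ψ fun w => U (g.symm w)) v = _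
    rw [h]
    refine congrArg (fun ζ => cfg X ζ (g.symm v)) (funext fun q => ?_)
    simp [spread]

/-! ## Estimates at a fixed parameter -/

theorem exists_consts_sub (hT : RTree G d) (h0 : 0 ≤ θ) (hsub : ((d : ℝ) - 1) * θ ^ 2 < 1) :
    θ < 1 ∧ Nonempty (Consts G θ) := by
  have hd : (3 : ℝ) ≤ d := by exact_mod_cast hT.three
  set s := 1 / ((d : ℝ) - 1) with hs
  have hθs : θ < √s := by
    rw [Real.lt_sqrt h0, hs, lt_div_iff₀ (by linarith)]
    linarith
  obtain ⟨a, ha1, ha2⟩ := exists_between hθs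
  obtain ⟨b, hb1, hb2⟩ := exists_between ha2
  have hP : Params d θ a b := ⟨h0, ha1, hb1, by
    have hb0 : 0 ≤ b := h0.trans (ha1.trans hb1).le
    have : b ^ 2 < s := (Real.lt_sqrt hb0).1 hb2
    rw [hs, lt_div_iff₀ (by linarith)] at this
    linarith⟩
  exact ⟨hP.θ1 hT, exists_consts hT hP⟩

/-- Enlarging the volume and refining the level of a good approximation changes little. -/
theorem appr_near (hT : RTree G d) (c : Consts G θ) {i R j : ℕ} {u : V} (hR : c.R0 i u i ≤ R)
    (hj : c.J0 i u R i ≤ j) {D : Finset V} (hD : Conn G D) (hball : ball G u R ⊆ D) :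
    ∀ᶠ m in atTop, d1 (appr G θ (ball G u R) i j u) (appr G θ D i m u) ≤ 2 * (1 / 2) ^ i := by
  filter_upwards [c.space i u i (ball G u R) D (conn_ball hT u _) hD (ball_mono hT u hR) hball,
    eventually_ge_atTop j] with m hm hge
  have s1 := c.refine i u R i j m hj hge
  have s2 : d1 (appr G θ (ball G u R) i m u) (appr G θ D i m u) ≤ (1 / 2) ^ i := by
    rw [d1_comm, d1_same_level]; exact hm
  have t := d1_triangle (G := G) (θ := θ) (ball G u R) (ball G u R) D i i i j m m u
  linarith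

theorem appr_sq (hT : RTree G d) (h0 : 0 ≤ θ) (h1 : θ < 1) (c : Consts G θ) {i R j : ℕ} {u : V}
    (hR : c.R0 i u i ≤ R) (hj : c.J0 i u R i ≤ j) :
    ∫ ξ, (1 - appr G θ (ball G u R) i j u ξ ^ 2) ∂gN (Lab V) ≤
      5 * (1 / 2) ^ i + 2 * exp (-((i : ℝ) / 2)) := by
  obtain ⟨m, hm1, hm2, hm3⟩ := ((appr_near hT c hR hj (conn_ball hT u R) subset_rfl).and
    (((tendsto_err (ball G u R) i).eventually_le_const (u := (1 / 2) ^ i) (by positivity)).and
      (eventually_small (ball G u R) i))).exists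
  set D := ball G u R with hD
  have h := sq_approx hT h0 h1 (conn_ball hT u R) (self_mem_ball hT u R) (T := i) hm3
  rw [← pull m (F := fun z => 1 - endVal G θ D i m u z ^ 2)
    (((measurable_endVal D i m u).pow_const 2).const_sub 1)] at h
  have hb : ∀ y : ℝ, |y| ≤ 1 → |1 - y ^ 2| ≤ 1 := fun y hy => by
    have := abs_le.1 hy; rw [abs_le]; constructor <;> nlinarith
  have i0 : ∀ k, Integrable (fun ξ => 1 - appr G θ D i k u ξ ^ 2) (gN (Lab V)) := fun k =>
    integrable_of_bdd (((measurable_appr D i k u).pow_const 2).const_sub 1)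
      (fun ξ => hb _ (abs_appr D i k u ξ))
  have i3 : Integrable (fun ξ => |appr G θ D i j u ξ - appr G θ D i m u ξ|) (gN (Lab V)) :=
    integrable_sub_appr _ _ _ _ _ _ _ _
  calc ∫ ξ, (1 - appr G θ D i j u ξ ^ 2) ∂gN (Lab V)
      ≤ ∫ ξ, ((1 - appr G θ D i m u ξ ^ 2) + 2 * |appr G θ D i j u ξ - appr G θ D i m u ξ|)
          ∂gN (Lab V) := by
        refine integral_mono (i0 j) ((i0 m).add (i3.const_mul 2)) fun ξ => ?_
        show 1 - appr G θ D i j u ξ ^ 2 ≤ _ + 2 * |_|
        have e1 := abs_le.1 (abs_appr (G := G) (θ := θ) D i j u ξ)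
        have e2 := abs_le.1 (abs_appr (G := G) (θ := θ) D i m u ξ)
        have h3 : |appr G θ D i j u ξ + appr G θ D i m u ξ| ≤ 2 := by
          rw [abs_le]; constructor <;> linarith
        have h4 := mul_le_mul_of_nonneg_left h3
          (abs_nonneg (appr G θ D i j u ξ - appr G θ D i m u ξ))
        rw [← abs_mul] at h4
        have h5 := neg_abs_le ((appr G θ D i j u ξ - appr G θ D i m u ξ) *
          (appr G θ D i j u ξ + appr G θ D i m u ξ))
        nlinarith
    _ ≤ _ := by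
        rw [integral_add (i0 m) (i3.const_mul 2), integral_const_mul]
        show ∫ ξ, (1 - appr G θ D i m u ξ ^ 2) ∂gN (Lab V) +
          2 * d1 (appr G θ D i j u) (appr G θ D i m u) ≤ _
        unfold appr at *
        linarith

theorem appr_law (hT : RTree G d) (h0 : 0 ≤ θ) (h1 : θ < 1) (c : Consts G θ) {S : Finset V}
    (hS : Conn G S) (s : V → Bool) {i R j : ℕ} (hR : ∀ u ∈ S, c.R0 i u i ≤ R)
    (hj : ∀ u ∈ S, c.J0 i u R i ≤ j) :
    |∫ ξ, ∏ u ∈ S, (1 + spin (s u) * appr G θ (ball G u R) i j u ξ) / 2 ∂gN (Lab V) -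
      wt G θ S (S.filter fun u => s u = true)| ≤
      S.card * (2 * (1 / 2) ^ i) + S.card * exp (-((i : ℝ) / 2)) + (1 / 2) ^ i := by
  obtain ⟨o, ho⟩ := hS.nonempty
  set M := S.sup (fun u => G.dist o u) + R with hM
  set D := ball G o M with hD
  have hball : ∀ u ∈ S, ball G u R ⊆ D := fun u hu => ball_subset_ball hT (by
    have := Finset.le_sup (f := fun u => G.dist o u) hu; omega)
  have hSD : S ⊆ D := fun u hu => hball u hu (self_mem_ball hT u R)
  have hnear : ∀ᶠ m in atTop, ∀ u ∈ S,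
      d1 (appr G θ (ball G u R) i j u) (appr G θ D i m u) ≤ 2 * (1 / 2) ^ i :=
    (Finset.eventually_all S).2 fun u hu =>
      appr_near hT c (hR u hu) (hj u hu) (conn_ball hT o M) (hball u hu)
  have herr : ∀ᶠ m in atTop, err D i m ≤ (1 / 2) ^ i :=
    (tendsto_err D i).eventually_le_const (by positivity)
  obtain ⟨m, hm1, hm2, hm3⟩ := (hnear.and (herr.and (eventually_small D i))).exists
  have hlaw := law_approx hT h0 h1 (conn_ball hT o M) hS hSD s (T := i) hm3
  set P := fun (w : V → ℝ) => ∏ u ∈ S, (1 + spin (s u) * w u) / 2 with hP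
  have hsp : ∀ b : Bool, spin b = 1 ∨ spin b = -1 := fun b => by cases b <;> simp [spin]
  have hfac : ∀ (u : V) (y : ℝ), |y| ≤ 1 →
      0 ≤ (1 + spin (s u) * y) / 2 ∧ (1 + spin (s u) * y) / 2 ≤ 1 := by
    intro u y hy
    have := abs_le.1 hy
    rcases hsp (s u) with h | h <;> rw [h] <;> constructor <;> linarith
  set Y := fun u ξ => appr G θ (ball G u R) i j u ξ with hY
  set Z := fun u ξ => appr G θ D i m u ξ with hZ
  have hYb : ∀ u ξ, |Y u ξ| ≤ 1 := fun u ξ => abs_appr _ _ _ _ _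
  have hZb : ∀ u ξ, |Z u ξ| ≤ 1 := fun u ξ => abs_appr _ _ _ _ _
  have hPd : ∀ ξ, |P (fun u => Y u ξ) - P (fun u => Z u ξ)| ≤ ∑ u ∈ S, |Y u ξ - Z u ξ| := by
    intro ξ
    refine (abs_prod_sub_prod_le S (fun u => hfac u _ (hYb u ξ))
      (fun u => hfac u _ (hZb u ξ))).trans (Finset.sum_le_sum fun u _ => ?_)
    rcases hsp (s u) with h | h <;> rw [h] <;>
      [rw [show (1 + 1 * Y u ξ) / 2 - (1 + 1 * Z u ξ) / 2 = (Y u ξ - Z u ξ) / 2 by ring];
       rw [show (1 + -1 * Y u ξ) / 2 - (1 + -1 * Z u ξ) / 2 =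
          -((Y u ξ - Z u ξ) / 2) by ring, abs_neg]] <;>
      rw [abs_div, abs_two] <;>
      linarith [abs_nonneg (Y u ξ - Z u ξ)]
  have hint : ∀ w : V → (Lab V → ℝ) → ℝ, (∀ u, Measurable (w u)) → (∀ u ξ, |w u ξ| ≤ 1) →
      Integrable (fun ξ => P (fun u => w u ξ)) (gN (Lab V)) := fun w hw hwb =>
    integrable_of_bdd (Finset.measurable_prod _ fun u _ =>
      (((hw u).const_mul (spin (s u))).const_add 1).div_const 2) (B := 1) fun ξ => by
      rw [hP, abs_of_nonneg (Finset.prod_nonneg fun u _ => (hfac u _ (hwb u ξ)).1)]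
      exact Finset.prod_le_one (fun u _ => (hfac u _ (hwb u ξ)).1)
        (fun u _ => (hfac u _ (hwb u ξ)).2)
  have i1 := hint Y (fun u => measurable_appr _ _ _ u) hYb
  have i2 := hint Z (fun u => measurable_appr _ _ _ u) hZb
  have e1 : |∫ ξ, P (fun u => Y u ξ) ∂gN (Lab V) - ∫ ξ, P (fun u => Z u ξ) ∂gN (Lab V)| ≤
      S.card * (2 * (1 / 2) ^ i) := by
    have hi' : ∀ u, Integrable (fun ξ => |Y u ξ - Z u ξ|) (gN (Lab V)) :=
      fun u => integrable_sub_appr _ _ _ _ _ _ _ _
    rw [← integral_sub i1 i2, ← Real.norm_eq_abs]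
    refine (norm_integral_le_of_norm_le (integrable_finsetSum _ fun u _ => hi' u)
      (ae_of_all _ hPd)).trans ?_
    rw [integral_finsetSum _ fun u _ => hi' u]
    refine (Finset.sum_le_card_nsmul _ _ _ hm1).trans (le_of_eq ?_)
    rw [nsmul_eq_mul]
  have e2 : ∫ ξ, P (fun u => Z u ξ) ∂gN (Lab V) =
      ∫ z, P (fun u => endVal G θ D i m u z) ∂gN (ℕ × V) :=
    pull m (F := fun z => P (fun u => endVal G θ D i m u z))
      (Finset.measurable_prod _ fun u _ =>
        (((measurable_endVal D i m u).const_mul (spin (s u))).const_add 1).div_const 2)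
  rw [e2] at e1
  show |∫ ξ, P (fun u => Y u ξ) ∂gN (Lab V) - _| ≤ _
  refine (abs_sub_le _ _ _).trans ((add_le_add e1 hlaw).trans ?_)
  linarith

theorem continuous_wt (S A : Finset V) : Continuous fun θ : ℝ => wt G θ S A := by
  refine continuous_const.mul (continuous_finsetProd _ fun e _ => ?_)
  induction e using Sym2.ind with
  | h a b =>
    simp only [edgeWeight_mk]
    fun_prop

/-! ## Changing the parameter -/

/-- At large times the end value is close to the magnetization. -/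
theorem end_mag (hT : RTree G d) (h0 : 0 ≤ θ) (h1 : θ < 1) {D : Finset V} (hD : Conn G D)
    {v : V} (hv : v ∈ D) {T j : ℕ}
    (hs : 4 * (D.card : ℝ) * dt j ≤ 1 ∧ 16 * (D.card : ℝ) ^ 2 * T * dt j ≤ 1) :
    ∫ z, |endVal G θ D T j v z - mag G θ D (scheme G θ D (dt j) z (steps T j)) v| ∂gN (ℕ × V) ≤
      exp (-((T : ℝ) / 2)) + 2 * err D T j := by
  set δ := dt j with hδdef
  have hδ : 0 ≤ δ := (dt_pos j).le
  set n := steps T j with hn
  set t := fun x : ℕ × V → ℝ => Real.tanh (fieldOf D δ x n v) with ht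
  set m := fun x : ℕ × V → ℝ => mag G θ D (fieldOf D δ x n) v with hm
  set F := fun x => |t x - m x| with hF
  have htm : Measurable t :=
    measurable_tanh'.comp ((measurable_pi_apply v).comp (measurable_fieldOf D δ n))
  have hmm : Measurable m := measurable_magField D δ n v
  have hmb : ∀ x, |m x| ≤ 1 := fun x => abs_mag_le h0 h1 D _ v
  have htb : ∀ x, |t x| ≤ 1 := fun x => abs_tanh_le _
  have hFm : Measurable F := (htm.sub hmm).abs
  have hFB : ∀ x, |F x| ≤ 2 := fun x => by
    rw [hF, abs_abs]; exact (abs_sub _ _).trans (by linarith [hmb x, htb x])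
  have hz : ∀ z, |endVal G θ D T j v z - mag G θ D (scheme G θ D δ z n) v| =
      F (xmap G θ D δ n z) := fun z => by
    simp only [hF, ht, hm, endVal, ← hδdef, ← hn, scheme_eq hδ D z (le_refl n)]
  simp only [hz]
  have e1 := (abs_le.1 (transfer_le hT h0 h1 hD (le_refl n) hs hFm hFB)).2
  have hint : Integrable (fun x => lDens G θ D δ n x * (1 - m x * t x)) (gN (ℕ × V)) :=
    (integrable_bdd_post D δ n (fun _ => 1) ((hmm.mul htm).const_sub 1) (B := 2) fun x => by
      refine (abs_sub _ _).trans ?_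
      rw [abs_one, Pi.mul_apply, abs_mul]
      linarith [mul_le_one₀ (hmb x) (abs_nonneg _) (htb x)]).congr
      (ae_of_all _ fun x => mul_comm _ _)
  have e2 : ∫ x, F x * lDens G θ D δ n x ∂gN (ℕ × V) ≤
      ∫ x, lDens G θ D δ n x * (1 - m x * t x) ∂gN (ℕ × V) := by
    refine integral_mono (integrable_bdd_post D δ n _ hFm hFB) hint fun x => ?_
    rw [mul_comm (F x)]
    refine mul_le_mul_of_nonneg_left ?_ (lDens_pos h0 h1 D δ n x).le
    have a1 := abs_le.1 (hmb x)
    have a2 := abs_le.1 (htb x)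
    rw [hF, abs_le]
    constructor <;> nlinarith
  have e3 := tanh_approx (G := G) hT h0 h1 hδ hD hv n
  rw [hδdef, hn, steps_mul_dt] at e3
  simp only [← hδdef] at e1
  simp only [← hn, ← hδdef] at e3
  linarith

/-- A small gap of magnetizations gives close end values. -/
theorem param_change (hT : RTree G d) (h0 : 0 ≤ θ) (h1 : θ < 1) (g0 : 0 ≤ θ') (g1 : θ' < 1)
    {R T j : ℕ} {v : V}
    (hs : 4 * ((ball G v R).card : ℝ) * dt j ≤ 1 ∧
      16 * ((ball G v R).card : ℝ) ^ 2 * T * dt j ≤ 1)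
    {c : ℝ} (hc : 0 < c) (hgap : gap G θ θ' R j (steps T j) v ≤ c ^ 2) :
    d1 (appr G θ (ball G v R) T j v) (appr G θ' (ball G v R) T j v) ≤
      c + 2 * exp (-((T : ℝ) / 2)) + 4 * err (ball G v R) T j := by
  set D := ball G v R with hD
  have hv : v ∈ D := self_mem_ball hT v R
  set k := steps T j with hk
  set a := fun z => endVal G θ D T j v z with ha
  set a' := fun z => endVal G θ' D T j v z with ha'
  set m := fun z => mc G θ R j k v z with hm
  set m' := fun z => mc G θ' R j k v z with hm'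
  have hma : Measurable a := measurable_endVal D T j v
  have hma' : Measurable a' := measurable_endVal D T j v
  have hmm : Measurable m := measurable_mc R j k v
  have hmm' : Measurable m' := measurable_mc R j k v
  have hab : ∀ z, |a z| ≤ 1 := fun z => abs_endVal D T j v z
  have hab' : ∀ z, |a' z| ≤ 1 := fun z => abs_endVal D T j v z
  have hmb : ∀ z, |m z| ≤ 1 := fun z => abs_mc_le h0 h1 R j k v z
  have hmb' : ∀ z, |m' z| ≤ 1 := fun z => abs_mc_le g0 g1 R j k v z
  have hii : ∀ {f g : (ℕ × V → ℝ) → ℝ}, Measurable f → Measurable g → (∀ z, |f z| ≤ 1) →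
      (∀ z, |g z| ≤ 1) → Integrable (fun z => |f z - g z|) (gN (ℕ × V)) := fun hf hg hfb hgb =>
    integrable_of_bdd (hf.sub hg).abs (B := 2) fun z => by
      rw [abs_abs]; exact (abs_sub _ _).trans (by linarith [hfb z, hgb z])
  have e1 : ∫ z, |a z - m z| ∂gN (ℕ × V) ≤ exp (-((T : ℝ) / 2)) + 2 * err D T j :=
    end_mag hT h0 h1 (conn_ball hT v R) hv hs
  have e2 : ∫ z, |a' z - m' z| ∂gN (ℕ × V) ≤ exp (-((T : ℝ) / 2)) + 2 * err D T j :=
    end_mag hT g0 g1 (conn_ball hT v R) hv hs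
  have e3 : ∫ z, |m z - m' z| ∂gN (ℕ × V) ≤ c := by
    refine (integral_abs_le (h := fun z => m z - m' z) (hmm.sub hmm') (B := 2)
      (fun z => (abs_sub _ _).trans (by linarith [hmb z, hmb' z])) hc).trans ?_
    have h : (∫ z, (m z - m' z) ^ 2 ∂gN (ℕ × V)) / (2 * c) ≤ c / 2 := by
      rw [div_le_iff₀ (by positivity)]
      calc _ ≤ c ^ 2 := hgap
        _ = _ := by ring
    linarith
  rw [d1, appr_pull hma hma']
  calc ∫ z, |a z - a' z| ∂gN (ℕ × V)
      ≤ ∫ z, (|a z - m z| + |m z - m' z| + |a' z - m' z|) ∂gN (ℕ × V) := by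
        refine integral_mono (hii hma hma' hab hab')
          (((hii hma hmm hab hmb).add (hii hmm hmm' hmb hmb')).add (hii hma' hmm' hab' hmb')) fun z => ?_
        show |a z - a' z| ≤ |a z - m z| + |m z - m' z| + |a' z - m' z|
        rw [abs_sub_comm (a' z)]
        linarith [abs_sub_le (a z) (m z) (a' z), abs_sub_le (m z) (m' z) (a' z)]
    _ ≤ _ := by
        rw [integral_add (f := fun z => |a z - m z| + |m z - m' z|)
            ((hii hma hmm hab hmb).add (hii hmm hmm' hmb hmb')) (hii hma' hmm' hab' hmb'),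
          integral_add (hii hma hmm hab hmb) (hii hmm hmm' hmb hmb')]
        linarith
where
  appr_pull {D : Finset V} {T j : ℕ} {v : V}
      (hma : Measurable (fun z => endVal G θ D T j v z))
      (hma' : Measurable (fun z => endVal G θ' D T j v z)) :
      ∫ ξ, |appr G θ D T j v ξ - appr G θ' D T j v ξ| ∂gN (Lab V) =
        ∫ z, |endVal G θ D T j v z - endVal G θ' D T j v z| ∂gN (ℕ × V) :=
    pull j (hma.sub hma').abs

/-! ## The limit -/

theorem summable_step :
    Summable (fun i : ℕ => 14 * (1 / 2 : ℝ) ^ i + 6 * exp (-((i : ℝ) / 2))) := by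
  refine (summable_geometric_two.mul_left 14).add (Summable.mul_left 6 ?_)
  have : (fun i : ℕ => exp (-((i : ℝ) / 2))) = fun i : ℕ => exp (-(1 / 2 : ℝ)) ^ i :=
    funext fun i => by rw [← Real.exp_nat_mul]; congr 1; ring
  rw [this]
  exact summable_geometric_of_lt_one (exp_pos _).le (exp_lt_one_iff.2 (by norm_num))

theorem tendsto_bound (A B : ℝ) :
    Tendsto (fun i : ℕ => A * (1 / 2 : ℝ) ^ i + B * exp (-((i : ℝ) / 2))) atTop (𝓝 0) := by
  have h1 := (tendsto_pow_atTop_nhds_zero_of_lt_one (by norm_num : (0 : ℝ) ≤ 1 / 2)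
    (by norm_num)).const_mul A
  have h2 := (tendsto_exp_neg_atTop_nhds_zero.comp
    (tendsto_natCast_atTop_atTop.atTop_div_const two_pos)).const_mul B
  simpa using h1.add h2

/-- A stable sequence of subcritical parameters gives a factor of IID at the limit parameter. -/
theorem fiid_of_stable (hT : RTree G d) (θs : ℕ → ℝ) {θc : ℝ}
    (hθ : ∀ i, 0 ≤ θs i ∧ ((d : ℝ) - 1) * θs i ^ 2 < 1) (hlim : Tendsto θs atTop (𝓝 θc))
    (hst : Stable G θs) : ∃ ν, IsFreeIsing G θc ν ∧ IsFIID G ν := by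
  have hcount := countable_vertices hT
  obtain ⟨e, he⟩ := Countable.exists_injective_nat V
  choose hθ1 hc using fun i => exists_consts_sub (G := G) hT (hθ i).1 (hθ i).2
  choose cs _ using fun i => exists_true_iff_nonempty.2 (hc i)
  choose I hI using fun T : ℕ => hst T (((1 / 2 : ℝ) ^ T) ^ 2) (by positivity)
  set ι := fun i : ℕ => i + ∑ k ∈ range (i + 1), I k with hι
  have hι1 : ∀ i, I i ≤ ι i := fun i =>
    (Finset.single_le_sum (fun k _ => Nat.zero_le (I k)) (Finset.self_mem_range_succ i)).trans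
      (Nat.le_add_left _ _)
  have hι2 : ∀ i, I i ≤ ι (i + 1) := fun i =>
    (Finset.single_le_sum (f := I) (fun k _ => Nat.zero_le (I k))
      (Finset.mem_range.2 (by omega : i < i + 1 + 1))).trans (Nat.le_add_left _ _)
  have hιlim : Tendsto ι atTop atTop :=
    tendsto_atTop_mono (fun i => Nat.le_add_right i _) tendsto_id
  choose N hN using fun i : ℕ =>
    eventually_atTop.1 (hI i (ι i) (ι (i + 1)) (hι1 i) (hι2 i))
  set f := fun k : ℕ => (piece e he k).sup (fun v => (cs (ι k)).R0 k v k) + N (k - 1) +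
    (piece e he k).sup (fun v => (cs (ι k)).R0 (k - 1) v (k - 1)) with hf
  set R := fun i : ℕ => ∑ k ∈ range (i + 1), f k with hR
  have hfR : ∀ i, f i ≤ R i := fun i =>
    Finset.single_le_sum (fun k _ => Nat.zero_le (f k)) (Finset.self_mem_range_succ i)
  have hR0 : ∀ i v, e v ≤ i → (cs (ι i)).R0 i v i ≤ R i := fun i v hv => by
    refine le_trans ?_ (hfR i)
    have := Finset.le_sup (f := fun v => (cs (ι i)).R0 i v i) (mem_piece.2 hv : v ∈ piece e he i)
    simp only [hf] at *
    omega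
  have hR1 : ∀ i v, e v ≤ i + 1 → (cs (ι (i + 1))).R0 i v i ≤ R (i + 1) := fun i v hv => by
    refine le_trans ?_ (hfR (i + 1))
    have := Finset.le_sup (f := fun v => (cs (ι (i + 1))).R0 i v i)
      (mem_piece.2 hv : v ∈ piece e he (i + 1))
    simp only [hf, Nat.add_sub_cancel] at *
    omega
  have hRN : ∀ i, N i ≤ R (i + 1) := fun i => by
    refine le_trans ?_ (hfR (i + 1))
    simp only [hf, Nat.add_sub_cancel]
    omega
  have hRm : ∀ i, R i ≤ R (i + 1) := fun i => by
    simp only [hR]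
    rw [Finset.sum_range_succ f (i + 1)]
    exact Nat.le_add_right _ _
  set L := fun i : ℕ => (piece e he i).sup (fun v => (cs (ι i)).J0 i v (R i) i) with hL
  have hL0 : ∀ i v, e v ≤ i → (cs (ι i)).J0 i v (R i) i ≤ L i := fun i v hv =>
    Finset.le_sup (f := fun v => (cs (ι i)).J0 i v (R i) i) (mem_piece.2 hv : v ∈ piece e he i)
  set X := fun i v ξ => appr G (θs (ι i)) (ball G v (R i)) i (L i) v ξ with hX
  have hinc : ∀ v, ∀ᶠ i in atTop,
      d1 (X i v) (X (i + 1) v) ≤ 14 * (1 / 2 : ℝ) ^ i + 6 * exp (-((i : ℝ) / 2)) := by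
    intro v
    filter_upwards [eventually_ge_atTop (e v)] with i hi
    set q := (1 / 2 : ℝ) ^ i with hq
    set E := exp (-((i : ℝ) / 2)) with hE
    set B := ball G v (R (i + 1)) with hB
    set a := θs (ι i) with ha
    set b := θs (ι (i + 1)) with hb
    have hsmall : ∀ᶠ m in atTop, err B i m ≤ q ∧
        (4 * (B.card : ℝ) * dt m ≤ 1 ∧ 16 * (B.card : ℝ) ^ 2 * i * dt m ≤ 1) :=
      ((tendsto_err B i).eventually_le_const (by positivity)).and (eventually_small B i)
    obtain ⟨m, ⟨hm1, hm2⟩, hm3, hm4, hm5⟩ := (hsmall.and ((hN i (R (i + 1)) (hRN i)).and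
      ((eventually_ge_atTop ((cs (ι i)).J0 i v (R (i + 1)) i)).and
        (eventually_ge_atTop ((cs (ι (i + 1))).J0 i v (R (i + 1)) i))))).exists
    have s1 : d1 (X i v) (appr G a B i m v) ≤ 2 * q + E + E + q + q :=
      cross hT (hθ _).1 (hθ1 _) (cs (ι i)) v i (i' := i) le_rfl (hR0 i v hi) (hRm i) (hL0 i v hi) hm4
    have s2 : d1 (appr G a B i m v) (appr G b B i m v) ≤ q + 2 * E + 4 * err B i m :=
      param_change hT (hθ _).1 (hθ1 _) (hθ _).1 (hθ1 _) hm2 (by positivity) (hm3 v)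
    have s3 : d1 (appr G b B i m v) (X (i + 1) v) ≤
        2 * q + E + exp (-(((i + 1 : ℕ) : ℝ) / 2)) + q + (1 / 2) ^ (i + 1) :=
      cross hT (hθ _).1 (hθ1 _) (cs (ι (i + 1))) v i (i' := i + 1) (Nat.le_succ i)
        (hR1 i v (by omega)) le_rfl hm5 (hL0 (i + 1) v (by omega))
    have h2 : exp (-(((i + 1 : ℕ) : ℝ) / 2)) ≤ E := by
      rw [hE]; exact Real.exp_le_exp.2 (by push_cast; linarith)
    have h3 : (1 / 2 : ℝ) ^ (i + 1) ≤ q :=
      pow_le_pow_of_le_one (by norm_num) (by norm_num) (Nat.le_succ i)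
    have hq0 : 0 ≤ q := by positivity
    have mX : ∀ k, Measurable (X k v) := fun k => measurable_appr _ _ _ v
    have bX : ∀ k ξ, |X k v ξ| ≤ 1 := fun k ξ => abs_appr _ _ _ _ _
    have t1 := d1_trans (mX i) (measurable_appr (G := G) (θ := a) B i m v) (mX (i + 1)) (bX i)
      (abs_appr B i m v) (bX (i + 1))
    have t2 := d1_trans (measurable_appr (G := G) (θ := a) B i m v)
      (measurable_appr (G := G) (θ := b) B i m v) (mX (i + 1)) (abs_appr B i m v)
      (abs_appr B i m v) (bX (i + 1))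
    linarith [exp_pos (-((i : ℝ) / 2))]
  refine fiid_of_stages hT (X := X) (fun i v => measurable_appr _ _ _ v)
    (fun i v ξ => abs_appr _ _ _ _ _) (fun g i v ξ => ?_) summable_step hinc (fun v => ?_)
    (fun S hS η => ?_)
  · simp only [hX, appr, endVal, ball_map hT, scheme_map, ← noise_relabel]
  · refine squeeze_zero' (Eventually.of_forall fun i => integral_nonneg fun ξ => ?_) ?_
      (tendsto_bound 5 2)
    · have := abs_le.1 (abs_appr (G := G) (θ := θs (ι i)) (ball G v (R i)) i (L i) v ξ)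
      show 0 ≤ 1 - X i v ξ ^ 2
      simp only [hX]
      nlinarith
    · filter_upwards [eventually_ge_atTop (e v)] with i hi
      exact appr_sq hT (hθ _).1 (hθ1 _) (cs (ι i)) (hR0 i v hi) (hL0 i v hi)
  · have hw := ((continuous_wt (G := G) S (S.filter fun u => η u = true)).tendsto θc).comp
      (hlim.comp hιlim)
    refine tendsto_of_tendsto_of_dist hw ?_
    refine squeeze_zero' (Eventually.of_forall fun _ => dist_nonneg) ?_
      (tendsto_bound (2 * S.card + 1) S.card)
    filter_upwards [eventually_ge_atTop (S.sup e)] with i hi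
    have hle : ∀ u ∈ S, e u ≤ i := fun u hu => (Finset.le_sup hu).trans hi
    rw [dist_comm, Real.dist_eq]
    refine (appr_law hT (hθ _).1 (hθ1 _) (cs (ι i)) hS η (fun u hu => hR0 i u (hle u hu))
      (fun u hu => hL0 i u (hle u hu))).trans (le_of_eq ?_)
    ring

end Vale.Agent.P161
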