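import Vale.Agent.P161.Crit.Strength

/-!
# Moments and spread of the messages up to the critical point
-/

open MeasureTheory ProbabilityTheory Finset Real
open scoped ENNReal NNReal Classical

noncomputable section

namespace Vale.Agent.P161

variable {Q : ℕ} {θ t : ℝ}

theorem hasDerivAt_tanh' (x : ℝ) : HasDerivAt Real.tanh (1 / Real.cosh x ^ 2) x := by
  rw [funext Real.tanh_eq_sinh_div_cosh]
  refine ((Real.hasDerivAt_sinh x).div (Real.hasDerivAt_cosh x)
    (Real.cosh_pos x).ne').congr_deriv ?_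
  rw [← sq, ← sq, Real.cosh_sq x]
  ring

theorem mul_tanh_le {θ x : ℝ} (h0 : 0 ≤ θ) (h1 : θ ≤ 1) (hx : 0 ≤ x) :
    θ * tanh x ≤ tanh (θ * x) := by
  have hd : ∀ y : ℝ, HasDerivAt (fun y => tanh (θ * y) - θ * tanh y)
      (θ * (1 / Real.cosh (θ * y) ^ 2 - 1 / Real.cosh y ^ 2)) y := by
    intro y
    have h2 : HasDerivAt (fun y => tanh (θ * y)) (1 / Real.cosh (θ * y) ^ 2 * θ) y := by
      simpa [Function.comp_def] using (hasDerivAt_tanh' (θ * y)).comp y ((hasDerivAt_id y).const_mul θ)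
    exact (h2.sub ((hasDerivAt_tanh' y).const_mul θ)).congr_deriv (by ring)
  have hmono : MonotoneOn (fun y => tanh (θ * y) - θ * tanh y) (Set.Ici 0) := by
    refine monotoneOn_of_hasDerivWithinAt_nonneg (convex_Ici 0)
      (fun y _ => (hd y).continuousAt.continuousWithinAt) (fun y _ => (hd y).hasDerivWithinAt) ?_
    intro y hy
    rw [interior_Ici, Set.mem_Ioi] at hy
    refine mul_nonneg h0 (sub_nonneg.2 (one_div_le_one_div_of_le (by positivity) ?_))
    refine pow_le_pow_left₀ (Real.cosh_pos _).le (Real.cosh_le_cosh.2 ?_) 2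
    rw [abs_of_nonneg (mul_nonneg h0 hy.le), abs_of_nonneg hy.le]
    nlinarith
  have := hmono (Set.self_mem_Ici) hx hx
  simp at this
  linarith

theorem abs_leafShift_le' (h0 : 0 ≤ θ) (h1 : θ < 1) (x : ℝ) : |leafShift θ x| ≤ θ * |x| := by
  have key : ∀ y : ℝ, 0 ≤ y → 0 ≤ leafShift θ y ∧ leafShift θ y ≤ θ * y := by
    intro y hy
    have ht := tanh_nonneg' hy
    have hb := (abs_lt.1 (Real.abs_tanh_lt_one y)).2
    rw [leafShift_eq h0 h1]
    refine ⟨artanh_nonneg (mul_nonneg h0 ht), ?_⟩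
    have h2 := artanh_le_artanh (x := θ * tanh y) (y := tanh (θ * y)) (by nlinarith)
      (Real.tanh_lt_one _) (mul_tanh_le h0 h1.le hy)
    rwa [artanh_tanh] at h2
  rcases le_total 0 x with h | h
  · rw [abs_of_nonneg h, abs_of_nonneg (key x h).1]; exact (key x h).2
  · obtain ⟨k1, k2⟩ := key (-x) (neg_nonneg.2 h)
    rw [← abs_neg, ← leafShift_neg h0 h1, abs_of_nonneg k1, abs_of_nonpos h]
    exact k2

theorem theta_le (hQ : 2 ≤ Q) (h0 : 0 ≤ θ) (hl : (Q : ℝ) * θ ^ 2 ≤ 1) : θ ≤ 3 / 4 := by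
  have hQr : (2 : ℝ) ≤ Q := by exact_mod_cast hQ
  nlinarith

/-- A moment bound on a law on the line. -/
def MomLe (μ : Measure ℝ) (p : ℕ) (A B : ℝ) : Prop :=
  Integrable (fun x => |x| ^ p) μ ∧ Integrable (fun x => |x|) μ ∧
    ∫ x, |x| ^ p ∂μ ≤ B ∧ ∫ x, |x| ∂μ ≤ A

theorem add_pow_cross {p : ℕ} {a b : ℝ} (ha : 0 ≤ a) (hb : 0 ≤ b) :
    (a + b) ^ (p + 1) ≤ a ^ (p + 1) + b ^ (p + 1) +
      ((p : ℝ) + 1) * 2 ^ p * (a * b ^ p + b * a ^ p) := by
  have key : ∀ a b : ℝ, 0 ≤ a → a ≤ b →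
      (a + b) ^ (p + 1) ≤ a ^ (p + 1) + b ^ (p + 1) + ((p : ℝ) + 1) * 2 ^ p * (a * b ^ p) := by
    intro a b ha hab
    have hb : 0 ≤ b := ha.trans hab
    have h : (a + b) ^ (p + 1) - b ^ (p + 1) ≤ a * (((p : ℝ) + 1) * (a + b) ^ p) := by
      have hs := geom_sum₂_mul (a + b) b (p + 1)
      rw [add_sub_cancel_right] at hs
      rw [← hs, mul_comm]
      refine mul_le_mul_of_nonneg_left ?_ ha
      refine (Finset.sum_le_card_nsmul _ _ ((a + b) ^ p) fun i hi => ?_).trans (le_of_eq ?_)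
      · rw [Finset.mem_range] at hi
        calc (a + b) ^ i * b ^ (p + 1 - 1 - i) ≤ (a + b) ^ i * (a + b) ^ (p + 1 - 1 - i) :=
              mul_le_mul_of_nonneg_left (pow_le_pow_left₀ hb (by linarith) _) (by positivity)
          _ = (a + b) ^ p := by rw [← pow_add]; congr 1; omega
      · rw [Finset.card_range, nsmul_eq_mul]; push_cast; ring
    have h2 : (a + b) ^ p ≤ 2 ^ p * b ^ p := by
      rw [← mul_pow]; exact pow_le_pow_left₀ (by linarith) (by linarith) p
    have h3 : a * (((p : ℝ) + 1) * (a + b) ^ p) ≤ ((p : ℝ) + 1) * 2 ^ p * (a * b ^ p) := by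
      calc a * (((p : ℝ) + 1) * (a + b) ^ p) ≤ a * (((p : ℝ) + 1) * (2 ^ p * b ^ p)) :=
            mul_le_mul_of_nonneg_left (mul_le_mul_of_nonneg_left h2 (by positivity)) ha
        _ = _ := by ring
    linarith [pow_nonneg ha (p + 1)]
  have hc : 0 ≤ ((p : ℝ) + 1) * 2 ^ p := by positivity
  rcases le_total a b with h | h
  · nlinarith [key a b ha h, mul_nonneg hc (mul_nonneg hb (pow_nonneg ha p))]
  · have := key b a hb h
    rw [add_comm b a] at this
    nlinarith [mul_nonneg hc (mul_nonneg ha (pow_nonneg hb p))]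

theorem young_pow {p : ℕ} {ε u x : ℝ} (hε : 0 < ε) (hu : 0 ≤ u) (hx : 0 ≤ x) :
    u * x ^ p ≤ ε * x ^ (p + 1) + (1 / ε) ^ p * u ^ (p + 1) := by
  rcases le_total u (ε * x) with h | h
  · calc u * x ^ p ≤ ε * x * x ^ p := mul_le_mul_of_nonneg_right h (pow_nonneg hx p)
      _ = ε * x ^ (p + 1) := by ring
      _ ≤ _ := le_add_of_nonneg_right (by positivity)
  · calc u * x ^ p ≤ u * (1 / ε * u) ^ p := by
          refine mul_le_mul_of_nonneg_left (pow_le_pow_left₀ hx ?_ p) hu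
          rw [one_div_mul_eq_div, le_div_iff₀ hε]; linarith
      _ = (1 / ε) ^ p * u ^ (p + 1) := by rw [mul_pow]; ring
      _ ≤ _ := le_add_of_nonneg_left (by positivity)

theorem integrable_pow_le {μ : Measure ℝ} [IsFiniteMeasure μ] {p : ℕ}
    (h : Integrable (fun x => |x| ^ (p + 1)) μ) : Integrable (fun x => |x| ^ p) μ := by
  refine Integrable.mono' (h.add (integrable_const (1 : ℝ)))
    (continuous_abs.pow p).measurable.aestronglyMeasurable (ae_of_all _ fun x => ?_)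
  rw [Real.norm_eq_abs, abs_of_nonneg (by positivity)]
  show |x| ^ p ≤ |x| ^ (p + 1) + 1
  rcases le_total |x| 1 with hx | hx
  · linarith [pow_le_one₀ (n := p) (abs_nonneg x) hx, pow_nonneg (abs_nonneg x) (p + 1)]
  · linarith [pow_le_pow_right₀ hx (show p ≤ p + 1 by omega)]

/-- Combining two independent summands, up to cross terms. -/
theorem MomLe.add {μ ν : Measure ℝ} [IsProbabilityMeasure μ] [IsProbabilityMeasure ν] {p : ℕ}
    {A A' B B' u ε : ℝ} (hμ : MomLe μ (p + 1) (A * u) B) (hν : MomLe ν (p + 1) (A' * u) B')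
    (hA : 0 ≤ A) (hA' : 0 ≤ A') (hu : 0 ≤ u) (hε : 0 < ε) :
    MomLe (addLaw μ ν) (p + 1) ((A + A') * u)
      ((1 + ((p : ℝ) + 1) * 2 ^ p * ((A + A') * ε)) * (B + B') +
        ((p : ℝ) + 1) * 2 ^ p * ((A + A') * (1 / ε) ^ p) * u ^ (p + 1)) := by
  obtain ⟨i1, j1, b1, a1⟩ := hμ
  obtain ⟨i2, j2, b2, a2⟩ := hν
  set D := ((p : ℝ) + 1) * 2 ^ p with hD
  have hD0 : 0 ≤ D := by positivity
  have hsum : Measurable fun q : ℝ × ℝ => q.1 + q.2 := by fun_prop
  have k1 := integrable_pow_le i1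
  have k2 := integrable_pow_le i2
  have f1 : Integrable (fun q : ℝ × ℝ => |q.1| ^ (p + 1)) (μ.prod ν) := i1.comp_fst ν
  have f2 : Integrable (fun q : ℝ × ℝ => |q.2| ^ (p + 1)) (μ.prod ν) := i2.comp_snd μ
  have f3 : Integrable (fun q : ℝ × ℝ => |q.1| * |q.2| ^ p) (μ.prod ν) := j1.mul_prod k2
  have f4 : Integrable (fun q : ℝ × ℝ => |q.2| * |q.1| ^ p) (μ.prod ν) :=
    (k1.mul_prod j2).congr (ae_of_all _ fun q => mul_comm _ _)
  have f5 : Integrable (fun q : ℝ × ℝ => |q.1| + |q.2|) (μ.prod ν) :=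
    (j1.comp_fst ν).add (j2.comp_snd μ)
  have g : Integrable (fun q : ℝ × ℝ => |q.1| ^ (p + 1) + |q.2| ^ (p + 1) +
      D * (|q.1| * |q.2| ^ p + |q.2| * |q.1| ^ p)) (μ.prod ν) :=
    (f1.add f2).add ((f3.add f4).const_mul D)
  have hpt : ∀ q : ℝ × ℝ, |q.1 + q.2| ^ (p + 1) ≤ |q.1| ^ (p + 1) + |q.2| ^ (p + 1) +
      D * (|q.1| * |q.2| ^ p + |q.2| * |q.1| ^ p) := fun q =>
    (pow_le_pow_left₀ (abs_nonneg _) (abs_add_le _ _) _).trans
      (add_pow_cross (abs_nonneg _) (abs_nonneg _))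
  have hi : Integrable (fun q : ℝ × ℝ => |q.1 + q.2| ^ (p + 1)) (μ.prod ν) :=
    Integrable.mono' g ((continuous_fst.add continuous_snd).abs.pow _).measurable.aestronglyMeasurable
      (ae_of_all _ fun q => by rw [Real.norm_eq_abs, abs_of_nonneg (by positivity)]; exact hpt q)
  have hj : Integrable (fun q : ℝ × ℝ => |q.1 + q.2|) (μ.prod ν) :=
    Integrable.mono' f5 (continuous_fst.add continuous_snd).abs.measurable.aestronglyMeasurable
      (ae_of_all _ fun q => by rw [Real.norm_eq_abs, abs_abs]; exact abs_add_le _ _)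
  have hmp : Measurable fun x : ℝ => |x| ^ (p + 1) := (continuous_abs.pow _).measurable
  refine ⟨(integrable_map_measure hmp.aestronglyMeasurable hsum.aemeasurable).2 hi,
    (integrable_map_measure continuous_abs.measurable.aestronglyMeasurable hsum.aemeasurable).2 hj,
    ?_, ?_⟩
  swap
  · rw [addLaw, integral_map hsum.aemeasurable continuous_abs.measurable.aestronglyMeasurable]
    refine (integral_mono hj f5 fun q => abs_add_le _ _).trans ?_
    rw [integral_add (j1.comp_fst ν) (j2.comp_snd μ), integral_fun_fst (fun x => |x|),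
      integral_fun_snd (fun x => |x|)]
    simp only [probReal_univ, smul_eq_mul, one_mul]
    linarith
  rw [addLaw, integral_map hsum.aemeasurable hmp.aestronglyMeasurable]
  refine (integral_mono hi g hpt).trans ?_
  have f34 : Integrable (fun q : ℝ × ℝ => D * (|q.1| * |q.2| ^ p + |q.2| * |q.1| ^ p)) (μ.prod ν) :=
    (f3.add f4).const_mul D
  rw [integral_add (f := fun q : ℝ × ℝ => |q.1| ^ (p + 1) + |q.2| ^ (p + 1)) (f1.add f2)
      f34, integral_add f1 f2, integral_const_mul, integral_add f3 f4,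
    integral_fun_fst (fun x => |x| ^ (p + 1)), integral_fun_snd (fun x => |x| ^ (p + 1)),
    integral_prod_mul (fun x : ℝ => |x|) (fun x : ℝ => |x| ^ p)]
  have e4 : ∫ q, |q.2| * |q.1| ^ p ∂μ.prod ν = (∫ x, |x| ^ p ∂μ) * ∫ x, |x| ∂ν := by
    rw [← integral_prod_mul]
    exact integral_congr_ae (ae_of_all _ fun q => mul_comm _ _)
  rw [e4]
  simp only [probReal_univ, smul_eq_mul, one_mul]
  have yl : ∀ (ρ : Measure ℝ), IsProbabilityMeasure ρ → Integrable (fun x => |x| ^ (p + 1)) ρ →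
      u * ∫ x, |x| ^ p ∂ρ ≤ ε * ∫ x, |x| ^ (p + 1) ∂ρ + (1 / ε) ^ p * u ^ (p + 1) := by
    intro ρ _ hi
    rw [← integral_const_mul]
    refine (integral_mono ((integrable_pow_le hi).const_mul u)
      ((hi.const_mul ε).add (integrable_const _))
      fun x => young_pow hε hu (abs_nonneg x)).trans (le_of_eq ?_)
    rw [integral_add' (hi.const_mul ε) (integrable_const _), integral_const_mul]
    simp
  have y2 : (∫ x, |x| ∂μ) * ∫ x, |x| ^ p ∂ν ≤ A * (ε * B' + (1 / ε) ^ p * u ^ (p + 1)) := by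
    refine (mul_le_mul_of_nonneg_right a1 (integral_nonneg fun x => by positivity)).trans ?_
    rw [mul_assoc]
    refine mul_le_mul_of_nonneg_left ((yl ν inferInstance i2).trans ?_) hA
    linarith [mul_le_mul_of_nonneg_left b2 hε.le]
  have y1 : (∫ x, |x| ^ p ∂μ) * ∫ x, |x| ∂ν ≤ A' * (ε * B + (1 / ε) ^ p * u ^ (p + 1)) := by
    rw [mul_comm]
    refine (mul_le_mul_of_nonneg_right a2 (integral_nonneg fun x => by positivity)).trans ?_
    rw [mul_assoc]
    refine mul_le_mul_of_nonneg_left ((yl μ inferInstance i1).trans ?_) hA'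
    linarith [mul_le_mul_of_nonneg_left b1 hε.le]
  have hB : 0 ≤ B := (integral_nonneg fun x => by positivity).trans b1
  have hB' : 0 ≤ B' := (integral_nonneg fun x => by positivity).trans b2
  have hy := mul_le_mul_of_nonneg_left (add_le_add y2 y1) hD0
  have e1 : 0 ≤ D * (ε * A * B) := by positivity
  have e2 : 0 ≤ D * (ε * A' * B') := by positivity
  nlinarith [b1, b2]

theorem momLe_sum {μ : Measure ℝ} [IsProbabilityMeasure μ] {p : ℕ} {A B u ε : ℝ}
    (hμ : MomLe μ (p + 1) (A * u) B) (hA : 0 ≤ A) (hu : 0 ≤ u) (hε : 0 < ε) :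
    ∀ n : ℕ, MomLe (sumLaw μ n) (p + 1) ((n * A) * u)
      ((1 + ((p : ℝ) + 1) * 2 ^ p * ((n * A) * ε)) ^ n * (n * B +
        n * (((p : ℝ) + 1) * 2 ^ p * ((n * A) * (1 / ε) ^ p)) * u ^ (p + 1))) := by
  have hB : 0 ≤ B := (integral_nonneg fun x => by positivity).trans hμ.2.2.1
  intro n
  induction n with
  | zero =>
    rw [sumLaw_zero]
    refine ⟨?_, ?_, ?_, ?_⟩
    · exact integrable_dirac (by finiteness)
    · exact integrable_dirac (by finiteness)
    · simp
    · simp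
  | succ n ih =>
    have := sumLaw_prob μ n
    rw [sumLaw_succ]
    obtain ⟨i, j, b, a⟩ := hμ.add ih hA (by positivity) hu hε
    refine ⟨i, j, b.trans ?_, a.trans (le_of_eq (by push_cast; ring))⟩
    set D := ((p : ℝ) + 1) * 2 ^ p with hD
    set E := (n : ℝ) + 1 with hE
    have hD0 : 0 ≤ D := by positivity
    have hn0 : (0 : ℝ) ≤ n := Nat.cast_nonneg n
    set P := 1 + D * (E * A * ε) with hP
    set S := D * (E * A * (1 / ε) ^ p) * u ^ (p + 1) with hS
    have hP1 : 1 ≤ P := le_add_of_nonneg_right (by positivity)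
    have hP0 : (0 : ℝ) ≤ P := by linarith
    have hS0 : 0 ≤ S := by positivity
    have e1 : A + n * A = E * A := by rw [hE]; ring
    have h1 : (1 + D * ((n : ℝ) * A * ε)) ^ n *
        (n * B + n * (D * ((n : ℝ) * A * (1 / ε) ^ p)) * u ^ (p + 1)) ≤ P ^ n * (n * B + n * S) := by
      refine mul_le_mul (pow_le_pow_left₀ (by positivity) ?_ n) ?_ (by positivity) (by positivity)
      · rw [hP]
        refine add_le_add le_rfl (mul_le_mul_of_nonneg_left (mul_le_mul_of_nonneg_right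
          (mul_le_mul_of_nonneg_right (by linarith) hA) hε.le) hD0)
      · rw [hS, mul_assoc (n : ℝ)]
        refine add_le_add le_rfl (mul_le_mul_of_nonneg_left (mul_le_mul_of_nonneg_right
          (mul_le_mul_of_nonneg_left (mul_le_mul_of_nonneg_right
            (mul_le_mul_of_nonneg_right (by linarith) hA) (by positivity)) hD0) (by positivity)) hn0)
    rw [e1, ← hP, ← hS]
    push_cast
    rw [← hE, ← hP]
    calc P * (B + (1 + D * ((n : ℝ) * A * ε)) ^ n *
          (n * B + n * (D * ((n : ℝ) * A * (1 / ε) ^ p)) * u ^ (p + 1))) + S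
        ≤ P * (P ^ n * B + P ^ n * (n * B + n * S)) + P * (P ^ n * S) := by
          refine add_le_add (mul_le_mul_of_nonneg_left
            (add_le_add (le_mul_of_one_le_left hB (one_le_pow₀ hP1)) h1) hP0) ?_
          rw [← mul_assoc]
          exact le_mul_of_one_le_left hS0 (by rw [← pow_succ']; exact one_le_pow₀ hP1)
      _ = P ^ (n + 1) * (E * B + E * S) := by rw [hE, pow_succ]; ring
      _ = _ := by rw [hS]; ring

theorem child_abs_le (h0 : 0 ≤ θ) (h1 : θ < 1) {μ : Measure ℝ} (hμ : Nish μ) (hθ : θ ≤ 3 / 4)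
    {u q : ℝ} (hu : 0 < u) (hq : ∫ x, tanh x ∂μ ≤ q) :
    ∫ x, |x| ∂childLaw θ μ ≤ 32 * q / u + u / 2 := by
  have := hμ.1
  have hint : Integrable (fun q : ℝ × ℝ => |sgn θ q.2 * leafShift θ q.1|) (μ.prod unifLaw) := by
    refine Integrable.of_bound (measurable_childMap.abs).aestronglyMeasurable 8 (ae_of_all _ fun q => ?_)
    rw [Real.norm_eq_abs, abs_abs, abs_mul]
    rcases sgn_cases (θ := θ) q.2 with h | h <;> rw [h] <;> simp only [abs_one, abs_neg, one_mul] <;>
    · refine (abs_leafShift_le h0 h1 _).trans ?_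
      calc 2 / (1 - θ) * |θ * tanh q.1| ≤ 8 * 1 := mul_le_mul
            (by rw [div_le_iff₀ (by linarith)]; linarith)
            (by rw [abs_mul, abs_of_nonneg h0]; nlinarith [abs_tanh_le q.1])
            (abs_nonneg _) (by norm_num)
        _ = 8 := by norm_num
  rw [childLaw, integral_map measurable_childMap.aemeasurable
    continuous_abs.measurable.aestronglyMeasurable]
  have hpt : ∀ q : ℝ × ℝ, |sgn θ q.2 * leafShift θ q.1| ≤ 32 * tanh q.1 ^ 2 / u + u / 2 := by
    intro q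
    have hs : |sgn θ q.2| = 1 := by rcases sgn_cases (θ := θ) q.2 with h | h <;> simp [h]
    rw [abs_mul, hs, one_mul]
    have h2 : |leafShift θ q.1| ≤ 8 * |tanh q.1| := by
      refine (abs_leafShift_le h0 h1 _).trans ?_
      rw [abs_mul, abs_of_nonneg h0, ← mul_assoc]
      refine mul_le_mul_of_nonneg_right ?_ (abs_nonneg _)
      rw [div_mul_eq_mul_div, div_le_iff₀ (by linarith)]; linarith
    have h3 : 8 * |tanh q.1| ≤ 32 * tanh q.1 ^ 2 / u + u / 2 := by
      rw [div_add_div _ _ hu.ne' two_ne_zero, le_div_iff₀ (by positivity)]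
      nlinarith [sq_nonneg (8 * |tanh q.1| - u), sq_abs (tanh q.1)]
    linarith
  have i2 : Integrable (fun q : ℝ × ℝ => 32 * tanh q.1 ^ 2 / u) (μ.prod unifLaw) := by
    have : Integrable (fun x : ℝ => 32 * tanh x ^ 2 / u) μ :=
      ((integrable_of_bdd (measurable_tanh'.pow_const 2) (B := 1) fun x => by
        rw [abs_pow]; exact pow_le_one₀ (abs_nonneg _) (abs_tanh_le x)).const_mul 32).div_const u
    exact this.comp_fst unifLaw
  refine (integral_mono hint (i2.add (integrable_const _)) hpt).trans ?_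
  rw [integral_add' i2 (integrable_const _), integral_fun_fst (fun x => 32 * tanh x ^ 2 / u),
    integral_div, integral_const_mul, ← hμ.tanh_sq]
  simp only [probReal_univ, smul_eq_mul, one_mul, integral_const]
  gcongr

theorem child_pow_le (h0 : 0 ≤ θ) (h1 : θ < 1) {μ : Measure ℝ} [IsProbabilityMeasure μ] {p : ℕ}
    (hi : Integrable (fun x => |x| ^ p) μ) :
    Integrable (fun x => |x| ^ p) (childLaw θ μ) ∧
      ∫ x, |x| ^ p ∂childLaw θ μ ≤ θ ^ p * ∫ x, |x| ^ p ∂μ := by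
  have hmp : Measurable fun x : ℝ => |x| ^ p := (continuous_abs.pow _).measurable
  have hpt : ∀ q : ℝ × ℝ, |sgn θ q.2 * leafShift θ q.1| ^ p ≤ θ ^ p * |q.1| ^ p := by
    intro q
    have hs : |sgn θ q.2| = 1 := by rcases sgn_cases (θ := θ) q.2 with h | h <;> simp [h]
    rw [abs_mul, hs, one_mul, ← mul_pow]
    exact pow_le_pow_left₀ (abs_nonneg _) (abs_leafShift_le' h0 h1 _) p
  have g : Integrable (fun q : ℝ × ℝ => θ ^ p * |q.1| ^ p) (μ.prod unifLaw) :=
    (hi.comp_fst unifLaw).const_mul _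
  have hj : Integrable (fun q : ℝ × ℝ => |sgn θ q.2 * leafShift θ q.1| ^ p) (μ.prod unifLaw) :=
    Integrable.mono' g (hmp.comp measurable_childMap).aestronglyMeasurable
      (ae_of_all _ fun q => by rw [Real.norm_eq_abs, abs_of_nonneg (by positivity)]; exact hpt q)
  refine ⟨(integrable_map_measure hmp.aestronglyMeasurable measurable_childMap.aemeasurable).2 hj, ?_⟩
  rw [childLaw, integral_map measurable_childMap.aemeasurable hmp.aestronglyMeasurable]
  refine (integral_mono hj g hpt).trans (le_of_eq ?_)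
  rw [integral_const_mul, integral_fun_fst (fun x => |x| ^ p)]
  simp

theorem own_mom (p : ℕ) : ∃ B : ℝ, 0 ≤ B ∧ ∀ t : ℝ, 0 < t → t ≤ 1 →
    MomLe (gaussianReal t t.toNNReal) (p + 1) (3 * √√t) (B * √√t ^ (p + 1)) := by
  have hlaw : ∀ t : ℝ, 0 < t →
      gaussianReal t t.toNNReal = (gaussianReal 0 1).map (fun z => t + √t * z) := by
    intro t ht
    rw [show (fun z : ℝ => t + √t * z) = (fun z => t + z) ∘ (fun z => √t * z) from rfl,
      ← Measure.map_map (by fun_prop) (by fun_prop), gaussianReal_map_const_mul,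
      gaussianReal_map_const_add, mul_zero, zero_add, mul_one]
    congr 1
    ext
    simp [Real.sq_sqrt ht.le, ht.le]
  have hi : Integrable (fun z : ℝ => |z| ^ (p + 1)) (gaussianReal 0 1) := by
    have := (memLp_id_gaussianReal' (μ := 0) (v := 1) ((p + 1 : ℕ) : ℝ≥0∞) (by simp)).integrable_norm_pow'
    simpa [Real.norm_eq_abs] using this
  set M := ∫ z, |z| ^ (p + 1) ∂gaussianReal 0 1 with hM
  refine ⟨2 ^ p * (1 + M), mul_nonneg (by positivity) (add_nonneg zero_le_one
    (integral_nonneg fun z => by positivity)), fun t ht ht1 => ?_⟩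
  set u := √√t with hu
  have hst1 : √t ≤ 1 := Real.sqrt_le_one.2 ht1
  have h_st : √t ≤ u := (Real.le_sqrt (Real.sqrt_nonneg t) (Real.sqrt_nonneg t)).2
    (by nlinarith [Real.sqrt_nonneg t])
  have h_t : t ≤ u := le_trans ((Real.le_sqrt ht.le ht.le).2 (by nlinarith)) h_st
  have hu0 : 0 ≤ u := Real.sqrt_nonneg _
  have hm : Measurable fun z : ℝ => t + √t * z := by fun_prop
  have hpt : ∀ z : ℝ, |t + √t * z| ≤ u * (1 + |z|) := fun z => by
    refine (abs_add_le _ _).trans ?_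
    rw [abs_of_pos ht, abs_mul, abs_of_nonneg (Real.sqrt_nonneg t)]
    nlinarith [abs_nonneg z]
  have hpt2 : ∀ z : ℝ, |t + √t * z| ^ (p + 1) ≤ u ^ (p + 1) * (2 ^ p * (1 + |z| ^ (p + 1))) := by
    intro z
    refine (pow_le_pow_left₀ (abs_nonneg _) (hpt z) _).trans ?_
    rw [mul_pow]
    refine mul_le_mul_of_nonneg_left ?_ (by positivity)
    have h := add_pow_le (R := ℝ) zero_le_one (abs_nonneg z) (p + 1)
    simpa using h
  have g2 : Integrable (fun z : ℝ => u ^ (p + 1) * (2 ^ p * (1 + |z| ^ (p + 1)))) (gaussianReal 0 1) :=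
    (((integrable_const (1 : ℝ)).add hi).const_mul _).const_mul _
  have hi2 : Integrable (fun z : ℝ => |t + √t * z| ^ (p + 1)) (gaussianReal 0 1) :=
    Integrable.mono' g2 ((hm.abs).pow_const _).aestronglyMeasurable
      (ae_of_all _ fun z => by rw [Real.norm_eq_abs, abs_of_nonneg (by positivity)]; exact hpt2 z)
  have hz : Integrable (fun z : ℝ => |z|) (gaussianReal 0 1) :=
    ((memLp_id_gaussianReal (μ := 0) (v := 1) 1).integrable le_rfl).abs
  have hz1 : ∫ z, |z| ∂gaussianReal 0 1 ≤ 1 := by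
    have hz2 : Integrable (fun z : ℝ => z ^ 2) (gaussianReal 0 1) :=
      (memLp_id_gaussianReal (μ := 0) (v := 1) 2).integrable_sq
    have hv := variance_id_gaussianReal (μ := 0) (v := 1)
    rw [variance_eq_sub (memLp_id_gaussianReal (μ := 0) (v := 1) 2)] at hv
    simp only [Pi.pow_apply, id_eq, integral_id_gaussianReal, NNReal.coe_one] at hv
    refine (integral_mono hz ((integrable_const (1 : ℝ)).add hz2 |>.div_const 2) fun z => ?_).trans ?_
    · show |z| ≤ (1 + z ^ 2) / 2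
      nlinarith [sq_nonneg (|z| - 1), sq_abs z]
    · simp only [Pi.add_apply]
      rw [integral_div, integral_add (integrable_const _) hz2]
      simp
      linarith
  have hj : Integrable (fun z : ℝ => |t + √t * z|) (gaussianReal 0 1) :=
    Integrable.mono' (((integrable_const (1 : ℝ)).add hz).const_mul u) hm.abs.aestronglyMeasurable
      (ae_of_all _ fun z => by rw [Real.norm_eq_abs, abs_abs]; exact hpt z)
  have hmp : Measurable fun x : ℝ => |x| ^ (p + 1) := by fun_prop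
  rw [hlaw t ht]
  refine ⟨(integrable_map_measure hmp.aestronglyMeasurable hm.aemeasurable).2 hi2,
    (integrable_map_measure continuous_abs.measurable.aestronglyMeasurable hm.aemeasurable).2 hj,
    ?_, ?_⟩
  · rw [integral_map hm.aemeasurable hmp.aestronglyMeasurable]
    refine (integral_mono hi2 g2 hpt2).trans (le_of_eq ?_)
    rw [integral_const_mul, integral_const_mul, integral_add (integrable_const _) hi]
    simp [hM]
    ring
  · rw [integral_map hm.aemeasurable continuous_abs.measurable.aestronglyMeasurable]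
    refine (integral_mono hj (((integrable_const (1 : ℝ)).add hz).const_mul u) hpt).trans ?_
    simp only [Pi.add_apply]
    rw [integral_const_mul, integral_add (integrable_const _) hz]
    simp only [probReal_univ, smul_eq_mul, mul_one, integral_const]
    nlinarith

theorem moment_step_real {P P' B₀ c Y K a b : ℝ} {Q : ℕ} {θk : ℝ} (hPP : P' * P ^ Q ≤ 3 / 2)
    (hP : 0 ≤ P' * P ^ Q) (hc : (Q : ℝ) * θk ≤ 1 / 2) (hc0 : 0 ≤ (Q : ℝ) * θk) (hY : 0 ≤ Y)
    (hK : P' * (B₀ * c + P ^ Q * a) + b = K * c) (hKY : K * c ≤ 1 / 4 * Y) :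
    P' * (B₀ * c + P ^ Q * ((Q : ℝ) * (θk * Y) + a)) + b ≤ Y := by
  have h3 : P' * P ^ Q * ((Q : ℝ) * θk * Y) ≤ 3 / 2 * (1 / 2 * Y) :=
    mul_le_mul hPP (mul_le_mul_of_nonneg_right hc hY) (mul_nonneg hc0 hY) (by norm_num)
  have e : P' * (B₀ * c + P ^ Q * ((Q : ℝ) * (θk * Y) + a)) + b =
      P' * P ^ Q * ((Q : ℝ) * θk * Y) + (P' * (B₀ * c + P ^ Q * a) + b) := by ring
  rw [e, hK]
  linarith

/-- Moments of the messages up to the critical point are of Gaussian size with variance `√t`. -/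
theorem moment_bound (hQ : 2 ≤ Q) (k : ℕ) (hk : 3 ≤ k) : ∃ C : ℝ, 0 ≤ C ∧ ∀ θ t : ℝ, 0 ≤ θ →
    (Q : ℝ) * θ ^ 2 ≤ 1 → 0 < t → t ≤ 1 → ∀ R,
      ∫ x, |tanh x| ^ (k + 1) ∂XLaw Q θ t R ≤ C * √√t ^ (k + 1) := by
  have hQr : (2 : ℝ) ≤ Q := by exact_mod_cast hQ
  obtain ⟨B₀, hB₀, hown⟩ := own_mom k
  set A := 32 * (2 * (Q : ℝ)) + 1 with hA
  set D := ((k : ℝ) + 1) * 2 ^ k with hD
  have hA0 : 0 < A := by rw [hA]; positivity
  have hD0 : 0 < D := by rw [hD]; positivity
  -- a small `ε`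
  obtain ⟨ε, hε, hcon⟩ : ∃ ε : ℝ, 0 < ε ∧
      (1 + D * ((3 + Q * A) * ε)) * (1 + D * (Q * A * ε)) ^ Q ≤ 3 / 2 := by
    have hc : Continuous fun ε : ℝ => (1 + D * ((3 + Q * A) * ε)) * (1 + D * (Q * A * ε)) ^ Q := by
      fun_prop
    have h0 := hc.tendsto 0
    simp only [mul_zero, add_zero, one_pow, mul_one] at h0
    obtain ⟨δ, hδ, hδb⟩ := Metric.tendsto_nhds_nhds.1 h0 (1 / 2) (by norm_num)
    refine ⟨δ / 2, half_pos hδ, ?_⟩
    have := hδb (x := δ / 2) (by rw [dist_zero_right, Real.norm_eq_abs, abs_of_pos (half_pos hδ)]; linarith)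
    rw [Real.dist_eq] at this
    have := (abs_lt.1 this).2
    linarith
  set P := 1 + D * (Q * A * ε) with hP
  set P' := 1 + D * ((3 + Q * A) * ε) with hP'
  set K := P' * (B₀ + P ^ Q * (Q * (D * (Q * A * (1 / ε) ^ k)))) + D * ((3 + Q * A) * (1 / ε) ^ k)
    with hK
  have hP1 : 1 ≤ P := le_add_of_nonneg_right (by positivity)
  have hP'1 : 1 ≤ P' := le_add_of_nonneg_right (by positivity)
  have hPP : P' * P ^ Q ≤ 3 / 2 := hcon
  have hK0 : 0 ≤ K := by rw [hK]; positivity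
  have hKu : ∀ u : ℝ, P' * (B₀ * u ^ (k + 1) + P ^ Q * ((Q : ℝ) * (D * (Q * A * (1 / ε) ^ k)) * u ^ (k + 1))) +
      D * ((3 + Q * A) * (1 / ε) ^ k) * u ^ (k + 1) = K * u ^ (k + 1) := fun u => by rw [hK]; ring
  have hKY : ∀ u : ℝ, 0 ≤ u → K * u ^ (k + 1) ≤ 1 / 4 * ((4 * K + B₀) * u ^ (k + 1)) := fun u hu => by
    have := mul_nonneg hB₀ (pow_nonneg hu (k + 1))
    linarith
  refine ⟨4 * K + B₀, by positivity, fun θ t h0 hl ht ht1 R => ?_⟩
  have hθ34 := theta_le hQ h0 hl
  have h1 : θ < 1 := by linarith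
  set u := √√t with hu
  have hu0 : 0 < u := Real.sqrt_pos.2 (Real.sqrt_pos.2 ht)
  have huu : u * u = √t := Real.mul_self_sqrt (Real.sqrt_nonneg t)
  have hcontract : (Q : ℝ) * θ ^ (k + 1) ≤ 1 / 2 := by
    calc (Q : ℝ) * θ ^ (k + 1) ≤ Q * θ ^ 4 :=
          mul_le_mul_of_nonneg_left (pow_le_pow_of_le_one h0 h1.le (by omega)) (by positivity)
      _ = (Q * θ ^ 2) * θ ^ 2 := by ring
      _ ≤ 1 * θ ^ 2 := mul_le_mul_of_nonneg_right hl (sq_nonneg _)
      _ ≤ 1 / 2 := by nlinarith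
  have main : ∀ R, Integrable (fun x => |x| ^ (k + 1)) (XLaw Q θ t R) ∧
      ∫ x, |x| ^ (k + 1) ∂XLaw Q θ t R ≤ (4 * K + B₀) * u ^ (k + 1) := by
    intro R
    induction R with
    | zero =>
      obtain ⟨i, -, b, -⟩ := hown t ht ht1
      rw [XLaw_zero ht.le]
      exact ⟨i, b.trans (mul_le_mul_of_nonneg_right (by linarith) (by positivity))⟩
    | succ R ih =>
      obtain ⟨iX, bX⟩ := ih
      have hx := nish_XLaw (Q := Q) h0 h1 ht R
      have hq : ∫ x, tanh x ∂XLaw Q θ t R ≤ 2 * Q * √t :=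
        (strength_le h0 h1 hQ hl ht R).trans (le_of_eq (by rw [min_eq_left ht1]))
      obtain ⟨iW, bW⟩ := child_pow_le h0 h1 iX
      have hW : MomLe (childLaw θ (XLaw Q θ t R)) (k + 1) (A * u)
          (θ ^ (k + 1) * ((4 * K + B₀) * u ^ (k + 1))) := by
        refine ⟨iW, ?_, bW.trans (mul_le_mul_of_nonneg_left bX (by positivity)), ?_⟩
        · have := (hx.child h0 h1).1
          refine (iW.add (integrable_const (1 : ℝ))).mono' continuous_abs.measurable.aestronglyMeasurable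
            (ae_of_all _ fun x => ?_)
          show ‖|x|‖ ≤ |x| ^ (k + 1) + 1
          rw [Real.norm_eq_abs, abs_abs]
          rcases le_total |x| 1 with hx1 | hx1
          · linarith [pow_nonneg (abs_nonneg x) (k + 1)]
          · linarith [le_self_pow₀ hx1 (show k + 1 ≠ 0 by omega)]
        · refine (child_abs_le h0 h1 hx hθ34 hu0 hq).trans ?_
          rw [hA, ← huu]
          have : 32 * (2 * (Q : ℝ) * (u * u)) / u = 32 * (2 * Q) * u := by field_simp
          rw [this]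
          nlinarith
      have := (hx.child h0 h1).1
      have := sumLaw_prob (childLaw θ (XLaw Q θ t R)) Q
      obtain ⟨i, -, b, -⟩ := (hown t ht ht1).add (momLe_sum hW hA0.le hu0.le hε Q) (by norm_num)
        (by positivity) hu0.le hε
      rw [XLaw_succ ht.le, WLaw_eq]
      refine ⟨i, b.trans ?_⟩
      rw [← hD, ← hP, ← hP']
      exact moment_step_real hPP (by positivity) hcontract (by positivity) (by positivity)
        (hKu u) (hKY u hu0.le)
  obtain ⟨i, b⟩ := main R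
  refine le_trans ?_ b
  refine integral_mono (integrable_of_bdd ((measurable_tanh'.abs).pow_const _) (B := 1) fun x => ?_) i
    fun x => pow_le_pow_left₀ (abs_nonneg _) (by simpa using abs_tanh_sub_le x 0) _
  rw [abs_pow, abs_abs]
  exact pow_le_one₀ (abs_nonneg _) (abs_tanh_le x)

theorem min_sqrt (t : ℝ) : √√(min t 1) * √√(min t 1) = √(min t 1) :=
  Real.mul_self_sqrt (Real.sqrt_nonneg _)

theorem integral_ge_indicator {μ : Measure ℝ} [IsFiniteMeasure μ] {S : Set ℝ} (hS : MeasurableSet S)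
    {f : ℝ → ℝ} (hf : Integrable f μ) {c : ℝ} (hc : ∀ᵐ x ∂μ, x ∈ S → c ≤ f x)
    (hnn : ∀ᵐ x ∂μ, 0 ≤ f x) : c * μ.real S ≤ ∫ x, f x ∂μ := by
  have h : ∫ x, S.indicator (fun _ => c) x ∂μ = c * μ.real S := by
    rw [integral_indicator hS, setIntegral_const, smul_eq_mul, mul_comm]
  rw [← h]
  refine integral_mono_ae ((integrable_const c).indicator hS) hf ?_
  filter_upwards [hc, hnn] with x h1 h2
  by_cases hx : x ∈ S
  · rw [Set.indicator_of_mem hx]; exact h1 hx
  · rw [Set.indicator_of_notMem hx]; exact h2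

/-- Near the critical point the messages spread over both signs on the scale `t ^ (1/4)`. -/
theorem spread_W (hQ : 2 ≤ Q) : ∃ κ c : ℝ, 0 < κ ∧ κ ≤ 1 ∧ 0 < c ∧ ∀ τ₀ : ℝ, 0 < τ₀ → ∃ L : ℕ,
    ∀ θ t : ℝ, 0 ≤ θ → θ < 1 → τ₀ ≤ t → (Q : ℝ) * θ ^ 2 ≤ 1 → 1 / 2 ≤ (Q : ℝ) * θ ^ 2 →
    (1 - (Q : ℝ) * θ ^ 2) ^ 2 ≤ min t 1 → ∀ R, L ≤ R →
      c ≤ (WLaw Q θ t R).real (Set.Ici (κ * √√(min t 1))) ∧
      c ≤ (WLaw Q θ t R).real (Set.Iic (-(κ * √√(min t 1)))) := by
  have hQr : (2 : ℝ) ≤ Q := by exact_mod_cast hQ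
  obtain ⟨cs, hcs, hlow⟩ := strength_lower hQ
  obtain ⟨C4, hC4, hmom⟩ := moment_bound hQ 3 le_rfl
  -- bound on the fourth moment, for all times
  set K := C4 + 1 with hK
  have hK0 : 0 < K := by linarith
  set a := cs / (2 * Q) with ha
  have ha0 : 0 < a := by positivity
  set b := a / (4 * K) with hb
  have hb0 : 0 < b := by positivity
  set κ := min 1 (√(a / 4)) with hκ
  have hκ0 : 0 < κ := lt_min one_pos (Real.sqrt_pos.2 (by linarith))
  refine ⟨κ, a * b / 10, hκ0, min_le_left _ _, by positivity,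
    fun τ₀ hτ₀ => ?_⟩
  obtain ⟨L, hLow⟩ := hlow τ₀ hτ₀
  refine ⟨L, fun θ t h0 h1 htτ hl hl' hcrit R hR => ?_⟩
  have ht : 0 < t := hτ₀.trans_le htτ
  have hL := hLow θ t h0 h1 htτ hl hl' hcrit
  have hθ34 := theta_le hQ h0 hl
  set m := min t 1 with hm
  have hm0 : 0 < m := lt_min ht one_pos
  set w := √√m with hw
  have hw0 : 0 < w := Real.sqrt_pos.2 (Real.sqrt_pos.2 hm0)
  have hww : w * w = √m := min_sqrt t
  have hx := nish_XLaw (Q := Q) h0 h1 ht R
  set μ := WLaw Q θ t R with hμdef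
  have hW : Nish μ := nish_WLaw h0 h1 ht R
  have := hW.1
  have hae : ∀ᵐ x ∂μ, |tanh x| ≤ θ := by
    rw [hμdef, WLaw, ae_map_iff (measurable_msgW R).aemeasurable
      (measurableSet_le measurable_tanh'.abs measurable_const)]
    refine ae_of_all _ fun ω => ?_
    rcases sgn_cases (θ := θ) (ω []).1 with h | h <;>
      simp only [msgW, h, one_mul, neg_mul, Real.tanh_neg, abs_neg, tanh_leafShift h0 h1, abs_mul,
        abs_of_nonneg h0] <;>
      exact mul_le_of_le_one_right h0 (abs_tanh_le _)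
  have e2 : a * √m ≤ ∫ x, tanh x ^ 2 ∂μ := by
    rw [← hW.tanh_sq, hμdef, WLaw_eq, childLaw_tanh h0 h1]
    have h2 : 1 / (2 * (Q : ℝ)) ≤ θ ^ 2 := by rw [div_le_iff₀ (by positivity)]; linarith
    calc a * √m = 1 / (2 * (Q : ℝ)) * (cs * √m) := by rw [ha]; ring
      _ ≤ _ := mul_le_mul h2 (hL R hR) (by positivity) (sq_nonneg θ)
  have e4 : ∫ x, tanh x ^ 4 ∂μ ≤ K * m := by
    have hi4 : ∀ x : ℝ, |tanh x ^ 4| ≤ 1 := fun x => by
      rw [abs_pow]; exact pow_le_one₀ (abs_nonneg _) (abs_tanh_le x)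
    rw [hμdef, WLaw_eq, integral_childLaw h0 h1 (measurable_tanh'.pow_const 4) hi4]
    have he : ∀ x, (1 + θ) / 2 * tanh (leafShift θ x) ^ 4 + (1 - θ) / 2 * tanh (-leafShift θ x) ^ 4 =
        θ ^ 4 * tanh x ^ 4 := fun x => by rw [Real.tanh_neg, tanh_leafShift h0 h1]; ring
    simp only [he, integral_const_mul]
    have hle : ∫ x, tanh x ^ 4 ∂XLaw Q θ t R ≤ K * m := by
      rcases le_total t 1 with htt | htt
      · have e : ∀ x : ℝ, tanh x ^ 4 = |tanh x| ^ (3 + 1) := fun x => by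
          rw [show (3 : ℕ) + 1 = 4 from rfl, Even.pow_abs (by decide)]
        simp only [e]
        refine (hmom θ t h0 hl ht htt R).trans ?_
        have : √√t ^ (3 + 1) = t := by
          rw [show (3 : ℕ) + 1 = 2 * 2 from rfl, pow_mul, Real.sq_sqrt (Real.sqrt_nonneg t),
            Real.sq_sqrt ht.le]
        rw [this, hm, min_eq_left htt]
        exact mul_le_mul_of_nonneg_right (by linarith) ht.le
      · rw [hm, min_eq_right htt, mul_one]
        refine le_trans ?_ (show (1 : ℝ) ≤ K by linarith)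
        exact (integral_mono (integrable_of_bdd (measurable_tanh'.pow_const 4) hi4)
          (integrable_const (1 : ℝ)) fun x => (le_abs_self _).trans (hi4 x)).trans (le_of_eq (by simp))
    calc θ ^ 4 * ∫ x, tanh x ^ 4 ∂XLaw Q θ t R ≤ 1 * (K * m) :=
          mul_le_mul (pow_le_one₀ h0 h1.le) hle (integral_nonneg fun x => by positivity) zero_le_one
      _ = _ := one_mul _
  set τ := κ * w with hτ
  have hτ0 : 0 < τ := by positivity
  set S := {x : ℝ | τ ≤ |x|} with hS
  have hSm : MeasurableSet S := measurableSet_le measurable_const continuous_abs.measurable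
  set ν := b / √m with hν
  have hν0 : 0 < ν := by positivity
  have hpt : ∀ x : ℝ, tanh x ^ 2 ≤
      τ ^ 2 + ν * tanh x ^ 4 + S.indicator (fun _ => 1 / (4 * ν)) x := by
    intro x
    by_cases hx : x ∈ S
    · rw [Set.indicator_of_mem hx]
      have h4 : tanh x ^ 2 ≤ ν * tanh x ^ 4 + 1 / (4 * ν) := by
        rw [← sub_nonneg]
        have e : ν * tanh x ^ 4 + 1 / (4 * ν) - tanh x ^ 2 =
            (2 * ν * tanh x ^ 2 - 1) ^ 2 / (4 * ν) := by field_simp; ring
        rw [e]; positivity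
      nlinarith
    · rw [Set.indicator_of_notMem hx]
      simp only [hS, Set.mem_ofPred_eq, not_le] at hx
      have h2 : tanh x ^ 2 ≤ τ ^ 2 := by
        rw [← sq_abs]
        exact pow_le_pow_left₀ (abs_nonneg _) ((by simpa using abs_tanh_sub_le x 0 : |tanh x| ≤ |x|).trans hx.le) 2
      nlinarith [pow_nonneg (sq_nonneg (tanh x)) 2]
  have i2 : Integrable (fun x => tanh x ^ 2) μ := integrable_of_bdd (measurable_tanh'.pow_const 2)
    (B := 1) fun x => by rw [abs_pow]; exact pow_le_one₀ (abs_nonneg _) (abs_tanh_le x)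
  have i4 : Integrable (fun x => tanh x ^ 4) μ := integrable_of_bdd (measurable_tanh'.pow_const 4)
    (B := 1) fun x => by rw [abs_pow]; exact pow_le_one₀ (abs_nonneg _) (abs_tanh_le x)
  have iR : Integrable (fun x => τ ^ 2 + ν * tanh x ^ 4) μ := (integrable_const _).add (i4.const_mul ν)
  have e5 := integral_mono i2 (iR.add ((integrable_const (1 / (4 * ν))).indicator hSm)) hpt
  rw [integral_add' iR ((integrable_const (1 / (4 * ν))).indicator hSm),
    integral_add (integrable_const _) (i4.const_mul ν), integral_const_mul, integral_indicator hSm,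
    setIntegral_const] at e5
  simp only [integral_const, probReal_univ, smul_eq_mul, one_mul] at e5
  have hP : a * b ≤ μ.real S := by
    have h2 : τ ^ 2 ≤ a / 4 * √m := by
      rw [hτ, mul_pow, sq w, hww]
      refine mul_le_mul_of_nonneg_right ?_ (Real.sqrt_nonneg m)
      calc κ ^ 2 ≤ √(a / 4) ^ 2 := pow_le_pow_left₀ hκ0.le (min_le_right _ _) 2
        _ = a / 4 := Real.sq_sqrt (by linarith)
    have h3 : ν * ∫ x, tanh x ^ 4 ∂μ ≤ a / 4 * √m := by
      calc ν * ∫ x, tanh x ^ 4 ∂μ ≤ ν * (K * m) := mul_le_mul_of_nonneg_left e4 hν0.le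
        _ = a / 4 * (m / √m) := by rw [hν, hb]; field_simp
        _ = a / 4 * √m := by rw [Real.div_sqrt]
    have h4 : a / 2 * √m ≤ μ.real S * (1 / (4 * ν)) := by linarith
    rw [mul_one_div, le_div_iff₀ (by positivity), hν] at h4
    have h5 : a / 2 * √m * (4 * (b / √m)) = 2 * (a * b) := by field_simp; ring
    nlinarith
  -- split the two signs
  have hψ : ∀ᵐ x ∂μ, 1 / 4 ≤ 1 - tanh x ∧ 1 - tanh x ≤ 2 := by
    filter_upwards [hae] with x h
    have := abs_le.1 h
    exact ⟨by linarith, by linarith [neg_one_lt_tanh x]⟩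
  have flip : ∀ A : Set ℝ, MeasurableSet A → μ.real A ≤ 8 * μ.real ((fun x => -x) ⁻¹' A) := by
    intro A hAm
    have e := hW.2 (A.indicator fun _ => 1) (measurable_const.indicator hAm)
      ⟨1, fun x => by by_cases hx : x ∈ A <;> simp [hx]⟩
    have lhs : ∫ x, A.indicator (fun _ => (1 : ℝ)) (-x) * (1 - tanh x) ∂μ ≤
        2 * μ.real ((fun x => -x) ⁻¹' A) := by
      have hAn : MeasurableSet ((fun x : ℝ => -x) ⁻¹' A) := measurable_neg hAm
      have : ∫ x, ((fun x : ℝ => -x) ⁻¹' A).indicator (fun _ => (2 : ℝ)) x ∂μ =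
          2 * μ.real ((fun x => -x) ⁻¹' A) := by
        rw [integral_indicator hAn, setIntegral_const, smul_eq_mul, mul_comm]
      rw [← this]
      refine integral_mono_ae (integrable_weight ((measurable_const.indicator hAm).comp measurable_neg)
        (B := 1) fun x => by by_cases hx : -x ∈ A <;> simp [hx])
        ((integrable_const (2 : ℝ)).indicator hAn) ?_
      filter_upwards [hψ] with x h
      by_cases hx : -x ∈ A <;> simp [hx, h.2]
    have rhs : 1 / 4 * μ.real A ≤ ∫ x, A.indicator (fun _ => (1 : ℝ)) x * (1 - tanh x) ∂μ := by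
      refine integral_ge_indicator hAm (integrable_weight (measurable_const.indicator hAm) (B := 1)
        fun x => by by_cases hx : x ∈ A <;> simp [hx]) ?_ ?_
      · filter_upwards [hψ] with x h hx
        simpa [hx] using h.1
      · filter_upwards [hψ] with x h
        exact mul_nonneg (Set.indicator_nonneg (fun _ _ => zero_le_one) x) (by linarith)
    linarith
  have hneg1 : (fun x : ℝ => -x) ⁻¹' (Set.Ici τ) = Set.Iic (-τ) := by
    ext x; simp [le_neg]
  have hneg2 : (fun x : ℝ => -x) ⁻¹' (Set.Iic (-τ)) = Set.Ici τ := by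
    ext x; simp
  have f1 := flip _ (measurableSet_Ici (a := τ))
  have f2 := flip _ (measurableSet_Iic (a := -τ))
  rw [hneg1] at f1
  rw [hneg2] at f2
  have hsub : S ⊆ Set.Ici τ ∪ Set.Iic (-τ) := fun x hx => by
    rcases le_total 0 x with h | h
    · left; simpa [hS, abs_of_nonneg h] using hx
    · right
      simp only [hS, Set.mem_ofPred_eq, abs_of_nonpos h] at hx
      simp; linarith
  have hun := (measureReal_mono (μ := μ) hsub).trans (measureReal_union_le _ _)
  constructor <;> linarith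

/-- The retention factor of one edge, with the critical edge correlation. -/
def rc (Q : ℕ) (μ : ℝ) : ℝ := (1 - μ ^ 2) / (1 - μ ^ 2 / Q)

theorem rc_mem (hQ : 2 ≤ Q) {μ : ℝ} (h : |μ| ≤ 1) :
    0 ≤ rc Q μ ∧ rc Q μ ≤ 1 - μ ^ 2 / 2 := by
  have hQr : (2 : ℝ) ≤ Q := by exact_mod_cast hQ
  have h2 : μ ^ 2 ≤ 1 := by rw [← sq_abs]; exact pow_le_one₀ (abs_nonneg _) h
  have h3 : μ ^ 2 / Q ≤ μ ^ 2 / 2 := div_le_div_of_nonneg_left (sq_nonneg _) two_pos hQr
  have hd : 0 < 1 - μ ^ 2 / Q := by linarith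
  refine ⟨div_nonneg (by linarith) hd.le, ?_⟩
  rw [rc, div_le_iff₀ hd]
  nlinarith [sq_nonneg μ, mul_nonneg (sq_nonneg μ) (sq_nonneg μ)]

theorem measurable_rc : Measurable (rc Q) := by unfold rc; fun_prop

theorem rc_tanh (hQ : 2 ≤ Q) (x : ℝ) : 0 ≤ rc Q (tanh x) ∧ rc Q (tanh x) ≤ 1 :=
  ⟨(rc_mem hQ (abs_tanh_le x)).1,
    (rc_mem hQ (abs_tanh_le x)).2.trans (by linarith [sq_nonneg (tanh x)])⟩

/-- Averaged over one side branch, an edge retains at most `1 - δ √t`. -/
theorem retain (hQ : 2 ≤ Q) : ∃ δ₀ : ℝ, 0 < δ₀ ∧ δ₀ ≤ 1 / 2 ∧ ∀ τ₀ : ℝ, 0 < τ₀ → ∃ L : ℕ,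
    ∀ θ t : ℝ, 0 ≤ θ → θ < 1 → τ₀ ≤ t → (Q : ℝ) * θ ^ 2 ≤ 1 → 1 / 2 ≤ (Q : ℝ) * θ ^ 2 →
    (1 - (Q : ℝ) * θ ^ 2) ^ 2 ≤ min t 1 → ∀ R, L ≤ R → ∀ (x : ℝ) (n : ℕ),
      ∫ y, rc Q (tanh (x + y)) ∂sumLaw (WLaw Q θ t R) (n + 1) ≤ 1 - δ₀ * √(min t 1) := by
  obtain ⟨κ, c, hκ, hκ1, hc, hs⟩ := spread_W hQ
  set c' := min c 1 with hc'
  have hc'0 : 0 < c' := lt_min hc one_pos
  refine ⟨c' * κ ^ 2 / 18, by positivity, ?_, fun τ₀ hτ₀ => ?_⟩
  · have h1 := min_le_right c 1
    have h2 : κ ^ 2 ≤ 1 := pow_le_one₀ hκ.le hκ1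
    nlinarith
  obtain ⟨L, hL⟩ := hs τ₀ hτ₀
  refine ⟨L, fun θ t h0 h1 htτ hl hl' hcrit R hR x n => ?_⟩
  have ht : 0 < t := hτ₀.trans_le htτ
  obtain ⟨hp, hn⟩ := hL θ t h0 h1 htτ hl hl' hcrit R hR
  set m := min t 1 with hm
  set τ := κ * √√m with hτ
  have hτ0 : 0 ≤ τ := mul_nonneg hκ.le (Real.sqrt_nonneg _)
  have hτ1 : τ ≤ 1 := mul_le_one₀ hκ1 (Real.sqrt_nonneg _)
    (Real.sqrt_le_one.2 (Real.sqrt_le_one.2 (min_le_right _ _)))
  have hτ2 : τ ^ 2 = κ ^ 2 * √m := by
    rw [hτ, mul_pow, Real.sq_sqrt (Real.sqrt_nonneg m)]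
  have hW : Nish (WLaw Q θ t R) := nish_WLaw h0 h1 ht R
  have := sumLaw_prob (WLaw Q θ t R) n
  set bnd := 1 - c' * κ ^ 2 / 18 * √m with hbnd
  have hone : ∀ z : ℝ, ∫ y, rc Q (tanh (z + y)) ∂WLaw Q θ t R ≤ bnd := by
    intro z
    set A : Set ℝ := if 0 ≤ z then Set.Ici τ else Set.Iic (-τ) with hA
    have hAm : MeasurableSet A := by rw [hA]; split_ifs; exacts [measurableSet_Ici, measurableSet_Iic]
    have hAc : c' ≤ (WLaw Q θ t R).real A := by
      rw [hA]; split_ifs
      exacts [(min_le_left _ _).trans hp, (min_le_left _ _).trans hn]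
    have hfm : Measurable fun y => rc Q (tanh (z + y)) :=
      measurable_rc.comp (measurable_tanh'.comp (measurable_const_add z))
    have hfb : ∀ y, |rc Q (tanh (z + y))| ≤ 1 := fun y => by
      rw [abs_of_nonneg (rc_tanh hQ _).1]; exact (rc_tanh hQ _).2
    have hi1 : Integrable (fun y => 1 - rc Q (tanh (z + y))) (WLaw Q θ t R) :=
      (integrable_const _).sub (integrable_of_bdd hfm hfb)
    have key : τ ^ 2 / 18 * (WLaw Q θ t R).real A ≤ ∫ y, (1 - rc Q (tanh (z + y))) ∂WLaw Q θ t R := by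
      refine integral_ge_indicator hAm hi1
        (ae_of_all _ fun y hy => ?_) (ae_of_all _ fun y => by linarith [(rc_tanh hQ (z + y)).2])
      have h2 : τ / 3 ≤ |tanh (z + y)| := by
        rw [abs_tanh_abs]
        refine (half_le_tanh hτ0 hτ1).trans (tanh_le_tanh ?_)
        by_cases hz : 0 ≤ z
        · rw [hA, if_pos hz, Set.mem_Ici] at hy
          exact le_trans (by linarith) (le_abs_self _)
        · rw [hA, if_neg hz, Set.mem_Iic] at hy
          exact le_trans (by linarith) (neg_le_abs _)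
      have h3 := pow_le_pow_left₀ (by positivity) h2 2
      rw [sq_abs, div_pow] at h3
      linarith [(rc_mem hQ (abs_tanh_le (z + y))).2]
    rw [integral_sub (integrable_const _) (integrable_of_bdd hfm hfb)] at key
    simp only [integral_const, probReal_univ, smul_eq_mul, one_mul] at key
    have h4 : c' * κ ^ 2 / 18 * √m ≤ τ ^ 2 / 18 * (WLaw Q θ t R).real A := by
      rw [show c' * κ ^ 2 / 18 * √m = τ ^ 2 / 18 * c' by rw [hτ2]; ring]
      exact mul_le_mul_of_nonneg_left hAc (by positivity)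
    linarith
  rw [sumLaw_succ]
  have hgm : Measurable fun p : ℝ × ℝ => rc Q (tanh (x + (p.1 + p.2))) :=
    measurable_rc.comp (measurable_tanh'.comp (by fun_prop))
  have hgb : ∀ v : ℝ, |rc Q (tanh (x + v))| ≤ 1 := fun v => by
    rw [abs_of_nonneg (rc_tanh hQ _).1]; exact (rc_tanh hQ _).2
  have ig : Integrable (fun p : ℝ × ℝ => rc Q (tanh (x + (p.1 + p.2))))
      ((WLaw Q θ t R).prod (sumLaw (WLaw Q θ t R) n)) :=
    Integrable.of_bound hgm.aestronglyMeasurable 1 (ae_of_all _ fun p => hgb _)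
  have hxm : Measurable fun y => rc Q (tanh (x + y)) :=
    measurable_rc.comp (measurable_tanh'.comp (measurable_const_add x))
  rw [integral_addLaw hxm hgb]
  rw [integral_integral_swap (f := fun a b => rc Q (tanh (x + (a + b)))) ig]
  refine (integral_mono (Integrable.integral_prod_right ig) (integrable_const bnd)
    fun b => ?_).trans (le_of_eq (by simp [hbnd]))
  calc ∫ a, rc Q (tanh (x + (a + b))) ∂WLaw Q θ t R = ∫ a, rc Q (tanh ((x + b) + a)) ∂WLaw Q θ t R :=
        integral_congr_ae (ae_of_all _ fun a => by ring_nf)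
    _ ≤ _ := hone _

end Vale.Agent.P161
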