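import Vale.Agent.P161.Converse
import Vale.Agent.P161.Crit.Spread

/-!
# Cutting a finite subtree at an edge

`mu G θ D h a b` is the magnetization of `b` in the part of `D` behind `b`, seen from `a`.
-/

open Finset Real
open scoped Classical

noncomputable section

namespace Vale.Agent.P161

variable {V : Type*} {G : SimpleGraph V} {d : ℕ} {θ : ℝ}

/-- The part of `D` nearer to `b` than to `a`. -/
def branch (G : SimpleGraph V) (D : Finset V) (a b : V) : Finset V :=
  D.filter fun u => G.dist b u < G.dist a u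

/-- The neighbours of `b` other than `a`. -/
def kids (G : SimpleGraph V) (a b : V) : Finset V := (nbr G b).erase a

/-- The message from `b` to `a`. -/
def mu (G : SimpleGraph V) (θ : ℝ) (D : Finset V) (h : V → ℝ) (a b : V) : ℝ :=
  mag G θ (branch G D a b) h b

/-- The transmission factor of a message. -/
def rt (θ x : ℝ) : ℝ := (1 - x ^ 2) / (1 - θ ^ 2 * x ^ 2)

theorem measurable_mu (D : Finset V) (a b : V) : Measurable fun h : V → ℝ => mu G θ D h a b :=
  measurable_mag _ b

theorem dist_branch (hT : RTree G d) {a b u : V} (hab : G.Adj a b)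
    (h : G.dist b u < G.dist a u) : G.dist a u = G.dist b u + 1 := by
  rcases dist_adj_cases hT hab u with h' | h' <;> omega

theorem mem_branch (hT : RTree G d) {D : Finset V} {a b u : V} (hab : G.Adj a b) :
    u ∈ branch G D a b ↔ u ∈ D ∧ G.dist a u = G.dist b u + 1 := by
  rw [branch, Finset.mem_filter]
  exact ⟨fun h => ⟨h.1, dist_branch hT hab h.2⟩, fun h => ⟨h.1, by omega⟩⟩

theorem self_mem_branch (hT : RTree G d) {D : Finset V} {a b : V} (hab : G.Adj a b) (hb : b ∈ D) :
    b ∈ branch G D a b :=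
  (mem_branch hT hab).2 ⟨hb, by simp [SimpleGraph.dist_eq_one_iff_adj.2 hab]⟩

theorem branch_union (hT : RTree G d) (D : Finset V) {a b : V} (hab : G.Adj a b) :
    branch G D b a ∪ branch G D a b = D := by
  ext u
  rw [Finset.mem_union, mem_branch hT hab, mem_branch hT hab.symm]
  constructor
  · rintro (⟨h, -⟩ | ⟨h, -⟩) <;> exact h
  · intro h
    rcases dist_adj_cases hT hab u with h' | h'
    · exact Or.inr ⟨h, h'⟩
    · exact Or.inl ⟨h, h'⟩

theorem branch_disjoint (D : Finset V) (a b : V) :
    Disjoint (branch G D b a) (branch G D a b) := by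
  rw [Finset.disjoint_left]
  intro u h1 h2
  simp only [branch, Finset.mem_filter] at h1 h2
  omega

/-- A connected set contains the steps towards each of its points. -/
theorem closer_mem (hT : RTree G d) {D : Finset V} (hD : Conn G D) {b : V} (hb : b ∈ D) :
    ∀ u ∈ D, ∀ w, G.Adj u w → G.dist b u = G.dist b w + 1 → w ∈ D := by
  refine grow_induction hT
    (fun E => ∀ u ∈ E, ∀ w, G.Adj u w → G.dist b u = G.dist b w + 1 → w ∈ E)
    (conn_singleton b) hD (Finset.singleton_subset_iff.2 hb) ?_ ?_
  · intro u hu w _ h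
    rw [Finset.mem_singleton] at hu
    subst hu
    simp at h
  · intro E v p hEc hbE _ hv hp hadj huniq ih u hu w huw h
    have hbE' : b ∈ E := Finset.singleton_subset_iff.1 hbE
    rcases Finset.mem_insert.1 hu with rfl | hu'
    · have hl := dist_leaf hT hEc hv hp hbE' hadj
      rw [SimpleGraph.dist_comm (v := b), SimpleGraph.dist_comm (u := p) (v := b)] at hl
      exact Finset.mem_insert_of_mem (closer_unique hT huw hadj h hl ▸ hp)
    · exact Finset.mem_insert_of_mem (ih u hu' w huw h)

theorem conn_of_closed (hT : RTree G d) {E : Finset V} {b : V} (hb : b ∈ E)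
    (h : ∀ u ∈ E, ∀ w, G.Adj u w → G.dist b u = G.dist b w + 1 → w ∈ E) : Conn G E := by
  have key : ∀ (n : ℕ) (u : V) (hu : u ∈ E), G.dist b u = n →
      (G.induce (E : Set V)).Reachable ⟨u, hu⟩ ⟨b, hb⟩ := by
    intro n
    induction n with
    | zero =>
      intro u hu h0
      obtain rfl := hT.conn.dist_eq_zero_iff.1 h0
      rfl
    | succ n ih =>
      intro u hu hn
      have hub : u ≠ b := by rintro rfl; simp at hn
      obtain ⟨w, hadj, hw⟩ := exists_closer hT hub
      have hwE := h u hu w hadj hw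
      exact (SimpleGraph.Adj.reachable (G := G.induce (E : Set V))
        (u := ⟨u, hu⟩) (v := ⟨w, hwE⟩) hadj).trans (ih w hwE (by omega))
  have : Nonempty (E : Set V) := ⟨⟨b, hb⟩⟩
  exact SimpleGraph.Connected.mk fun x y =>
    (key _ x.1 x.2 rfl).trans (key _ y.1 y.2 rfl).symm

theorem conn_branch (hT : RTree G d) {D : Finset V} (hD : Conn G D) {a b : V} (hab : G.Adj a b)
    (hb : b ∈ D) : Conn G (branch G D a b) := by
  refine conn_of_closed hT (self_mem_branch hT hab hb) fun u hu w huw hw => ?_
  rw [mem_branch hT hab] at hu ⊢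
  refine ⟨closer_mem hT hD hb u hu.1 w huw hw, ?_⟩
  have h1 : G.dist a u ≤ G.dist a w + 1 := by
    have := hT.conn.dist_triangle (u := a) (v := w) (w := u)
    rw [SimpleGraph.dist_eq_one_iff_adj.2 huw.symm] at this
    exact this
  have h2 := dist_adj_cases hT hab w
  omega

/-- The only edge between the two parts is the cut edge. -/
theorem cross_edge (hT : RTree G d) {D : Finset V} {a b x y : V} (hab : G.Adj a b)
    (hx : x ∈ branch G D b a) (hy : y ∈ branch G D a b) (hxy : G.Adj x y) : x = a ∧ y = b := by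
  have h1 := ((mem_branch hT hab.symm).1 hx).2
  have h2 := ((mem_branch hT hab).1 hy).2
  rw [SimpleGraph.dist_comm (u := a), SimpleGraph.dist_comm (u := b)] at h2
  have h3 := dist_through hT hab (u := x) (w := y) h1
    (by rw [SimpleGraph.dist_comm (u := a), SimpleGraph.dist_comm (u := b)]; exact h2)
  rw [SimpleGraph.dist_eq_one_iff_adj.2 hxy] at h3
  constructor
  · exact hT.conn.dist_eq_zero_iff.1 (show G.dist x a = 0 by omega)
  · exact (hT.conn.dist_eq_zero_iff.1 (show G.dist b y = 0 by omega)).symm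

theorem edgesIn_split (hT : RTree G d) {D : Finset V} {a b : V} (hab : G.Adj a b) (ha : a ∈ D)
    (hb : b ∈ D) :
    edgesIn G D = insert s(a, b) (edgesIn G (branch G D b a) ∪ edgesIn G (branch G D a b)) := by
  have hu := branch_union hT D hab
  ext e
  induction e using Sym2.ind with
  | h x y =>
    simp only [edgesIn, Finset.mem_insert, Finset.mem_union, Finset.mem_filter,
      Finset.mk_mem_sym2_iff, SimpleGraph.mem_edgeSet]
    constructor
    · rintro ⟨⟨hx, hy⟩, hxy⟩
      rw [← hu, Finset.mem_union] at hx hy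
      rcases hx with hx | hx <;> rcases hy with hy | hy
      · exact Or.inr (Or.inl ⟨⟨hx, hy⟩, hxy⟩)
      · obtain ⟨rfl, rfl⟩ := cross_edge hT hab hx hy hxy
        exact Or.inl rfl
      · obtain ⟨rfl, rfl⟩ := cross_edge hT hab hy hx hxy.symm
        exact Or.inl Sym2.eq_swap
      · exact Or.inr (Or.inr ⟨⟨hx, hy⟩, hxy⟩)
    · rintro (h | ⟨⟨hx, hy⟩, hxy⟩ | ⟨⟨hx, hy⟩, hxy⟩)
      · rcases Sym2.eq_iff.1 h with ⟨rfl, rfl⟩ | ⟨rfl, rfl⟩
        · exact ⟨⟨ha, hb⟩, hab⟩
        · exact ⟨⟨hb, ha⟩, hab.symm⟩
      · exact ⟨⟨Finset.filter_subset _ _ hx, Finset.filter_subset _ _ hy⟩, hxy⟩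
      · exact ⟨⟨Finset.filter_subset _ _ hx, Finset.filter_subset _ _ hy⟩, hxy⟩

theorem wt_congr_set {A : Finset V} {S S' : Finset V} (h : ∀ v ∈ A, (v ∈ S ↔ v ∈ S')) :
    wt G θ A S = wt G θ A S' := by
  refine congrArg ((1 / 2 : ℝ) * ·) (Finset.prod_congr rfl fun e he => ?_)
  induction e using Sym2.ind with
  | h x y =>
    simp only [edgesIn, Finset.mem_filter, Finset.mk_mem_sym2_iff] at he
    simp only [edgeWeight_mk, h x he.1.1, h y he.1.2]

theorem wt_split (hT : RTree G d) {D : Finset V} {a b : V} (hab : G.Adj a b) (ha : a ∈ D)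
    (hb : b ∈ D) {S S' : Finset V} (hS : S ⊆ branch G D b a) (hS' : S' ⊆ branch G D a b) :
    wt G θ D (S ∪ S') =
      wt G θ (branch G D b a) S * wt G θ (branch G D a b) S' * (1 + θ * sp S a * sp S' b) := by
  have hdis := branch_disjoint (G := G) D a b
  have hdis' : Disjoint (edgesIn G (branch G D b a)) (edgesIn G (branch G D a b)) := by
    rw [Finset.disjoint_left]
    intro e he he'
    induction e using Sym2.ind with
    | h x y =>
      simp only [edgesIn, Finset.mem_filter, Finset.mk_mem_sym2_iff] at he he'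
      exact Finset.disjoint_left.1 hdis he.1.1 he'.1.1
  have hnot : s(a, b) ∉ edgesIn G (branch G D b a) ∪ edgesIn G (branch G D a b) := by
    simp only [edgesIn, Finset.mem_union, Finset.mem_filter, Finset.mk_mem_sym2_iff]
    rintro (⟨⟨-, h⟩, -⟩ | ⟨⟨h, -⟩, -⟩)
    · exact Finset.disjoint_left.1 hdis h (self_mem_branch hT hab hb)
    · exact Finset.disjoint_left.1 hdis (self_mem_branch hT hab.symm ha) h
  have e1 := wt_congr_set (G := G) (θ := θ) (A := branch G D b a) (S := S ∪ S') (S' := S) fun v hv => by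
    have : v ∉ S' := fun h => Finset.disjoint_left.1 hdis hv (hS' h)
    simp [this]
  have e2 := wt_congr_set (G := G) (θ := θ) (A := branch G D a b) (S := S ∪ S') (S' := S') fun v hv => by
    have : v ∉ S := fun h => Finset.disjoint_left.1 hdis (hS h) hv
    simp [this]
  have ea : a ∉ S' := fun h =>
    Finset.disjoint_left.1 hdis (self_mem_branch hT hab.symm ha) (hS' h)
  have eb : b ∉ S := fun h => Finset.disjoint_left.1 hdis (hS h) (self_mem_branch hT hab hb)
  rw [wt, edgesIn_split hT hab ha hb, Finset.prod_insert hnot, Finset.prod_union hdis',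
    edgeWeight_mk, ← e1, ← e2, wt, wt]
  simp only [sp, Finset.mem_union, ea, eb, or_false, false_or]
  ring

theorem bf_split (hT : RTree G d) {D : Finset V} {a b : V} (hab : G.Adj a b) (h : V → ℝ)
    {S S' : Finset V} (hS : S ⊆ branch G D b a) (hS' : S' ⊆ branch G D a b) :
    bf D h (S ∪ S') = bf (branch G D b a) h S * bf (branch G D a b) h S' := by
  have hdis := branch_disjoint (G := G) D a b
  simp only [bf]
  rw [← Real.exp_add]
  refine congrArg exp ?_
  conv_lhs => rw [← branch_union hT D hab, Finset.sum_union hdis]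
  refine congrArg₂ (· + ·) (Finset.sum_congr rfl fun v hv => ?_) (Finset.sum_congr rfl fun v hv => ?_)
  · have : v ∉ S' := fun h => Finset.disjoint_left.1 hdis hv (hS' h)
    simp [sp, this]
  · have : v ∉ S := fun h => Finset.disjoint_left.1 hdis (hS h) hv
    simp [sp, this]

/-- Expectations of products over the two sides of an edge. -/
theorem num_split (hT : RTree G d) {D : Finset V} {a b : V} (hab : G.Adj a b) (ha : a ∈ D)
    (hb : b ∈ D) (h : V → ℝ) (f g : Finset V → ℝ) :
    num G θ D h (fun S => f (S ∩ branch G D b a) * g (S ∩ branch G D a b)) =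
      num G θ (branch G D b a) h f * num G θ (branch G D a b) h g +
        θ * (num G θ (branch G D b a) h (fun S => sp S a * f S) *
          num G θ (branch G D a b) h (fun S => sp S b * g S)) := by
  set A := branch G D b a with hA
  set B := branch G D a b with hB
  have hdis : Disjoint A B := branch_disjoint D a b
  have hu : A ∪ B = D := branch_union hT D hab
  simp only [num]
  rw [Finset.sum_mul_sum, Finset.sum_mul_sum, Finset.mul_sum, ← Finset.sum_add_distrib]
  simp only [Finset.mul_sum, ← Finset.sum_add_distrib]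
  rw [← Finset.sum_product']
  refine Finset.sum_nbij' (fun S => (S ∩ A, S ∩ B)) (fun p => p.1 ∪ p.2) ?_ ?_ ?_ ?_ ?_
  · intro S _
    simp [Finset.mem_product, Finset.inter_subset_right]
  · intro p hp
    simp only [Finset.mem_product, Finset.mem_powerset] at hp
    rw [Finset.mem_powerset, ← hu]
    exact Finset.union_subset_union hp.1 hp.2
  · intro S hS
    rw [Finset.mem_powerset, ← hu] at hS
    show S ∩ A ∪ S ∩ B = S
    rw [← Finset.inter_union_distrib_left, Finset.inter_eq_left.2 hS]
  · intro p hp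
    simp only [Finset.mem_product, Finset.mem_powerset] at hp
    have h1 : p.2 ∩ A = ∅ := Finset.disjoint_iff_inter_eq_empty.1 (hdis.symm.mono_left hp.2)
    have h2 : p.1 ∩ B = ∅ := Finset.disjoint_iff_inter_eq_empty.1 (hdis.mono_left hp.1)
    refine Prod.ext ?_ ?_
    · show (p.1 ∪ p.2) ∩ A = p.1
      rw [Finset.union_inter_distrib_right, h1, Finset.union_empty, Finset.inter_eq_left.2 hp.1]
    · show (p.1 ∪ p.2) ∩ B = p.2
      rw [Finset.union_inter_distrib_right, h2, Finset.empty_union, Finset.inter_eq_left.2 hp.2]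
  · intro S hS
    rw [Finset.mem_powerset, ← hu] at hS
    have eS : S ∩ A ∪ S ∩ B = S := by
      rw [← Finset.inter_union_distrib_left, Finset.inter_eq_left.2 hS]
    conv_lhs => rw [← eS]
    rw [hA, hB, wt_split hT hab ha hb Finset.inter_subset_right Finset.inter_subset_right,
      bf_split hT hab h Finset.inter_subset_right Finset.inter_subset_right]
    simp only [← hA, ← hB, eS]
    ring

theorem part_eq (D : Finset V) (h : V → ℝ) : part G θ D h = num G θ D h (fun _ => 1) := rfl

theorem num_eq_avg (h0 : 0 ≤ θ) (h1 : θ < 1) (D : Finset V) (h : V → ℝ) (f : Finset V → ℝ) :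
    num G θ D h f = part G θ D h * avg G θ D h f := by
  rw [avg, mul_div_cancel₀ _ (part_pos h0 h1 D h).ne']

/-- The normalized form of `num_split`. -/
theorem avg_split (hT : RTree G d) (h0 : 0 ≤ θ) (h1 : θ < 1) {D : Finset V} {a b : V}
    (hab : G.Adj a b) (ha : a ∈ D) (hb : b ∈ D) (h : V → ℝ) (f g : Finset V → ℝ) :
    avg G θ D h (fun S => f (S ∩ branch G D b a) * g (S ∩ branch G D a b)) *
        (1 + θ * (mu G θ D h b a * mu G θ D h a b)) =
      avg G θ (branch G D b a) h f * avg G θ (branch G D a b) h g +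
        θ * (avg G θ (branch G D b a) h (fun S => sp S a * f S) *
          avg G θ (branch G D a b) h (fun S => sp S b * g S)) := by
  have e := num_split (θ := θ) hT hab ha hb h f g
  have e1 := num_split (θ := θ) hT hab ha hb h (fun _ => 1) (fun _ => 1)
  simp only [mul_one, num_eq_avg h0 h1, avg_const h0 h1] at e e1
  have hA := (part_pos (G := G) h0 h1 (branch G D b a) h).ne'
  have hB := (part_pos (G := G) h0 h1 (branch G D a b) h).ne'
  simp only [mu, mag]
  refine mul_left_cancel₀ (mul_ne_zero hA hB) ?_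
  linear_combination e - (avg G θ D h (fun S => f (S ∩ branch G D b a) * g (S ∩ branch G D a b))) * e1

theorem one_add_pos {x y : ℝ} (h0 : 0 ≤ θ) (h1 : θ < 1) (hx : |x| ≤ 1) (hy : |y| ≤ 1) :
    0 < 1 + θ * (x * y) := by
  have h : |x * y| ≤ 1 := by rw [abs_mul]; exact mul_le_one₀ hx (abs_nonneg _) hy
  nlinarith [abs_le.1 h]

theorem sp_inter {S A : Finset V} {v : V} (hv : v ∈ A) : sp (S ∩ A) v = sp S v := by
  simp [sp, hv]

theorem abs_mu_le (h0 : 0 ≤ θ) (h1 : θ < 1) (D : Finset V) (h : V → ℝ) (a b : V) :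
    |mu G θ D h a b| ≤ 1 := abs_mag_le h0 h1 _ h b

/-- The magnetization at the end of an edge. -/
theorem mag_edge (hT : RTree G d) (h0 : 0 ≤ θ) (h1 : θ < 1) {D : Finset V} {a b : V}
    (hab : G.Adj a b) (ha : a ∈ D) (hb : b ∈ D) (h : V → ℝ) :
    mag G θ D h b = (mu G θ D h a b + θ * mu G θ D h b a) /
      (1 + θ * (mu G θ D h b a * mu G θ D h a b)) := by
  have e := avg_split (θ := θ) hT h0 h1 hab ha hb h (fun _ => 1) (fun S => sp S b)
  simp only [one_mul, mul_one, avg_const h0 h1, sp_inter (self_mem_branch hT hab hb), sp_sq] at e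
  rw [eq_div_iff (one_add_pos h0 h1 (abs_mu_le h0 h1 D h b a) (abs_mu_le h0 h1 D h a b)).ne']
  simp only [mag, mu] at e ⊢
  exact e

/-- The covariance of two spins on different sides of an edge. -/
theorem cv_cross (hT : RTree G d) (h0 : 0 ≤ θ) (h1 : θ < 1) {D : Finset V} {a b u w : V}
    (hab : G.Adj a b) (ha : a ∈ D) (hb : b ∈ D) (hu : u ∈ branch G D b a)
    (hw : w ∈ branch G D a b) (h : V → ℝ) :
    cv G θ D h u w = θ * cv G θ (branch G D b a) h u a * cv G θ (branch G D a b) h b w /
      (1 + θ * (mu G θ D h b a * mu G θ D h a b)) ^ 2 := by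
  have e1 := avg_split (θ := θ) hT h0 h1 hab ha hb h (fun S => sp S u) (fun S => sp S w)
  have e2 := avg_split (θ := θ) hT h0 h1 hab ha hb h (fun S => sp S u) (fun _ => 1)
  have e3 := avg_split (θ := θ) hT h0 h1 hab ha hb h (fun _ => 1) (fun S => sp S w)
  simp only [one_mul, mul_one, avg_const h0 h1, sp_inter hu, sp_inter hw] at e1 e2 e3
  have hZ := (one_add_pos h0 h1 (abs_mu_le (G := G) h0 h1 D h b a)
    (abs_mu_le (G := G) h0 h1 D h a b)).ne'
  rw [eq_div_iff (pow_ne_zero 2 hZ)]
  simp only [cv, mag, mu] at e1 e2 e3 ⊢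
  rw [show (fun S : Finset V => sp S u * sp S a) = fun S => sp S a * sp S u from
    funext fun S => mul_comm _ _]
  generalize avg G θ (branch G D b a) h (fun S => sp S a) = A at *
  generalize avg G θ (branch G D b a) h (fun S => sp S u) = U at *
  generalize avg G θ (branch G D b a) h (fun S => sp S a * sp S u) = U1 at *
  generalize avg G θ (branch G D a b) h (fun S => sp S b) = B at *
  generalize avg G θ (branch G D a b) h (fun S => sp S w) = W at *
  generalize avg G θ (branch G D a b) h (fun S => sp S b * sp S w) = W1 at *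
  generalize avg G θ D h (fun S => sp S u * sp S w) = X at *
  generalize avg G θ D h (fun S => sp S u) = Y at *
  generalize avg G θ D h (fun S => sp S w) = Z at *
  linear_combination (1 + θ * (A * B)) * e1 - (Z * (1 + θ * (A * B))) * e2 -
    (U + θ * (U1 * B)) * e3

theorem cv_self_eq (h0 : 0 ≤ θ) (h1 : θ < 1) (D : Finset V) (h : V → ℝ) (u : V) :
    cv G θ D h u u = 1 - mag G θ D h u ^ 2 := by
  rw [cv, show (fun A : Finset V => sp A u * sp A u) = fun _ => (1 : ℝ) from
    funext fun A => sp_sq A u, avg_const h0 h1, sq]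

/-- A branch of a branch is a branch. -/
theorem branch_branch (hT : RTree G d) {D : Finset V} {a b x y : V} (hab : G.Adj a b)
    (hxy : G.Adj x y) (hx : x ∈ branch G D a b) (hy : y ∈ branch G D a b)
    (hd : G.dist b y = G.dist b x + 1) :
    branch G (branch G D a b) x y = branch G D x y := by
  ext u
  rw [mem_branch hT hxy, mem_branch hT hxy]
  refine ⟨fun h => ⟨((mem_branch hT hab).1 h.1).1, h.2⟩, fun h => ⟨?_, h.2⟩⟩
  rw [mem_branch hT hab]
  refine ⟨h.1, ?_⟩
  have ex := ((mem_branch hT hab).1 hx).2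
  have ey := ((mem_branch hT hab).1 hy).2
  have hxu : G.dist u x = G.dist u y + 1 := by
    rw [SimpleGraph.dist_comm, SimpleGraph.dist_comm (v := y)]; exact h.2
  have e1 := dist_through hT hxy.symm (u := u) (w := b)
    (by rw [SimpleGraph.dist_comm (u := x), SimpleGraph.dist_comm (u := y)]; exact hxu)
    (by rw [SimpleGraph.dist_comm (u := y), SimpleGraph.dist_comm (u := x)]; exact hd)
  have e2 := dist_through hT hxy.symm (u := u) (w := a)
    (by rw [SimpleGraph.dist_comm (u := x), SimpleGraph.dist_comm (u := y)]; exact hxu)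
    (by rw [SimpleGraph.dist_comm (u := y), SimpleGraph.dist_comm (u := x), ex, ey, hd])
  rw [SimpleGraph.dist_comm (u := u) (v := b), SimpleGraph.dist_comm (u := x) (v := b)] at e1
  rw [SimpleGraph.dist_comm (u := u) (v := a), SimpleGraph.dist_comm (u := x) (v := a), ex] at e2
  omega

theorem mag_singleton (b : V) (h : V → ℝ) : mag G θ ({b} : Finset V) h b = tanh (h b) := by
  have hp : ({b} : Finset V).powerset = {∅, {b}} := by ext A; simp [Finset.subset_singleton_iff]
  rw [mag, avg, part, num, num, hp, Finset.sum_pair (by simp), Finset.sum_pair (by simp),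
    Real.tanh_eq]
  simp [wt, edgesIn_singleton, bf, sp, spin]
  field_simp
  ring

/-- The root of a connected set sums the messages of its neighbours. -/
theorem mag_rec (hT : RTree G d) (h0 : 0 ≤ θ) (h1 : θ < 1) (h : V → ℝ) :
    ∀ (n : ℕ) {E : Finset V}, E.card ≤ n → Conn G E → ∀ {b}, b ∈ E →
      mag G θ E h b =
        tanh (h b + ∑ c ∈ nbr G b ∩ E, leafShift θ (artanh (mu G θ E h b c))) := by
  intro n
  induction n with
  | zero => intro E hE hc b hb; simp [Finset.card_eq_zero.1 (Nat.le_zero.1 hE)] at hb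
  | succ n ih =>
    intro E hE hc b hb
    rcases (nbr G b ∩ E).eq_empty_or_nonempty with hem | ⟨c, hcm⟩
    · have : E = {b} := by
        refine Finset.eq_singleton_iff_unique_mem.2 ⟨hb, ?_⟩
        by_contra hne
        push Not at hne
        obtain ⟨u, hu, hub⟩ := hne
        have hcl := closer_mem hT hc hb
        have step : ∀ m u, u ∈ E → G.dist b u = m + 1 → ∃ w ∈ E, G.Adj b w := by
          intro m
          induction m with
          | zero =>
            intro u hu h1'
            exact ⟨u, hu, SimpleGraph.dist_eq_one_iff_adj.1 h1'⟩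
          | succ m ihm =>
            intro u hu hm
            obtain ⟨w, hadj, hw⟩ := exists_closer hT (v := b) (u := u) (by rintro rfl; simp at hm)
            exact ihm w (hcl u hu w hadj hw) (by omega)
        obtain ⟨m, hm⟩ : ∃ m, G.dist b u = m + 1 := by
          rcases Nat.eq_zero_or_pos (G.dist b u) with h' | h'
          · exact absurd (hT.conn.dist_eq_zero_iff.1 h').symm hub
          · exact ⟨_, (Nat.succ_pred_eq_of_pos h').symm⟩
        obtain ⟨w, hw, hadj⟩ := step m u hu hm
        have : w ∈ nbr G b ∩ E := Finset.mem_inter.2 ⟨(mem_nbr hT).2 hadj, hw⟩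
        simp [hem] at this
      subst this
      rw [hem, Finset.sum_empty, add_zero, mag_singleton]
    · rw [Finset.mem_inter, mem_nbr hT] at hcm
      obtain ⟨hbc, hcE⟩ := hcm
      set E' := branch G E c b with hE'
      have hbE' : b ∈ E' := self_mem_branch hT hbc.symm hb
      have hcard : E'.card < E.card := Finset.card_lt_card
        ((Finset.ssubset_iff_of_subset (Finset.filter_subset _ _)).2 ⟨c, hcE, fun hh => by
          have := ((mem_branch hT hbc.symm).1 hh).2
          simp [SimpleGraph.dist_eq_one_iff_adj.2 hbc] at this⟩)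
      have hconn : Conn G E' := conn_branch hT hc hbc.symm hb
      have hB : Conn G (branch G E b c) := conn_branch hT hc hbc hcE
      have hset : nbr G b ∩ E' = (nbr G b ∩ E).erase c := by
        ext w
        simp only [Finset.mem_inter, Finset.mem_erase, hE', mem_branch hT hbc.symm, mem_nbr hT]
        constructor
        · rintro ⟨hbw, hwE, hd⟩
          refine ⟨fun e => ?_, hbw, hwE⟩
          subst e
          simp [SimpleGraph.dist_eq_one_iff_adj.2 hbw] at hd
        · rintro ⟨hne, hbw, hwE⟩
          refine ⟨hbw, hwE, ?_⟩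
          have hbw1 := SimpleGraph.dist_eq_one_iff_adj.2 hbw
          rcases dist_adj_cases hT hbc w with hh | hh
          · exfalso
            have : G.dist c w = 0 := by omega
            exact hne (hT.conn.dist_eq_zero_iff.1 this).symm
          · exact hh
      have hmu' : mu G θ E h c b =
          tanh (h b + ∑ w ∈ (nbr G b ∩ E).erase c, leafShift θ (artanh (mu G θ E h b w))) := by
        rw [mu, ih (by omega) hconn hbE', hset]
        refine congrArg (fun s => tanh (h b + s)) (Finset.sum_congr rfl fun w hw => ?_)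
        have hwE' : w ∈ E' := (Finset.mem_inter.1 (hset ▸ hw : w ∈ nbr G b ∩ E')).2
        have hbw : G.Adj b w := (mem_nbr hT).1 (Finset.mem_inter.1 (Finset.mem_of_mem_erase hw)).1
        rw [mu, mu, hE', branch_branch hT hbc.symm hbw hbE' hwE'
          (by simp [SimpleGraph.dist_eq_one_iff_adj.2 hbw])]
      have hlt : mu G θ E h b c ∈ Set.Ioo (-1 : ℝ) 1 := by
        have hcard2 : (branch G E b c).card ≤ n := by
          have hd : (branch G E b c).card < E.card := Finset.card_lt_card
            ((Finset.ssubset_iff_of_subset (Finset.filter_subset _ _)).2 ⟨b, hb, fun hh => by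
              have := ((mem_branch hT hbc).1 hh).2
              simp [SimpleGraph.dist_eq_one_iff_adj.2 hbc.symm] at this⟩)
          omega
        rw [mu, ih hcard2 hB (self_mem_branch hT hbc hcE)]
        exact ⟨Real.neg_one_lt_tanh _, Real.tanh_lt_one _⟩
      rw [mag_edge hT h0 h1 hbc.symm hcE hb h,
        ← Finset.add_sum_erase _ _ (Finset.mem_inter.2 ⟨(mem_nbr hT).2 hbc, hcE⟩ : c ∈ nbr G b ∩ E),
        show h b + (leafShift θ (artanh (mu G θ E h b c)) + ∑ w ∈ (nbr G b ∩ E).erase c,
            leafShift θ (artanh (mu G θ E h b w))) =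
          (h b + ∑ w ∈ (nbr G b ∩ E).erase c, leafShift θ (artanh (mu G θ E h b w))) +
            leafShift θ (artanh (mu G θ E h b c)) by ring,
        tanh_add', ← hmu', tanh_leafShift h0 h1, tanh_artanh hlt]
      congr 1
      ring

theorem mu_rec (hT : RTree G d) (h0 : 0 ≤ θ) (h1 : θ < 1) {D : Finset V} (hD : Conn G D)
    {a b : V} (hab : G.Adj a b) (hb : b ∈ D) (h : V → ℝ) :
    mu G θ D h a b =
      tanh (h b + ∑ c ∈ kids G a b ∩ D, leafShift θ (artanh (mu G θ D h b c))) := by
  set E := branch G D a b with hE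
  have hbE : b ∈ E := self_mem_branch hT hab hb
  have hset : nbr G b ∩ E = kids G a b ∩ D := by
    ext w
    simp only [Finset.mem_inter, hE, mem_branch hT hab, kids, Finset.mem_erase, mem_nbr hT]
    constructor
    · rintro ⟨hbw, hwD, hd⟩
      refine ⟨⟨fun e => ?_, hbw⟩, hwD⟩
      subst e
      simp [SimpleGraph.dist_eq_one_iff_adj.2 hbw] at hd
    · rintro ⟨⟨hne, hbw⟩, hwD⟩
      refine ⟨hbw, hwD, ?_⟩
      have hbw1 := SimpleGraph.dist_eq_one_iff_adj.2 hbw
      rcases dist_adj_cases hT hab w with hh | hh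
      · exact hh
      · exfalso
        have : G.dist a w = 0 := by omega
        exact hne (hT.conn.dist_eq_zero_iff.1 this).symm
  rw [mu, mag_rec hT h0 h1 h E.card le_rfl (conn_branch hT hD hab hb) hbE, hset]
  refine congrArg (fun s => tanh (h b + s)) (Finset.sum_congr rfl fun w hw => ?_)
  have hwE : w ∈ E := (Finset.mem_inter.1 (hset ▸ hw : w ∈ nbr G b ∩ E)).2
  have hbw : G.Adj b w :=
    (mem_nbr hT).1 (Finset.mem_of_mem_erase (Finset.mem_inter.1 hw).1)
  rw [mu, mu, hE, branch_branch hT hab hbw hbE hwE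
    (by simp [SimpleGraph.dist_eq_one_iff_adj.2 hbw])]

theorem mu_mem (hT : RTree G d) (h0 : 0 ≤ θ) (h1 : θ < 1) {D : Finset V} (hD : Conn G D)
    {a b : V} (hab : G.Adj a b) (hb : b ∈ D) (h : V → ℝ) :
    mu G θ D h a b ∈ Set.Ioo (-1 : ℝ) 1 := by
  rw [mu_rec hT h0 h1 hD hab hb h]
  exact ⟨Real.neg_one_lt_tanh _, Real.tanh_lt_one _⟩

theorem mag_mem (hT : RTree G d) (h0 : 0 ≤ θ) (h1 : θ < 1) {D : Finset V} (hD : Conn G D)
    {b : V} (hb : b ∈ D) (h : V → ℝ) : mag G θ D h b ∈ Set.Ioo (-1 : ℝ) 1 := by
  rw [mag_rec hT h0 h1 h D.card le_rfl hD hb]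
  exact ⟨Real.neg_one_lt_tanh _, Real.tanh_lt_one _⟩

/-- The covariance along a geodesic. -/
theorem cv_path (hT : RTree G d) (h0 : 0 ≤ θ) (h1 : θ < 1) (h : V → ℝ) :
    ∀ (n : ℕ) {D : Finset V}, Conn G D → ∀ (x : ℕ → V), (∀ i, i ≤ n → x i ∈ D) →
      (∀ i, i < n → G.Adj (x i) (x (i + 1))) → (∀ i, i ≤ n → G.dist (x 0) (x i) = i) →
      cv G θ D h (x 0) (x n) = θ ^ n * (1 - mag G θ D h (x 0) ^ 2) *
        ∏ i ∈ range n, rt θ (mu G θ D h (x i) (x (i + 1))) := by
  intro n
  induction n with
  | zero => intro D _ x _ _ _; simp [cv_self_eq h0 h1]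
  | succ n ih =>
    intro D hD x hmem hadj hdist
    have hab : G.Adj (x 0) (x 1) := hadj 0 (by omega)
    have ha := hmem 0 (by omega)
    have hb := hmem 1 (by omega)
    set a := x 0
    set b := x 1
    set B := branch G D a b with hB
    have hd1 : ∀ i, i ≤ n → G.dist a (x (i + 1)) = G.dist b (x (i + 1)) + 1 := by
      intro i
      induction i with
      | zero => intro _; simp [b, SimpleGraph.dist_eq_one_iff_adj.2 hab]
      | succ i ihi =>
        intro hi
        have e0 := ihi (by omega)
        have e1 := hdist (i + 1) (by omega)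
        have e2 := hdist (i + 1 + 1) (by omega)
        have t := hT.conn.dist_triangle (u := b) (v := x (i + 1)) (w := x (i + 1 + 1))
        rw [SimpleGraph.dist_eq_one_iff_adj.2 (hadj (i + 1) (by omega))] at t
        have c := dist_adj_cases hT hab (x (i + 1 + 1))
        omega
    have hmemB : ∀ i, i ≤ n → x (i + 1) ∈ B := fun i hi =>
      (mem_branch hT hab).2 ⟨hmem _ (by omega), hd1 i hi⟩
    have hdB : ∀ i, i ≤ n → G.dist b (x (i + 1)) = i := fun i hi => by
      have := hd1 i hi
      rw [hdist (i + 1) (by omega)] at this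
      omega
    have hB' := ih (conn_branch hT hD hab hb) (fun i => x (i + 1)) hmemB
      (fun i hi => hadj (i + 1) (by omega)) (fun i hi => by simpa using hdB i hi)
    simp only [zero_add] at hB'
    have hmu : ∀ i ∈ range n, rt θ (mu G θ B h (x (i + 1)) (x (i + 1 + 1))) =
        rt θ (mu G θ D h (x (i + 1)) (x (i + 1 + 1))) := by
      intro i hi
      rw [Finset.mem_range] at hi
      rw [mu, mu, hB, branch_branch hT hab (hadj (i + 1) (by omega)) (hmemB i (by omega))
        (hmemB (i + 1) (by omega)) (by rw [hdB (i + 1) (by omega), hdB i (by omega)])]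
    rw [Finset.prod_congr rfl hmu, ← hB] at hB'
    rw [cv_cross hT h0 h1 hab ha hb (self_mem_branch hT hab.symm ha) (hmemB n le_rfl), ← hB, hB',
      cv_self_eq h0 h1, mag_edge hT h0 h1 hab.symm hb ha h, Finset.prod_range_succ', rt]
    have eB : mag G θ B h b = mu G θ D h a b := rfl
    have eA : mag G θ (branch G D b a) h a = mu G θ D h b a := rfl
    rw [eA, eB]
    set p := mu G θ D h b a
    set q := mu G θ D h a b
    have hp : |p| ≤ 1 := abs_mu_le h0 h1 _ _ _ _
    have hq : |q| ≤ 1 := abs_mu_le h0 h1 _ _ _ _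
    have hne := (one_add_pos h0 h1 hp hq).ne'
    have hne' : 1 + θ * (q * p) ≠ 0 := by rwa [mul_comm q p]
    have hq2 : 1 - θ ^ 2 * q ^ 2 ≠ 0 := by
      have h2 : q ^ 2 ≤ 1 := by rw [← sq_abs]; exact pow_le_one₀ (abs_nonneg _) hq
      have : θ ^ 2 < 1 := by nlinarith
      nlinarith
    have key : 1 - ((p + θ * q) / (1 + θ * (q * p))) ^ 2 =
        (1 - p ^ 2) * (1 - θ ^ 2 * q ^ 2) / (1 + θ * (p * q)) ^ 2 := by
      rw [show q * p = p * q from mul_comm q p, div_pow, one_sub_div (pow_ne_zero 2 hne)]
      congr 1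
      ring
    rw [key]
    generalize ∏ k ∈ range n, rt θ (mu G θ D h (x (k + 1)) (x (k + 1 + 1))) = P
    rw [pow_succ]
    calc θ * (1 - p ^ 2) * (θ ^ n * (1 - q ^ 2) * P) / (1 + θ * (p * q)) ^ 2
        = θ ^ n * θ * ((1 - p ^ 2) / (1 + θ * (p * q)) ^ 2) *
            (P * ((1 - q ^ 2) * ((1 - θ ^ 2 * q ^ 2) / (1 - θ ^ 2 * q ^ 2)))) := by
          rw [div_self hq2]; ring
      _ = _ := by ring

end Vale.Agent.P161
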