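import Vale.Agent.P161.Compare
import Vale.Agent.P161.Crit.Branch
import Mathlib.Algebra.Order.Chebyshev

/-!
# One step of two coupled schemes
-/

open MeasureTheory ProbabilityTheory Finset Real
open scoped Classical

noncomputable section

namespace Vale.Agent.P161

variable {V : Type*} {G : SimpleGraph V} {d : ℕ} {θ : ℝ}

/-- The covariance, extended by zero outside the volume. -/
def cvx (G : SimpleGraph V) (θ : ℝ) (D : Finset V) (h : V → ℝ) (v w : V) : ℝ :=
  if w ∈ D then cv G θ D h v w else 0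

/-! ## Expectations after a change of the field -/

theorem num_comb (D : Finset V) (h : V → ℝ) {α : Type*} (s : Finset α) (c : α → ℝ)
    (f : α → Finset V → ℝ) :
    num G θ D h (fun A => ∑ a ∈ s, c a * f a A) = ∑ a ∈ s, c a * num G θ D h (f a) := by
  simp only [num, Finset.mul_sum]
  rw [Finset.sum_comm]
  exact Finset.sum_congr rfl fun a _ => Finset.sum_congr rfl fun A _ => by ring

theorem avg_comb (D : Finset V) (h : V → ℝ) {α : Type*} (s : Finset α) (c : α → ℝ)
    (f : α → Finset V → ℝ) :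
    avg G θ D h (fun A => ∑ a ∈ s, c a * f a A) = ∑ a ∈ s, c a * avg G θ D h (f a) := by
  simp only [avg, num_comb, Finset.sum_div, mul_div_assoc]

theorem avg_add' (D : Finset V) (h : V → ℝ) (f g : Finset V → ℝ) :
    avg G θ D h (fun A => f A + g A) = avg G θ D h f + avg G θ D h g := by
  simp only [avg, num, mul_add, Finset.sum_add_distrib, add_div]

theorem avg_smul' (D : Finset V) (h : V → ℝ) (c : ℝ) (f : Finset V → ℝ) :
    avg G θ D h (fun A => c * f A) = c * avg G θ D h f := by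
  simp only [avg, num, ← mul_div_assoc, Finset.mul_sum]
  congr 1
  exact Finset.sum_congr rfl fun A _ => by ring

theorem num_tilt (D : Finset V) (h u : V → ℝ) (f : Finset V → ℝ) :
    num G θ D (fun w => h w + u w) f =
      num G θ D h (fun A => exp (∑ w ∈ D, u w * sp A w) * f A) := by
  refine Finset.sum_congr rfl fun A _ => ?_
  have : bf D (fun w => h w + u w) A = bf D h A * exp (∑ w ∈ D, u w * sp A w) := by
    rw [bf, bf, ← exp_add, ← Finset.sum_add_distrib]
    exact congrArg exp (Finset.sum_congr rfl fun w _ => add_mul _ _ _)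
  rw [this]
  ring

theorem avg_tilt (h0 : 0 ≤ θ) (h1 : θ < 1) (D : Finset V) (h u : V → ℝ) (f : Finset V → ℝ) :
    avg G θ D (fun w => h w + u w) f =
      avg G θ D h (fun A => exp (∑ w ∈ D, u w * sp A w) * f A) /
        avg G θ D h (fun A => exp (∑ w ∈ D, u w * sp A w)) := by
  have h2 := num_tilt (G := G) (θ := θ) D h u (fun _ => 1)
  simp only [mul_one] at h2
  simp only [avg, part, num_tilt D h u f, h2]
  exact (div_div_div_cancel_right₀ (part_pos (G := G) h0 h1 D h).ne' _ _).symm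

theorem measurable_avg (D : Finset V) (f : Finset V → ℝ) :
    Measurable (fun h : V → ℝ => avg G θ D h f) :=
  (measurable_num D f).div (measurable_num D _)

theorem measurable_cvx (D : Finset V) (v w : V) :
    Measurable (fun h : V → ℝ => cvx G θ D h v w) := by
  by_cases hw : w ∈ D
  · simp only [cvx, if_pos hw, cv]
    exact (measurable_avg D _).sub ((measurable_mag D v).mul (measurable_mag D w))
  · simp only [cvx, if_neg hw]
    exact measurable_const

theorem abs_cv_le_two (h0 : 0 ≤ θ) (h1 : θ < 1) (D : Finset V) (h : V → ℝ) (v w : V) :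
    |cv G θ D h v w| ≤ 2 := by
  refine (abs_sub _ _).trans ?_
  have a1 : |avg G θ D h (fun A => sp A v * sp A w)| ≤ 1 :=
    abs_avg_le h0 h1 fun A => by simp [abs_mul, abs_sp]
  have a2 : |mag G θ D h v * mag G θ D h w| ≤ 1 := by
    rw [abs_mul]
    exact mul_le_one₀ (abs_mag_le h0 h1 D h v) (abs_nonneg _) (abs_mag_le h0 h1 D h w)
  linarith

theorem abs_cvx_le (h0 : 0 ≤ θ) (h1 : θ < 1) (D : Finset V) (h : V → ℝ) (v w : V) :
    |cvx G θ D h v w| ≤ 2 := by
  by_cases hw : w ∈ D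
  · simpa [cvx, hw] using abs_cv_le_two h0 h1 D h v w
  · simp [cvx, hw]

/-- The coefficients of the second order term of the magnetization at `v`. -/
def tCoef (G : SimpleGraph V) (θ : ℝ) (D : Finset V) (h : V → ℝ) (v w x : V) : ℝ :=
  (avg G θ D h (fun A => sp A v * sp A w * sp A x) -
    mag G θ D h v * avg G θ D h (fun A => sp A w * sp A x)) / 2 -
  cv G θ D h v w * mag G θ D h x

theorem abs_tCoef_le (h0 : 0 ≤ θ) (h1 : θ < 1) (D : Finset V) (h : V → ℝ) (v w x : V) :
    |tCoef G θ D h v w x| ≤ 3 := by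
  have a1 : |avg G θ D h (fun A => sp A v * sp A w * sp A x)| ≤ 1 :=
    abs_avg_le h0 h1 fun A => by simp [abs_mul, abs_sp]
  have a2 : |mag G θ D h v * avg G θ D h (fun A => sp A w * sp A x)| ≤ 1 := by
    rw [abs_mul]
    exact mul_le_one₀ (abs_mag_le h0 h1 D h v) (abs_nonneg _)
      (abs_avg_le h0 h1 fun A => by simp [abs_mul, abs_sp])
  have a3 : |cv G θ D h v w * mag G θ D h x| ≤ 2 := by
    rw [abs_mul]
    calc |cv G θ D h v w| * |mag G θ D h x| ≤ 2 * 1 :=
          mul_le_mul (abs_cv_le_two h0 h1 D h v w) (abs_mag_le h0 h1 D h x) (abs_nonneg _) zero_le_two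
      _ = 2 := mul_one _
  have b1 := abs_le.1 a1
  have b2 := abs_le.1 a2
  have b3 := abs_le.1 a3
  rw [tCoef, abs_le]
  constructor <;> linarith

theorem tCoef_diag (h0 : 0 ≤ θ) (h1 : θ < 1) (D : Finset V) (h : V → ℝ) (v w : V) :
    tCoef G θ D h v w w = -(cv G θ D h v w * mag G θ D h w) := by
  simp only [tCoef, mul_assoc, sp_sq, mul_one, avg_const h0 h1]
  show (mag G θ D h v - _) / 2 - _ = _
  ring

/-- The second order expansion of a ratio of exponential averages. -/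
theorem ratio_bound {S m n z a1 b1 a2 b2 : ℝ} (hS1 : S ≤ 1) (hS : 0 ≤ S)
    (hm : |m| ≤ 1) (hn : |n - (m + a1 + a2 / 2)| ≤ S ^ 3) (hz : |z - (1 + b1 + b2 / 2)| ≤ S ^ 3)
    (ha1 : |a1| ≤ S) (hb1 : |b1| ≤ S) (ha2 : |a2| ≤ S ^ 2) (hb2 : |b2| ≤ S ^ 2) (hz3 : 1 / 3 ≤ z) :
    |n / z - m - ((a1 - m * b1) + ((a2 - m * b2) / 2 - (a1 - m * b1) * b1))| ≤ 45 * S ^ 3 := by
  set rn := n - (m + a1 + a2 / 2) with hrn
  set rz := z - (1 + b1 + b2 / 2) with hrz
  set A := a1 - m * b1 with hA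
  set Q := (a2 - m * b2) / 2 - A * b1 with hQ
  have hA' : |A| ≤ 2 * S := by
    refine (abs_sub _ _).trans ?_
    rw [abs_mul]
    nlinarith [abs_nonneg b1, abs_nonneg m]
  have hQ' : |Q| ≤ 3 * S ^ 2 := by
    refine (abs_sub _ _).trans ?_
    rw [abs_div, abs_two, abs_mul]
    have e1 : |a2 - m * b2| ≤ 2 * S ^ 2 := by
      refine (abs_sub _ _).trans ?_
      rw [abs_mul]
      nlinarith [abs_nonneg b2, abs_nonneg m]
    have e2 : |A| * |b1| ≤ 2 * S * S := mul_le_mul hA' hb1 (abs_nonneg _) (by linarith)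
    nlinarith
  have hT : |A + Q| ≤ 5 * S := (abs_add_le _ _).trans (by nlinarith)
  have hr : |b2 / 2 + rz| ≤ 2 * S ^ 2 := by
    refine (abs_add_le _ _).trans ?_
    rw [abs_div, abs_two]
    have : S ^ 3 ≤ S ^ 2 := pow_le_pow_of_le_one hS hS1 (by norm_num)
    linarith [sq_nonneg S]
  have key : n / z - m - (A + Q) = ((rn - m * rz) - Q * b1 - (A + Q) * (b2 / 2 + rz)) / z := by
    have hzne : z ≠ 0 := by linarith
    field_simp
    rw [hrn, hrz, hQ, hA]
    ring
  rw [key, abs_div, abs_of_pos (show 0 < z by linarith), div_le_iff₀ (by linarith)]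
  have e1 : |rn - m * rz| ≤ 2 * S ^ 3 := by
    refine (abs_sub _ _).trans ?_
    rw [abs_mul]
    nlinarith [abs_nonneg rz, abs_nonneg m]
  have e2 : |Q * b1| ≤ 3 * S ^ 3 := by
    rw [abs_mul]
    calc |Q| * |b1| ≤ 3 * S ^ 2 * S := mul_le_mul hQ' hb1 (abs_nonneg _) (by positivity)
      _ = _ := by ring
  have e3 : |(A + Q) * (b2 / 2 + rz)| ≤ 10 * S ^ 3 := by
    rw [abs_mul]
    calc |A + Q| * |b2 / 2 + rz| ≤ 5 * S * (2 * S ^ 2) :=
          mul_le_mul hT hr (abs_nonneg _) (by positivity)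
      _ = _ := by ring
  have h3 : 45 * S ^ 3 * (1 / 3) ≤ 45 * S ^ 3 * z :=
    mul_le_mul_of_nonneg_left hz3 (by positivity)
  calc |rn - m * rz - Q * b1 - (A + Q) * (b2 / 2 + rz)|
      ≤ |rn - m * rz - Q * b1| + |(A + Q) * (b2 / 2 + rz)| := abs_sub _ _
    _ ≤ |rn - m * rz| + |Q * b1| + |(A + Q) * (b2 / 2 + rz)| :=
        add_le_add (abs_sub _ _) le_rfl
    _ ≤ 45 * S ^ 3 * z := by linarith

/-- The magnetization in a changed field, to second order. -/
theorem mag_taylor (h0 : 0 ≤ θ) (h1 : θ < 1) (D : Finset V) (h u : V → ℝ) (v : V) :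
    |mag G θ D (fun w => h w + u w) v - mag G θ D h v -
      (∑ w ∈ D, u w * cv G θ D h v w +
        ∑ w ∈ D, ∑ x ∈ D, u w * u x * tCoef G θ D h v w x)| ≤ 45 * (∑ w ∈ D, |u w|) ^ 3 := by
  set S := ∑ w ∈ D, |u w| with hSdef
  set X := fun A : Finset V => ∑ w ∈ D, u w * sp A w with hX
  have hS0 : 0 ≤ S := Finset.sum_nonneg fun w _ => abs_nonneg _
  have hXb : ∀ A, |X A| ≤ S := fun A =>
    (Finset.abs_sum_le_sum_abs _ _).trans (le_of_eq (Finset.sum_congr rfl fun w _ => by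
      rw [abs_mul, abs_sp, mul_one]))
  set m := mag G θ D h v with hm
  set a1 := avg G θ D h (fun A => X A * sp A v) with ha1
  set b1 := avg G θ D h X with hb1
  set a2 := avg G θ D h (fun A => X A ^ 2 * sp A v) with ha2
  set b2 := avg G θ D h (fun A => X A ^ 2) with hb2
  have hlin : ∑ w ∈ D, u w * cv G θ D h v w = a1 - m * b1 := by
    rw [ha1, hb1]
    simp only [hX, Finset.sum_mul, mul_assoc]
    rw [avg_comb D h D u (fun w A => sp A w * sp A v), avg_comb D h D u (fun w A => sp A w),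
      Finset.mul_sum, ← Finset.sum_sub_distrib]
    refine Finset.sum_congr rfl fun w _ => ?_
    rw [cv, show (fun A : Finset V => sp A v * sp A w) = fun A => sp A w * sp A v from
      funext fun A => mul_comm _ _]
    show _ = u w * _ - m * (u w * mag G θ D h w)
    ring
  have hquad : ∑ w ∈ D, ∑ x ∈ D, u w * u x * tCoef G θ D h v w x =
      (a2 - m * b2) / 2 - (a1 - m * b1) * b1 := by
    have eX : ∀ A : Finset V, X A ^ 2 =
        ∑ p ∈ D ×ˢ D, u p.1 * u p.2 * (sp A p.1 * sp A p.2) := fun A => by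
      simp only [hX, sq, Finset.sum_mul_sum, Finset.sum_product]
      exact Finset.sum_congr rfl fun w _ => Finset.sum_congr rfl fun x _ => by ring
    have e2 : a2 = ∑ p ∈ D ×ˢ D,
        u p.1 * u p.2 * avg G θ D h (fun A => sp A v * sp A p.1 * sp A p.2) := by
      rw [ha2, ← avg_comb D h (D ×ˢ D) (fun p => u p.1 * u p.2)
        (fun p A => sp A v * sp A p.1 * sp A p.2)]
      congr 1
      funext A
      rw [eX, Finset.sum_mul]
      exact Finset.sum_congr rfl fun p _ => by ring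
    have f2 : b2 = ∑ p ∈ D ×ˢ D, u p.1 * u p.2 * avg G θ D h (fun A => sp A p.1 * sp A p.2) := by
      rw [hb2, ← avg_comb D h (D ×ˢ D) (fun p => u p.1 * u p.2)
        (fun p A => sp A p.1 * sp A p.2)]
      congr 1
      funext A
      exact eX A
    have f1 : b1 = ∑ x ∈ D, u x * mag G θ D h x := by
      rw [hb1]
      exact avg_comb D h D u (fun w A => sp A w)
    rw [← hlin, e2, f2, f1, Finset.sum_mul_sum, Finset.mul_sum, ← Finset.sum_sub_distrib,
      Finset.sum_div, Finset.sum_product, ← Finset.sum_sub_distrib]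
    refine Finset.sum_congr rfl fun w _ => ?_
    rw [← Finset.sum_sub_distrib]
    refine Finset.sum_congr rfl fun x _ => ?_
    rw [tCoef, hm]
    ring
  have ha1b : |a1| ≤ S := abs_avg_le h0 h1 fun A => by rw [abs_mul, abs_sp, mul_one]; exact hXb A
  have hb1b : |b1| ≤ S := abs_avg_le h0 h1 hXb
  have hsq : ∀ A, |X A ^ 2| ≤ S ^ 2 := fun A => by
    rw [abs_pow]; exact pow_le_pow_left₀ (abs_nonneg _) (hXb A) 2
  have ha2b : |a2| ≤ S ^ 2 := abs_avg_le h0 h1 fun A => by
    rw [abs_mul, abs_sp, mul_one]; exact hsq A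
  have hb2b : |b2| ≤ S ^ 2 := abs_avg_le h0 h1 hsq
  have hmb : |m| ≤ 1 := abs_mag_le h0 h1 D h v
  rw [hlin, hquad]
  by_cases hS1 : S ≤ 1
  · set e := fun A : Finset V => exp (X A) - (1 + X A + X A ^ 2 / 2) with he
    have heb : ∀ A, |e A| ≤ S ^ 3 := fun A => by
      have h3 := Real.exp_bound (x := X A) ((hXb A).trans hS1) (n := 3) (by norm_num)
      norm_num [Finset.sum_range_succ, Nat.factorial] at h3
      have h4 : |X A| ^ 3 ≤ S ^ 3 := pow_le_pow_left₀ (abs_nonneg _) (hXb A) 3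
      refine le_trans (le_of_eq_of_le (congrArg abs ?_) h3) ?_
      · simp only [he]
      · nlinarith [pow_nonneg (abs_nonneg (X A)) 3]
    have hexp : ∀ f : Finset V → ℝ, avg G θ D h (fun A => exp (X A) * f A) -
        (avg G θ D h f + avg G θ D h (fun A => X A * f A) +
          avg G θ D h (fun A => X A ^ 2 * f A) / 2) = avg G θ D h (fun A => e A * f A) := by
      intro f
      have : (fun A => exp (X A) * f A) =
          fun A => ((f A + X A * f A) + (1 / 2) * (X A ^ 2 * f A)) + e A * f A :=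
        funext fun A => by simp only [he]; ring
      rw [this, avg_add', avg_add', avg_add', avg_smul']
      ring
    rw [show mag G θ D (fun w => h w + u w) v =
      avg G θ D h (fun A => exp (X A) * sp A v) / avg G θ D h (fun A => exp (X A)) from
        avg_tilt h0 h1 D h u _]
    refine ratio_bound hS1 hS0 hmb ?_ ?_ ha1b hb1b ha2b hb2b ?_
    · rw [hm, ha1, ha2, show mag G θ D h v = avg G θ D h (fun A => sp A v) from rfl,
        hexp (fun A => sp A v)]
      exact abs_avg_le h0 h1 fun A => by rw [abs_mul, abs_sp, mul_one]; exact heb A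
    · have h2 := hexp (fun _ => 1)
      simp only [mul_one, avg_const h0 h1] at h2
      rw [hb1, hb2, h2]
      exact abs_avg_le h0 h1 heb
    · rw [← avg_const (G := G) h0 h1 D h (1 / 3)]
      refine avg_mono h0 h1 fun A => ?_
      have h5 : exp (-1) ≤ exp (X A) := exp_le_exp.2 (by linarith [(abs_le.1 (hXb A)).1])
      have h6 : (1 : ℝ) / 3 ≤ exp (-1) := by
        rw [exp_neg, one_div, inv_le_inv₀ (by norm_num) (exp_pos 1)]
        exact (Real.exp_one_lt_d9.trans (by norm_num)).le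
      linarith
  · push Not at hS1
    have q1 : S ≤ S ^ 3 := le_self_pow₀ hS1.le (by norm_num)
    have q2 : S ^ 2 ≤ S ^ 3 := pow_le_pow_right₀ hS1.le (by norm_num)
    have q0 : (1 : ℝ) ≤ S ^ 3 := one_le_pow₀ hS1.le
    have hA : |a1 - m * b1| ≤ 2 * S := by
      refine (abs_sub _ _).trans ?_
      rw [abs_mul]
      nlinarith [abs_nonneg b1, abs_nonneg m]
    have hB : |(a2 - m * b2) / 2| ≤ S ^ 2 := by
      rw [abs_div, abs_two, div_le_iff₀ two_pos]
      refine (abs_sub _ _).trans ?_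
      rw [abs_mul]
      nlinarith [abs_nonneg b2, abs_nonneg m]
    have hC : |(a1 - m * b1) * b1| ≤ 2 * S ^ 2 := by
      rw [abs_mul]
      calc |a1 - m * b1| * |b1| ≤ 2 * S * S := mul_le_mul hA hb1b (abs_nonneg _) (by linarith)
        _ = _ := by ring
    have hM := abs_le.1 (abs_mag_le (G := G) h0 h1 D (fun w => h w + u w) v)
    have hm' := abs_le.1 hmb
    have hA' := abs_le.1 hA
    have hB' := abs_le.1 hB
    have hC' := abs_le.1 hC
    rw [abs_le]
    constructor <;> linarith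

/-! ## One step at a single volume -/

/-- The term of order `√δ` of one step. -/
def stepL (G : SimpleGraph V) (θ : ℝ) (D : Finset V) (h : V → ℝ) (v : V) (ξ : V → ℝ) : ℝ :=
  ∑ w ∈ D, cv G θ D h v w * ξ w

/-- The term of order `δ` of one step. -/
def stepQ (G : SimpleGraph V) (θ : ℝ) (D : Finset V) (h : V → ℝ) (v : V) (ξ : V → ℝ) : ℝ :=
  ∑ w ∈ D, mag G θ D h w * cv G θ D h v w +
    ∑ w ∈ D, ∑ x ∈ D, tCoef G θ D h v w x * (ξ w * ξ x)

theorem stepL_eq {D E : Finset V} (hDE : D ⊆ E) (h : V → ℝ) (v : V) (ξ : V → ℝ) :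
    stepL G θ D h v ξ = ∑ w ∈ E, cvx G θ D h v w * ξ w := by
  rw [stepL, ← Finset.sum_subset hDE (f := fun w => cvx G θ D h v w * ξ w)
    (fun w _ hw => by simp [cvx, hw])]
  exact Finset.sum_congr rfl fun w hw => by simp [cvx, hw]

theorem abs_stepL_le (h0 : 0 ≤ θ) (h1 : θ < 1) {D E : Finset V} (hDE : D ⊆ E) (h : V → ℝ) (v : V)
    (ξ : V → ℝ) : |stepL G θ D h v ξ| ≤ 2 * (1 + ∑ w ∈ E, |ξ w|) := by
  refine (Finset.abs_sum_le_sum_abs _ _).trans ?_
  calc ∑ w ∈ D, |cv G θ D h v w * ξ w| ≤ ∑ w ∈ D, 2 * |ξ w| := Finset.sum_le_sum fun w _ => by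
        rw [abs_mul]; exact mul_le_mul_of_nonneg_right (abs_cv_le_two h0 h1 D h v w) (abs_nonneg _)
    _ ≤ ∑ w ∈ E, 2 * |ξ w| :=
        Finset.sum_le_sum_of_subset_of_nonneg hDE fun w _ _ => by positivity
    _ = 2 * ∑ w ∈ E, |ξ w| := (Finset.mul_sum _ _ _).symm
    _ ≤ _ := by linarith

theorem abs_stepQ_le (h0 : 0 ≤ θ) (h1 : θ < 1) {D E : Finset V} (hDE : D ⊆ E) {N : ℕ}
    (hN : E.card ≤ N) (h : V → ℝ) (v : V) (ξ : V → ℝ) :
    |stepQ G θ D h v ξ| ≤ (2 * N + 3) * (1 + ∑ w ∈ E, |ξ w|) ^ 2 := by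
  set W := 1 + ∑ w ∈ E, |ξ w| with hW
  have hW1 : 1 ≤ W := le_add_of_nonneg_right (Finset.sum_nonneg fun w _ => abs_nonneg _)
  have hDN : (D.card : ℝ) ≤ N := by exact_mod_cast (Finset.card_le_card hDE).trans hN
  have hs : ∑ w ∈ D, |ξ w| ≤ W :=
    (Finset.sum_le_sum_of_subset_of_nonneg hDE fun w _ _ => abs_nonneg _).trans (by linarith)
  refine (abs_add_le _ _).trans ?_
  have e1 : |∑ w ∈ D, mag G θ D h w * cv G θ D h v w| ≤ 2 * N := by
    refine (Finset.abs_sum_le_sum_abs _ _).trans ?_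
    calc ∑ w ∈ D, |mag G θ D h w * cv G θ D h v w| ≤ ∑ _w ∈ D, (2 : ℝ) :=
          Finset.sum_le_sum fun w _ => by
            rw [abs_mul]
            nlinarith [abs_mag_le (G := G) h0 h1 D h w, abs_cv_le_two (G := G) h0 h1 D h v w,
              abs_nonneg (mag G θ D h w), abs_nonneg (cv G θ D h v w)]
      _ ≤ 2 * N := by rw [Finset.sum_const, nsmul_eq_mul]; linarith
  have e2 : |∑ w ∈ D, ∑ x ∈ D, tCoef G θ D h v w x * (ξ w * ξ x)| ≤ 3 * W ^ 2 := by
    refine (Finset.abs_sum_le_sum_abs _ _).trans ?_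
    calc ∑ w ∈ D, |∑ x ∈ D, tCoef G θ D h v w x * (ξ w * ξ x)|
        ≤ ∑ w ∈ D, ∑ x ∈ D, 3 * (|ξ w| * |ξ x|) :=
          Finset.sum_le_sum fun w _ => (Finset.abs_sum_le_sum_abs _ _).trans
            (Finset.sum_le_sum fun x _ => by
              rw [abs_mul, abs_mul]
              exact mul_le_mul_of_nonneg_right (abs_tCoef_le h0 h1 D h v w x) (by positivity))
      _ = 3 * (∑ w ∈ D, |ξ w|) ^ 2 := by rw [sq, Finset.sum_mul_sum]; simp only [Finset.mul_sum]
      _ ≤ 3 * W ^ 2 := mul_le_mul_of_nonneg_left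
          (pow_le_pow_left₀ (Finset.sum_nonneg fun w _ => abs_nonneg _) hs 2) (by norm_num)
  have : (1 : ℝ) ≤ W ^ 2 := one_le_pow₀ hW1
  nlinarith [(Nat.cast_nonneg N : (0 : ℝ) ≤ N)]

theorem step_expand (h0 : 0 ≤ θ) (h1 : θ < 1) {D E : Finset V} (hDE : D ⊆ E) {N : ℕ}
    (hN : E.card ≤ N) (h : V → ℝ) (v : V) {δ : ℝ} (hδ0 : 0 ≤ δ) (hδ1 : δ ≤ 1) (ξ : V → ℝ) :
    |mag G θ D (fun w => h w + (δ * mag G θ D h w + √δ * ξ w)) v - mag G θ D h v -
      √δ * stepL G θ D h v ξ - δ * stepQ G θ D h v ξ| ≤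
      54 * ((N : ℝ) + 1) ^ 3 * (δ * √δ) * (1 + ∑ w ∈ E, |ξ w|) ^ 3 := by
  set W := 1 + ∑ w ∈ E, |ξ w| with hW
  set s := √δ with hs
  set u := fun w => δ * mag G θ D h w + s * ξ w with hu
  have hW1 : 1 ≤ W := le_add_of_nonneg_right (Finset.sum_nonneg fun w _ => abs_nonneg _)
  have hs0 : 0 ≤ s := Real.sqrt_nonneg _
  have hss : s * s = δ := Real.mul_self_sqrt hδ0
  have hs1 : s ≤ 1 := Real.sqrt_le_one.2 hδ1
  have hN0 : (0 : ℝ) ≤ N := Nat.cast_nonneg N
  have hDN : (D.card : ℝ) ≤ N := by exact_mod_cast (Finset.card_le_card hDE).trans hN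
  have hm : ∀ w, |mag G θ D h w| ≤ 1 := abs_mag_le h0 h1 D h
  have hξ : ∀ w ∈ D, |ξ w| ≤ W := fun w hw => by
    have := Finset.single_le_sum (f := fun w => |ξ w|) (fun w _ => abs_nonneg _) (hDE hw)
    linarith
  have hS : ∑ w ∈ D, |u w| ≤ s * (((N : ℝ) + 1) * W) := by
    calc ∑ w ∈ D, |u w| ≤ ∑ w ∈ D, (s + s * |ξ w|) := Finset.sum_le_sum fun w _ => by
          refine (abs_add_le _ _).trans ?_
          rw [abs_mul, abs_mul, abs_of_nonneg hδ0, abs_of_nonneg hs0, ← hss]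
          refine add_le_add ?_ le_rfl
          calc s * s * |mag G θ D h w| ≤ s * 1 * 1 :=
                mul_le_mul (mul_le_mul_of_nonneg_left hs1 hs0) (hm w) (abs_nonneg _) (by linarith)
            _ = s := by ring
      _ = s * D.card + s * ∑ w ∈ D, |ξ w| := by
          rw [Finset.sum_add_distrib, Finset.sum_const, nsmul_eq_mul, Finset.mul_sum, mul_comm]
      _ ≤ s * N + s * ∑ w ∈ E, |ξ w| := add_le_add (mul_le_mul_of_nonneg_left hDN hs0)
          (mul_le_mul_of_nonneg_left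
            (Finset.sum_le_sum_of_subset_of_nonneg hDE fun w _ _ => abs_nonneg _) hs0)
      _ ≤ _ := by nlinarith [mul_nonneg hs0 (mul_nonneg hN0 (sub_nonneg.2 hW1))]
  have hS3 : (∑ w ∈ D, |u w|) ^ 3 ≤ ((N : ℝ) + 1) ^ 3 * (δ * s) * W ^ 3 := by
    refine (pow_le_pow_left₀ (Finset.sum_nonneg fun w _ => abs_nonneg _) hS 3).trans (le_of_eq ?_)
    rw [← hss]; ring
  have hq : |(∑ w ∈ D, u w * cv G θ D h v w +
      ∑ w ∈ D, ∑ x ∈ D, u w * u x * tCoef G θ D h v w x) -
      s * stepL G θ D h v ξ - δ * stepQ G θ D h v ξ| ≤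
      9 * ((N : ℝ) + 1) ^ 3 * (δ * s) * W ^ 3 := by
    have e : (∑ w ∈ D, u w * cv G θ D h v w +
        ∑ w ∈ D, ∑ x ∈ D, u w * u x * tCoef G θ D h v w x) -
        s * stepL G θ D h v ξ - δ * stepQ G θ D h v ξ =
        ∑ w ∈ D, ∑ x ∈ D, (u w * u x - δ * (ξ w * ξ x)) * tCoef G θ D h v w x := by
      have eA : ∑ w ∈ D, u w * cv G θ D h v w =
          δ * ∑ w ∈ D, mag G θ D h w * cv G θ D h v w + s * stepL G θ D h v ξ := by
        rw [stepL, Finset.mul_sum, Finset.mul_sum, ← Finset.sum_add_distrib]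
        exact Finset.sum_congr rfl fun w _ => by simp only [hu]; ring
      have eB : ∑ w ∈ D, ∑ x ∈ D, (u w * u x - δ * (ξ w * ξ x)) * tCoef G θ D h v w x =
          ∑ w ∈ D, ∑ x ∈ D, u w * u x * tCoef G θ D h v w x -
            δ * ∑ w ∈ D, ∑ x ∈ D, tCoef G θ D h v w x * (ξ w * ξ x) := by
        rw [Finset.mul_sum, ← Finset.sum_sub_distrib]
        refine Finset.sum_congr rfl fun w _ => ?_
        rw [Finset.mul_sum, ← Finset.sum_sub_distrib]
        exact Finset.sum_congr rfl fun x _ => by ring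
      rw [eA, eB, stepQ]
      ring
    rw [e]
    have hterm : ∀ w ∈ D, ∀ x ∈ D,
        |(u w * u x - δ * (ξ w * ξ x)) * tCoef G θ D h v w x| ≤ δ * s * (3 * W) * 3 := by
      intro w hw x hx
      rw [abs_mul]
      refine mul_le_mul ?_ (abs_tCoef_le h0 h1 D h v w x) (abs_nonneg _) (by positivity)
      have e2 : u w * u x - δ * (ξ w * ξ x) = δ * s * (s * (mag G θ D h w * mag G θ D h x) +
          mag G θ D h w * ξ x + ξ w * mag G θ D h x) := by
        simp only [hu]; rw [← hss]; ring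
      rw [e2, abs_mul, abs_of_nonneg (mul_nonneg hδ0 hs0)]
      refine mul_le_mul_of_nonneg_left ?_ (by positivity)
      refine (abs_add_three _ _ _).trans ?_
      simp only [abs_mul, abs_of_nonneg hs0]
      have t1 : s * (|mag G θ D h w| * |mag G θ D h x|) ≤ 1 * (1 * 1) :=
        mul_le_mul hs1 (mul_le_mul (hm w) (hm x) (abs_nonneg _) zero_le_one) (by positivity)
          zero_le_one
      have t2 : |mag G θ D h w| * |ξ x| ≤ 1 * W :=
        mul_le_mul (hm w) (hξ x hx) (abs_nonneg _) zero_le_one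
      have t3 : |ξ w| * |mag G θ D h x| ≤ W * 1 :=
        mul_le_mul (hξ w hw) (hm x) (abs_nonneg _) (by linarith)
      linarith
    refine (Finset.abs_sum_le_sum_abs _ _).trans ?_
    calc ∑ w ∈ D, |∑ x ∈ D, (u w * u x - δ * (ξ w * ξ x)) * tCoef G θ D h v w x|
        ≤ ∑ w ∈ D, ∑ _x ∈ D, δ * s * (3 * W) * 3 := Finset.sum_le_sum fun w hw =>
          (Finset.abs_sum_le_sum_abs _ _).trans (Finset.sum_le_sum fun x hx => hterm w hw x hx)
      _ = (D.card : ℝ) ^ 2 * (δ * s * (3 * W) * 3) := by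
          simp only [Finset.sum_const, nsmul_eq_mul]; ring
      _ ≤ ((N : ℝ) + 1) ^ 3 * (δ * s * (3 * W ^ 3) * 3) := by
          refine mul_le_mul ?_ ?_ (by positivity) (by positivity)
          · calc (D.card : ℝ) ^ 2 ≤ ((N : ℝ) + 1) ^ 2 :=
                  pow_le_pow_left₀ (Nat.cast_nonneg _) (by linarith) 2
              _ ≤ _ := pow_le_pow_right₀ (by linarith) (by norm_num)
          · have : W ≤ W ^ 3 := le_self_pow₀ hW1 (by norm_num)
            nlinarith [mul_nonneg hδ0 hs0]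
      _ = _ := by ring
  have ht := mag_taylor (G := G) h0 h1 D h u v
  have ht' := abs_le.1 ht
  have hq' := abs_le.1 hq
  rw [abs_le]
  constructor <;> nlinarith [hS3]

/-! ## Moments of the noise -/

theorem integral_coord {ι : Type*} (i : ι) : ∫ z, z i ∂gN ι = 0 := by
  have h : MeasurePreserving (fun z : ι → ℝ => z i) (gN ι) (gaussianReal 0 1) :=
    measurePreserving_eval_infinitePi _ i
  have h2 := integral_id_gaussianReal (μ := 0) (v := 1)
  rw [← h.map_eq, integral_map h.measurable.aemeasurable (by fun_prop)] at h2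
  exact h2

theorem integrable_coord {ι : Type*} (i : ι) : Integrable (fun z : ι → ℝ => z i) (gN ι) :=
  Integrable.mono' (integrable_abs_coord i) (measurable_pi_apply i).aestronglyMeasurable
    (ae_of_all _ fun _ => le_of_eq (Real.norm_eq_abs _))

theorem integrable_coord_mul {ι : Type*} (i j : ι) :
    Integrable (fun z : ι → ℝ => z i * z j) (gN ι) := by
  refine Integrable.mono' ((integrable_sq_coord i).add (integrable_sq_coord j))
    ((measurable_pi_apply i).mul (measurable_pi_apply j)).aestronglyMeasurable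
    (ae_of_all _ fun z => ?_)
  show ‖z i * z j‖ ≤ z i ^ 2 + z j ^ 2
  rw [Real.norm_eq_abs, abs_mul]
  nlinarith [sq_nonneg (|z i| - |z j|), sq_abs (z i), sq_abs (z j), abs_nonneg (z i),
    abs_nonneg (z j)]

theorem integral_coord_mul {ι : Type*} (i j : ι) :
    ∫ z, z i * z j ∂gN ι = if i = j then 1 else 0 := by
  by_cases hij : i = j
  · subst hij
    simp only [if_pos, ← sq, integral_sq_coord]
  · rw [if_neg hij]
    have hf : ∀ k : ι, Measurable (fun x : ℝ => if k = i then -x else x) := fun k => by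
      split_ifs <;> fun_prop
    have hmap : (gN ι).map (fun z k => if k = i then -z k else z k) = gN ι := by
      rw [gN, Measure.infinitePi_map_pi (fun _ : ι => gaussianReal 0 1) hf]
      congr 1
      funext k
      by_cases hk : k = i
      · simp only [if_pos hk]; rw [gaussianReal_map_neg, neg_zero]
      · simp only [if_neg hk, Measure.map_id']
    have hm : Measurable (fun (z : ι → ℝ) k => if k = i then -z k else z k) :=
      measurable_pi_lambda _ fun k => (hf k).comp (measurable_pi_apply k)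
    have h2 : ∫ z, z i * z j ∂gN ι = -∫ z, z i * z j ∂gN ι := by
      conv_lhs => rw [← hmap]
      rw [integral_map hm.aemeasurable
        (show AEStronglyMeasurable (fun z : ι → ℝ => z i * z j) _ from
          ((measurable_pi_apply i).mul (measurable_pi_apply j)).aestronglyMeasurable),
        ← integral_neg]
      exact integral_congr_ae (ae_of_all _ fun z => by simp [Ne.symm hij])
    linarith

theorem integrable_six {ι : Type*} (i : ι) : Integrable (fun z : ι → ℝ => |z i| ^ 6) (gN ι) ∧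
    ∫ z, |z i| ^ 6 ∂gN ι = ∫ x, |x| ^ 6 ∂gaussianReal 0 1 := by
  have h : MeasurePreserving (fun z : ι → ℝ => z i) (gN ι) (gaussianReal 0 1) :=
    measurePreserving_eval_infinitePi _ i
  refine ⟨?_, ?_⟩
  · have := ((memLp_id_gaussianReal (μ := 0) (v := 1) 6).integrable_norm_pow
      (p := 6) (by norm_num))
    simp only [id_eq, Real.norm_eq_abs] at this
    exact h.integrable_comp_of_integrable this
  · rw [← h.map_eq, integral_map h.measurable.aemeasurable (by fun_prop)]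

theorem moment_six {ι α : Type*} (E : Finset α) (e : α → ι) :
    Integrable (fun z : ι → ℝ => (1 + ∑ a ∈ E, |z (e a)|) ^ 6) (gN ι) ∧
    ∫ z, (1 + ∑ a ∈ E, |z (e a)|) ^ 6 ∂gN ι ≤
      ((E.card : ℝ) + 1) ^ 5 * (1 + E.card * ∫ x, |x| ^ 6 ∂gaussianReal 0 1) := by
  have hi : Integrable (fun z : ι → ℝ =>
      ((E.card : ℝ) + 1) ^ 5 * (1 + ∑ a ∈ E, |z (e a)| ^ 6)) (gN ι) :=
    ((integrable_const (1 : ℝ)).add
      (integrable_finsetSum _ fun a _ => (integrable_six (e a)).1)).const_mul _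
  have hb : ∀ z : ι → ℝ, (1 + ∑ a ∈ E, |z (e a)|) ^ 6 ≤
      ((E.card : ℝ) + 1) ^ 5 * (1 + ∑ a ∈ E, |z (e a)| ^ 6) := by
    intro z
    set f := fun o : Option α => o.elim 1 fun a => |z (e a)| with hf
    have := pow_sum_le_card_mul_sum_pow (s := Finset.insertNone E) (f := f)
      (fun o _ => by cases o <;> simp [hf]) 5
    simpa [Finset.sum_insertNone, hf] using this
  have hm : Measurable (fun z : ι → ℝ => (1 + ∑ a ∈ E, |z (e a)|) ^ 6) :=
    ((Finset.measurable_sum _ fun a _ => (measurable_pi_apply (e a)).abs).const_add 1).pow_const 6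
  have hint : Integrable (fun z : ι → ℝ => (1 + ∑ a ∈ E, |z (e a)|) ^ 6) (gN ι) :=
    hi.mono' hm.aestronglyMeasurable (ae_of_all _ fun z => by
      rw [Real.norm_eq_abs, abs_of_nonneg (by positivity)]; exact hb z)
  refine ⟨hint, (integral_mono hint hi hb).trans (le_of_eq ?_)⟩
  rw [integral_const_mul, integral_add (integrable_const _)
    (integrable_finsetSum _ fun a _ => (integrable_six (e a)).1),
    integral_finsetSum _ fun a _ => (integrable_six (e a)).1]
  simp [(integrable_six _).2]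

theorem integral_stepQ (h0 : 0 ≤ θ) (h1 : θ < 1) (D : Finset V) (h : V → ℝ) (v : V) (k : ℕ) :
    Integrable (fun z => stepQ G θ D h v (fun w => z (k, w))) (gN (ℕ × V)) ∧
    ∫ z, stepQ G θ D h v (fun w => z (k, w)) ∂gN (ℕ × V) = 0 := by
  have hi : ∀ w ∈ D, ∀ x ∈ D, Integrable (fun z : ℕ × V → ℝ =>
      tCoef G θ D h v w x * (z (k, w) * z (k, x))) (gN (ℕ × V)) := fun w _ x _ =>
    (integrable_coord_mul _ _).const_mul _
  have hi2 : Integrable (fun z : ℕ × V → ℝ =>
      ∑ w ∈ D, ∑ x ∈ D, tCoef G θ D h v w x * (z (k, w) * z (k, x))) (gN (ℕ × V)) :=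
    integrable_finsetSum _ fun w hw => integrable_finsetSum _ (hi w hw)
  refine ⟨(integrable_const _).add hi2, ?_⟩
  simp only [stepQ]
  rw [integral_add (integrable_const _) hi2,
    integral_finsetSum _ fun w hw => integrable_finsetSum _ (hi w hw), integral_const,
    probReal_univ, one_smul, ← Finset.sum_add_distrib]
  refine Finset.sum_eq_zero fun w hw => ?_
  rw [integral_finsetSum _ (hi w hw)]
  simp only [integral_const_mul, integral_coord_mul, Prod.mk.injEq, true_and, mul_ite, mul_one,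
    mul_zero, Finset.sum_ite_eq, if_pos hw, tCoef_diag h0 h1]
  ring

theorem integral_linear_sq {ι α : Type*} (E : Finset α) {e : α → ι} (he : Function.Injective e)
    (c : α → ℝ) :
    Integrable (fun z : ι → ℝ => (∑ a ∈ E, c a * z (e a)) ^ 2) (gN ι) ∧
    ∫ z, (∑ a ∈ E, c a * z (e a)) ^ 2 ∂gN ι = ∑ a ∈ E, c a ^ 2 := by
  have hi : ∀ a b, Integrable (fun z : ι → ℝ => c a * c b * (z (e a) * z (e b))) (gN ι) :=
    fun a b => (integrable_coord_mul _ _).const_mul _
  have e1 : (fun z : ι → ℝ => (∑ a ∈ E, c a * z (e a)) ^ 2) =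
      fun z => ∑ a ∈ E, ∑ b ∈ E, c a * c b * (z (e a) * z (e b)) := by
    funext z
    rw [sq, Finset.sum_mul_sum]
    exact Finset.sum_congr rfl fun a _ => Finset.sum_congr rfl fun b _ => by ring
  rw [e1]
  refine ⟨integrable_finsetSum _ fun a _ => integrable_finsetSum _ fun b _ => hi a b, ?_⟩
  rw [integral_finsetSum _ fun a _ => integrable_finsetSum _ fun b _ => hi a b]
  refine Finset.sum_congr rfl fun a ha => ?_
  rw [integral_finsetSum _ fun b _ => hi a b]
  simp only [integral_const_mul, integral_coord_mul, he.eq_iff, mul_ite, mul_one, mul_zero,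
    Finset.sum_ite_eq, if_pos ha, sq]

/-- The square of a second order expansion. -/
theorem sq_expand {Δ l q r L R W s : ℝ} (hs0 : 0 ≤ s) (hs1 : s ≤ 1) (hW : 1 ≤ W) (hL : 0 ≤ L)
    (hR : 0 ≤ R) (hΔ : |Δ| ≤ 2) (hl : |l| ≤ 4 * W) (hq : |q| ≤ L * W ^ 2)
    (hr : |r| ≤ R * s ^ 3 * W ^ 3) :
    (Δ + s * l + s ^ 2 * q + r) ^ 2 ≤ Δ ^ 2 + 2 * s * Δ * l + s ^ 2 * (l ^ 2 + 2 * (Δ * q)) +
      (4 * R + 8 * (L + R) + (L + R) ^ 2) * s ^ 3 * W ^ 6 := by
  have hW0 : 0 ≤ W := by linarith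
  have hp : |s ^ 2 * q + r| ≤ (L + R) * s ^ 2 * W ^ 3 := by
    refine (abs_add_le _ _).trans ?_
    rw [abs_mul, abs_of_nonneg (sq_nonneg s)]
    calc s ^ 2 * |q| + |r| ≤ s ^ 2 * (L * W ^ 2) + R * s ^ 3 * W ^ 3 :=
          add_le_add (mul_le_mul_of_nonneg_left hq (sq_nonneg s)) hr
      _ ≤ s ^ 2 * (L * W ^ 3) + R * s ^ 2 * W ^ 3 := by
          refine add_le_add (mul_le_mul_of_nonneg_left (mul_le_mul_of_nonneg_left
            (pow_le_pow_right₀ hW (by norm_num)) hL) (sq_nonneg s)) ?_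
          exact mul_le_mul_of_nonneg_right (mul_le_mul_of_nonneg_left
            (pow_le_pow_of_le_one hs0 hs1 (by norm_num)) hR) (by positivity)
      _ = _ := by ring
  have e1 : Δ * r ≤ 2 * R * s ^ 3 * W ^ 6 := by
    refine (le_abs_self _).trans ?_
    rw [abs_mul]
    calc |Δ| * |r| ≤ 2 * (R * s ^ 3 * W ^ 3) := mul_le_mul hΔ hr (abs_nonneg _) zero_le_two
      _ ≤ 2 * (R * s ^ 3 * W ^ 6) := mul_le_mul_of_nonneg_left (mul_le_mul_of_nonneg_left
          (pow_le_pow_right₀ hW (by norm_num)) (by positivity)) zero_le_two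
      _ = _ := by ring
  have e2 : s * l * (s ^ 2 * q + r) ≤ 4 * (L + R) * s ^ 3 * W ^ 6 := by
    refine (le_abs_self _).trans ?_
    rw [abs_mul, abs_mul, abs_of_nonneg hs0]
    calc s * |l| * |s ^ 2 * q + r| ≤ s * (4 * W) * ((L + R) * s ^ 2 * W ^ 3) :=
          mul_le_mul (mul_le_mul_of_nonneg_left hl hs0) hp (abs_nonneg _) (by positivity)
      _ = 4 * (L + R) * s ^ 3 * W ^ 4 := by ring
      _ ≤ _ := mul_le_mul_of_nonneg_left (pow_le_pow_right₀ hW (by norm_num)) (by positivity)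
  have e3 : (s ^ 2 * q + r) ^ 2 ≤ (L + R) ^ 2 * s ^ 3 * W ^ 6 := by
    rw [← sq_abs]
    calc |s ^ 2 * q + r| ^ 2 ≤ ((L + R) * s ^ 2 * W ^ 3) ^ 2 :=
          pow_le_pow_left₀ (abs_nonneg _) hp 2
      _ = (L + R) ^ 2 * s ^ 4 * W ^ 6 := by ring
      _ ≤ _ := mul_le_mul_of_nonneg_right (mul_le_mul_of_nonneg_left
          (pow_le_pow_of_le_one hs0 hs1 (by norm_num)) (sq_nonneg _)) (by positivity)
  nlinarith

/-- Integrating a pointwise bound for the square after one step. -/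
theorem integral_quad_le {α : Type*} [MeasurableSpace α] {μ : Measure α} [IsProbabilityMeasure μ]
    {F l q W : α → ℝ} {a t δ K C M : ℝ} (hK : 0 ≤ K) (hF : Integrable F μ) (il : Integrable l μ)
    (el : ∫ x, l x ∂μ = 0) (il2 : Integrable (fun x => l x ^ 2) μ) (el2 : ∫ x, l x ^ 2 ∂μ = C)
    (iq : Integrable q μ) (eq : ∫ x, q x ∂μ = 0) (iW : Integrable W μ) (eW : ∫ x, W x ∂μ ≤ M)
    (hle : ∀ x, F x ≤ a ^ 2 + t * l x + δ * (l x ^ 2 + 2 * (a * q x)) + K * W x) :
    ∫ x, F x ∂μ ≤ a ^ 2 + δ * C + K * M := by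
  have i1 : Integrable (fun x => a ^ 2 + t * l x) μ := (integrable_const _).add (il.const_mul _)
  have i0 : Integrable (fun x => l x ^ 2 + 2 * (a * q x)) μ :=
    il2.add ((iq.const_mul _).const_mul 2)
  have i2 : Integrable (fun x => δ * (l x ^ 2 + 2 * (a * q x))) μ := i0.const_mul δ
  have i12 : Integrable (fun x => a ^ 2 + t * l x + δ * (l x ^ 2 + 2 * (a * q x))) μ := i1.add i2
  have i3 : Integrable (fun x => K * W x) μ := iW.const_mul _
  refine (integral_mono hF (i12.add i3) hle).trans ?_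
  simp only [Pi.add_apply]
  rw [integral_add i12 i3, integral_add i1 i2, integral_add (integrable_const _) (il.const_mul _),
    integral_const_mul, integral_const_mul, integral_const_mul,
    integral_add il2 ((iq.const_mul _).const_mul 2), integral_const_mul, integral_const_mul, el, eq,
    el2, integral_const, probReal_univ, one_smul]
  nlinarith [mul_le_mul_of_nonneg_left eW hK]

theorem scheme_splice_mag {D E : Finset V} (hDE : D ⊆ E) (δ : ℝ) (k : ℕ) (v : V)
    (z z' : ℕ × V → ℝ) :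
    mag G θ D (scheme G θ D δ (splice ({k} ×ˢ E) (z, z')) (k + 1)) v =
      mag G θ D (fun w => scheme G θ D δ z k w +
        (δ * mag G θ D (scheme G θ D δ z k) w + √δ * z' (k, w))) v := by
  have hnot : ∀ p ∈ coords D k, splice ({k} ×ˢ E) (z, z') p = z p := fun p hp => by
    have : p ∉ ({k} : Finset ℕ) ×ˢ E := by
      intro hh
      rw [Finset.mem_product, Finset.mem_singleton] at hh
      exact absurd (hh.1 ▸ (mem_coords.1 hp).1) (lt_irrefl _)
    simp only [splice, if_neg this]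
  refine mag_congr (fun w hw => ?_) v
  have hsch := scheme_congr (G := G) (θ := θ) (δ := δ) hnot
  have hz : splice ({k} ×ˢ E) (z, z') (k, w) = z' (k, w) := by simp [splice, hDE hw]
  simp only [scheme, if_pos hw, hsch, hz]

/-- The leading constant of one step. -/
def stepCst (N : ℕ) : ℝ :=
  4 * (2 * (54 * ((N : ℝ) + 1) ^ 3)) + 8 * (2 * (2 * N + 3) + 2 * (54 * ((N : ℝ) + 1) ^ 3)) +
    (2 * (2 * N + 3) + 2 * (54 * ((N : ℝ) + 1) ^ 3)) ^ 2

theorem step_sq_bound {θ' : ℝ} (h0 : 0 ≤ θ) (h1 : θ < 1) (h0' : 0 ≤ θ') (h1' : θ' < 1)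
    {D D' E : Finset V} (hDE : D ⊆ E) (hDE' : D' ⊆ E) {N : ℕ} (hN : E.card ≤ N) (h h' : V → ℝ)
    (v : V) {δ : ℝ} (hδ0 : 0 ≤ δ) (hδ1 : δ ≤ 1) (ξ : V → ℝ) :
    (mag G θ D (fun w => h w + (δ * mag G θ D h w + √δ * ξ w)) v -
        mag G θ' D' (fun w => h' w + (δ * mag G θ' D' h' w + √δ * ξ w)) v) ^ 2 ≤
      (mag G θ D h v - mag G θ' D' h' v) ^ 2 +
        2 * √δ * (mag G θ D h v - mag G θ' D' h' v) *
          (stepL G θ D h v ξ - stepL G θ' D' h' v ξ) +
        δ * ((stepL G θ D h v ξ - stepL G θ' D' h' v ξ) ^ 2 +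
          2 * ((mag G θ D h v - mag G θ' D' h' v) *
            (stepQ G θ D h v ξ - stepQ G θ' D' h' v ξ))) +
        stepCst N * (δ * √δ) * (1 + ∑ w ∈ E, |ξ w|) ^ 6 := by
  set W := 1 + ∑ w ∈ E, |ξ w| with hW
  set s := √δ with hs
  set Δ := mag G θ D h v - mag G θ' D' h' v with hΔ
  set l := stepL G θ D h v ξ - stepL G θ' D' h' v ξ with hl
  set q := stepQ G θ D h v ξ - stepQ G θ' D' h' v ξ with hq
  set F := mag G θ D (fun w => h w + (δ * mag G θ D h w + s * ξ w)) v -
    mag G θ' D' (fun w => h' w + (δ * mag G θ' D' h' w + s * ξ w)) v with hF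
  have hss : s * s = δ := Real.mul_self_sqrt hδ0
  have hs2 : s ^ 2 = δ := by rw [sq, hss]
  have hW1 : 1 ≤ W := le_add_of_nonneg_right (Finset.sum_nonneg fun w _ => abs_nonneg _)
  have a1 := abs_le.1 (step_expand (G := G) h0 h1 hDE hN h v hδ0 hδ1 ξ)
  have a2 := abs_le.1 (step_expand (G := G) h0' h1' hDE' hN h' v hδ0 hδ1 ξ)
  rw [← hs, ← hW] at a1 a2
  have hrb : |F - Δ - s * l - δ * q| ≤ 2 * (54 * ((N : ℝ) + 1) ^ 3) * s ^ 3 * W ^ 3 := by
    rw [show s ^ 3 = δ * s by rw [pow_succ, hs2], hF, hΔ, hl, hq, abs_le]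
    constructor <;> linarith
  have hΔb : |Δ| ≤ 2 := (abs_sub _ _).trans
    (by linarith [abs_mag_le (G := G) h0 h1 D h v, abs_mag_le (G := G) h0' h1' D' h' v])
  have hlb : |l| ≤ 4 * W := (abs_sub _ _).trans
    (by linarith [abs_stepL_le (G := G) h0 h1 hDE h v ξ, abs_stepL_le (G := G) h0' h1' hDE' h' v ξ])
  have hqb : |q| ≤ 2 * (2 * N + 3) * W ^ 2 := (abs_sub _ _).trans
    (by linarith [abs_stepQ_le (G := G) h0 h1 hDE hN h v ξ,
      abs_stepQ_le (G := G) h0' h1' hDE' hN h' v ξ])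
  have key := sq_expand (Real.sqrt_nonneg δ) (Real.sqrt_le_one.2 hδ1) hW1
    (show (0 : ℝ) ≤ 2 * (2 * N + 3) by positivity)
    (show (0 : ℝ) ≤ 2 * (54 * ((N : ℝ) + 1) ^ 3) by positivity) hΔb hlb hqb hrb
  rw [← hs, hs2, show Δ + s * l + δ * q + (F - Δ - s * l - δ * q) = F by ring,
    show s ^ 3 = δ * s by rw [pow_succ, hs2]] at key
  exact key.trans (le_of_eq (by rw [stepCst]))

theorem resamp_step {θ' : ℝ} (h0 : 0 ≤ θ) (h1 : θ < 1) (h0' : 0 ≤ θ') (h1' : θ' < 1)
    {D D' : Finset V} {N : ℕ} (hN : (D ∪ D').card ≤ N) (v : V) {δ : ℝ} (hδ0 : 0 ≤ δ) (hδ1 : δ ≤ 1)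
    (k : ℕ) (z : ℕ × V → ℝ) :
    resamp ({k} ×ˢ (D ∪ D')) (fun x => (mag G θ D (scheme G θ D δ x (k + 1)) v -
        mag G θ' D' (scheme G θ' D' δ x (k + 1)) v) ^ 2) z ≤
      (mag G θ D (scheme G θ D δ z k) v - mag G θ' D' (scheme G θ' D' δ z k) v) ^ 2 +
        δ * ∑ w ∈ D ∪ D', (cvx G θ D (scheme G θ D δ z k) v w -
          cvx G θ' D' (scheme G θ' D' δ z k) v w) ^ 2 +
        stepCst N * (δ * √δ) *
          (((N : ℝ) + 1) ^ 5 * (1 + N * ∫ x, |x| ^ 6 ∂gaussianReal 0 1)) := by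
  set E := D ∪ D' with hE
  set h := scheme G θ D δ z k with hh
  set h' := scheme G θ' D' δ z k with hh'
  set c := fun w => cvx G θ D h v w - cvx G θ' D' h' v w with hc
  have hDE : D ⊆ E := Finset.subset_union_left
  have hDE' : D' ⊆ E := Finset.subset_union_right
  have hinj : Function.Injective (fun w : V => ((k, w) : ℕ × V)) := fun a b hab =>
    (Prod.ext_iff.1 hab).2
  have hleq : ∀ ξ : V → ℝ, stepL G θ D h v ξ - stepL G θ' D' h' v ξ = ∑ w ∈ E, c w * ξ w := by
    intro ξ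
    simp only [stepL_eq hDE, stepL_eq hDE', hc, sub_mul, Finset.sum_sub_distrib]
  obtain ⟨il2, el2⟩ := integral_linear_sq (ι := ℕ × V) E hinj c
  obtain ⟨iq1, eq1⟩ := integral_stepQ (G := G) h0 h1 D h v k
  obtain ⟨iq2, eq2⟩ := integral_stepQ (G := G) h0' h1' D' h' v k
  obtain ⟨iW, eW⟩ := moment_six (ι := ℕ × V) E (fun w => (k, w))
  have hpt := fun z' : ℕ × V → ℝ =>
    step_sq_bound (G := G) h0 h1 h0' h1' hDE hDE' hN h h' v hδ0 hδ1 (fun w => z' (k, w))
  have il : Integrable (fun z' : ℕ × V → ℝ => ∑ w ∈ E, c w * z' (k, w)) (gN (ℕ × V)) :=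
    integrable_finsetSum _ fun w _ => (integrable_coord _).const_mul _
  have el : ∫ z', ∑ w ∈ E, c w * z' (k, w) ∂gN (ℕ × V) = 0 := by
    rw [integral_finsetSum _ fun w _ => (integrable_coord _).const_mul _]
    simp [integral_const_mul, integral_coord]
  have iq : Integrable (fun z' : ℕ × V → ℝ => stepQ G θ D h v (fun w => z' (k, w)) -
      stepQ G θ' D' h' v (fun w => z' (k, w))) (gN (ℕ × V)) := iq1.sub iq2
  have eq : ∫ z', (stepQ G θ D h v (fun w => z' (k, w)) -
      stepQ G θ' D' h' v (fun w => z' (k, w))) ∂gN (ℕ × V) = 0 := by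
    rw [integral_sub iq1 iq2, eq1, eq2, sub_zero]
  have eW' : ∫ z', (1 + ∑ w ∈ E, |z' (k, w)|) ^ 6 ∂gN (ℕ × V) ≤
      ((N : ℝ) + 1) ^ 5 * (1 + N * ∫ x, |x| ^ 6 ∂gaussianReal 0 1) := by
    refine eW.trans ?_
    have hcE : (E.card : ℝ) ≤ N := by exact_mod_cast hN
    have hC6 : (0 : ℝ) ≤ ∫ x, |x| ^ 6 ∂gaussianReal 0 1 :=
      integral_nonneg fun x => by positivity
    exact mul_le_mul (pow_le_pow_left₀ (by positivity) (by linarith) 5)
      (by nlinarith) (by positivity) (by positivity)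
  have hK : 0 ≤ stepCst N * (δ * √δ) := by
    have : 0 ≤ stepCst N := by rw [stepCst]; positivity
    positivity
  have iF : Integrable (fun z' : ℕ × V → ℝ =>
      (mag G θ D (fun w => h w + (δ * mag G θ D h w + √δ * z' (k, w))) v -
        mag G θ' D' (fun w => h' w + (δ * mag G θ' D' h' w + √δ * z' (k, w))) v) ^ 2)
      (gN (ℕ × V)) := by
    refine integrable_of_bdd ?_ (B := 4) fun z' => ?_
    · exact (((measurable_mag D v).comp (measurable_pi_lambda _ fun w =>
        (((measurable_pi_apply (k, w)).const_mul _).const_add _).const_add _)).sub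
        ((measurable_mag D' v).comp (measurable_pi_lambda _ fun w =>
        (((measurable_pi_apply (k, w)).const_mul _).const_add _).const_add _))).pow_const 2
    · rw [abs_of_nonneg (sq_nonneg _)]
      have a1 := abs_le.1 (abs_mag_le (G := G) h0 h1 D
        (fun w => h w + (δ * mag G θ D h w + √δ * z' (k, w))) v)
      have a2 := abs_le.1 (abs_mag_le (G := G) h0' h1' D'
        (fun w => h' w + (δ * mag G θ' D' h' w + √δ * z' (k, w))) v)
      nlinarith
  have hpt' : ∀ z' : ℕ × V → ℝ,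
      (mag G θ D (fun w => h w + (δ * mag G θ D h w + √δ * z' (k, w))) v -
        mag G θ' D' (fun w => h' w + (δ * mag G θ' D' h' w + √δ * z' (k, w))) v) ^ 2 ≤
      (mag G θ D h v - mag G θ' D' h' v) ^ 2 +
        2 * √δ * (mag G θ D h v - mag G θ' D' h' v) * (∑ w ∈ E, c w * z' (k, w)) +
        δ * ((∑ w ∈ E, c w * z' (k, w)) ^ 2 + 2 * ((mag G θ D h v - mag G θ' D' h' v) *
          (stepQ G θ D h v (fun w => z' (k, w)) - stepQ G θ' D' h' v (fun w => z' (k, w))))) +
        stepCst N * (δ * √δ) * (1 + ∑ w ∈ E, |z' (k, w)|) ^ 6 := fun z' => by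
    rw [← hleq (fun w => z' (k, w))]
    exact hpt z'
  have main := integral_quad_le hK iF il el il2 el2 iq eq iW eW' hpt'
  simp only [resamp, scheme_splice_mag hDE, scheme_splice_mag hDE', ← hh, ← hh']
  exact main

theorem mag_step (hT : RTree G d) (N : ℕ) : ∃ K : ℝ, 0 ≤ K ∧
    ∀ (θ θ' : ℝ), 0 ≤ θ → θ < 1 → 0 ≤ θ' → θ' < 1 →
    ∀ (D D' : Finset V), Conn G D → Conn G D' → (D ∪ D').card ≤ N → ∀ v, v ∈ D → v ∈ D' →
    ∀ δ : ℝ, 0 < δ → δ ≤ 1 → ∀ k : ℕ,
      ∫ z, (mag G θ D (scheme G θ D δ z (k + 1)) v -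
          mag G θ' D' (scheme G θ' D' δ z (k + 1)) v) ^ 2 ∂gN (ℕ × V) ≤
        ∫ z, (mag G θ D (scheme G θ D δ z k) v -
          mag G θ' D' (scheme G θ' D' δ z k) v) ^ 2 ∂gN (ℕ × V) +
        δ * ∫ z, ∑ w ∈ D ∪ D', (cvx G θ D (scheme G θ D δ z k) v w -
          cvx G θ' D' (scheme G θ' D' δ z k) v w) ^ 2 ∂gN (ℕ × V) + K * (δ * √δ) := by
  set M : ℝ := ((N : ℝ) + 1) ^ 5 * (1 + N * ∫ x, |x| ^ 6 ∂gaussianReal 0 1) with hM
  have hC6 : (0 : ℝ) ≤ ∫ x, |x| ^ 6 ∂gaussianReal 0 1 := integral_nonneg fun x => by positivity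
  refine ⟨stepCst N * M, by rw [stepCst]; positivity, ?_⟩
  intro θ θ' h0 h1 h0' h1' D D' _ _ hcard v _ _ δ hδ0 hδ1 k
  set F := fun z => (mag G θ D (scheme G θ D δ z (k + 1)) v -
    mag G θ' D' (scheme G θ' D' δ z (k + 1)) v) ^ 2 with hF
  have hb2 : ∀ (h h' : V → ℝ), |(mag G θ D h v - mag G θ' D' h' v) ^ 2| ≤ 4 := fun h h' => by
    have a1 := abs_le.1 (abs_mag_le (G := G) h0 h1 D h v)
    have a2 := abs_le.1 (abs_mag_le (G := G) h0' h1' D' h' v)
    rw [abs_of_nonneg (sq_nonneg _)]; nlinarith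
  have hdm : ∀ j, Measurable fun z : ℕ × V → ℝ =>
      mag G θ D (scheme G θ D δ z j) v - mag G θ' D' (scheme G θ' D' δ z j) v := fun j =>
    ((measurable_mag D v).comp (measurable_scheme D δ j)).sub
      ((measurable_mag D' v).comp (measurable_scheme D' δ j))
  have hcm : ∀ w, Measurable fun z : ℕ × V → ℝ => cvx G θ D (scheme G θ D δ z k) v w -
      cvx G θ' D' (scheme G θ' D' δ z k) v w := fun w =>
    ((measurable_cvx D v w).comp (measurable_scheme D δ k)).sub
      ((measurable_cvx D' v w).comp (measurable_scheme D' δ k))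
  have hcs : Integrable (fun z => ∑ w ∈ D ∪ D', (cvx G θ D (scheme G θ D δ z k) v w -
      cvx G θ' D' (scheme G θ' D' δ z k) v w) ^ 2) (gN (ℕ × V)) :=
    integrable_finsetSum _ fun w _ => integrable_of_bdd ((hcm w).pow_const 2) (B := 16) fun z => by
      have a1 := abs_le.1 (abs_cvx_le (G := G) h0 h1 D (scheme G θ D δ z k) v w)
      have a2 := abs_le.1 (abs_cvx_le (G := G) h0' h1' D' (scheme G θ' D' δ z k) v w)
      rw [abs_of_nonneg (sq_nonneg _)]; nlinarith
  have hΔs : Integrable (fun z => (mag G θ D (scheme G θ D δ z k) v -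
      mag G θ' D' (scheme G θ' D' δ z k) v) ^ 2) (gN (ℕ × V)) :=
    integrable_of_bdd ((hdm k).pow_const 2) fun z => hb2 _ _
  have i12 : Integrable (fun z => (mag G θ D (scheme G θ D δ z k) v -
      mag G θ' D' (scheme G θ' D' δ z k) v) ^ 2 + δ * ∑ w ∈ D ∪ D',
        (cvx G θ D (scheme G θ D δ z k) v w - cvx G θ' D' (scheme G θ' D' δ z k) v w) ^ 2)
      (gN (ℕ × V)) := hΔs.add (hcs.const_mul δ)
  have hres : Integrable (resamp ({k} ×ˢ (D ∪ D')) F) (gN (ℕ × V)) :=
    integrable_of_bdd (measurable_resamp _ ((hdm (k + 1)).pow_const 2))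
      (abs_resamp_le _ fun z => hb2 _ _)
  rw [integral_splice ({k} ×ˢ (D ∪ D')) (f := F) ((hdm (k + 1)).pow_const 2) fun z => hb2 _ _]
  refine (integral_mono hres (i12.add (integrable_const (stepCst N * (δ * √δ) * M))) fun z =>
    resamp_step h0 h1 h0' h1' hcard v hδ0.le hδ1 k z).trans ?_
  simp only [Pi.add_apply]
  rw [integral_add i12 (integrable_const _), integral_add hΔs (hcs.const_mul δ),
    integral_const_mul, integral_const, probReal_univ, one_smul]
  linarith

end Vale.Agent.P161
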