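import Vale.Agent.P161.Crit.Obs
import Vale.Agent.P161.Crit.Step

/-!
# Moving the centre of the volume below the threshold
-/

open MeasureTheory Finset Real Filter Topology
open scoped Classical

noncomputable section

namespace Vale.Agent.P161

universe u

variable {V : Type u} {G : SimpleGraph V} {d : ℕ} {θ : ℝ}

namespace Recenter

/-- The constant of the pointwise comparison of two covariances. -/
def recK : ℝ := 2 * (4 + 1000 * (2 * K0 + 4))

theorem recK_ge : 8 ≤ recK := by norm_num [recK, K0]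

theorem mag_at_zero (hT : RTree G d) (h0 : 0 ≤ θ) (h1 : θ < 1) {D : Finset V} (hD : Conn G D)
    {v : V} (hv : v ∈ D) : mag G θ D (fun _ => 0) v = 0 := by
  rw [mag, avg, num_zero_marginal hT h0 h1 (conn_singleton v) hD
      (Finset.singleton_subset_iff.2 hv) (f := fun A => sp A v)
      (fun A => sp_inter (Finset.mem_singleton_self v)), num,
    show ({v} : Finset V).powerset = {∅, {v}} by ext A; simp [Finset.subset_singleton_iff],
    Finset.sum_pair (by simp)]
  simp [wt, edgesIn_singleton, bf, sp, spin]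

theorem card_ball_eq (hT : RTree G d) (c c' : V) (R : ℕ) :
    (ball G c' R).card = (ball G c R).card := by
  obtain ⟨g, hg, -⟩ := exists_pair_iso hT (a := c) (b := c) (a' := c') (b' := c') (by simp)
  rw [← hg, ball_map hT, Finset.card_map]

theorem succ_mul_pow_le {r : ℝ} (h0 : 0 ≤ r) (h1 : r < 1) (n : ℕ) :
    ((n : ℝ) + 1) * r ^ n ≤ (1 - r)⁻¹ := by
  rw [← tsum_geometric_of_lt_one h0 h1]
  refine le_trans ?_ ((summable_geometric_of_lt_one h0 h1).sum_le_tsum (range (n + 1))
    fun i _ => pow_nonneg h0 i)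
  calc ((n : ℝ) + 1) * r ^ n = ∑ _i ∈ range (n + 1), r ^ n := by simp
    _ ≤ _ := Finset.sum_le_sum fun i hi => pow_le_pow_of_le_one h0 h1.le
      (by have := Finset.mem_range.1 hi; omega)

theorem sum_weight_le (hT : RTree G d) (v : V) {q q' : ℝ} (hq : 0 ≤ q) (hqq : q < q')
    (hQ : ((d : ℝ) - 1) * q' < 1) (D : Finset V) :
    ∑ w ∈ D, ((G.dist v w : ℝ) + 1) * q ^ G.dist v w ≤
      (1 - q / q')⁻¹ * (2 / (1 - ((d : ℝ) - 1) * q')) := by
  have hq' : 0 < q' := hq.trans_lt hqq
  have hr : q / q' < 1 := (div_lt_one hq').2 hqq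
  calc ∑ w ∈ D, ((G.dist v w : ℝ) + 1) * q ^ G.dist v w
      ≤ ∑ w ∈ D, (1 - q / q')⁻¹ * q' ^ G.dist v w := by
        refine Finset.sum_le_sum fun w _ => ?_
        refine le_trans (le_of_eq ?_) (mul_le_mul_of_nonneg_right
          (succ_mul_pow_le (div_nonneg hq hq'.le) hr (G.dist v w)) (pow_nonneg hq'.le _))
        rw [mul_assoc, ← mul_pow, div_mul_cancel₀ _ hq'.ne']
    _ ≤ _ := by
        rw [← Finset.mul_sum]
        exact mul_le_mul_of_nonneg_left (sum_pow_dist_le hT v hq'.le hQ D)
          (inv_nonneg.2 (by linarith))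

theorem delta_cv_same (hT : RTree G d) (h0 : 0 ≤ θ) (hl : ((d - 1 : ℕ) : ℝ) * θ ^ 2 ≤ 1)
    {D D' : Finset V} {o w : V} (hD : Conn G D) (hD' : Conn G D') (hp : OnPath G D o w)
    (hp' : OnPath G D' o w) (h h' : V → ℝ) :
    (cv G θ D h o w - cv G θ D' h' o w) ^ 2 ≤ recK * (θ ^ 2) ^ G.dist o w *
      ∑ i ∈ range (G.dist o w + 1), (mgp G θ D h o w i - mgp G θ D' h' o w i) ^ 2 := by
  have hQ := Q_two hT
  have h1 : θ < 1 := by linarith [theta_le hQ h0 hl]
  have hm : ∀ (D : Finset V) (h : V → ℝ), mgp G θ D h o w 0 ^ 2 ≤ 1 := fun D h =>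
    sq_le_one' (abs_mag_le h0 h1 _ _ _)
  have hr : ∀ (D : Finset V) (h : V → ℝ) (i : ℕ),
      0 ≤ rt θ (fwd G θ D h o w (0 + i)) ∧ rt θ (fwd G θ D h o w (0 + i)) ≤ 1 := fun D h i =>
    have r := rt_mem hQ hl (mu_bd h0 h1 D h o w (0 + i)).1
    ⟨r.1, r.2.1.trans r.2.2⟩
  rw [cv_split hT h0 h1 hD hp h (Nat.zero_le _), cv_split hT h0 h1 hD' hp' h' (Nat.zero_le _)]
  simp only [Finset.prod_range_zero, one_mul, ← mul_sub, mul_pow]
  have e : (θ ^ G.dist o w) ^ 2 = (θ ^ 2) ^ G.dist o w := by
    rw [← pow_mul, ← pow_mul, mul_comm]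
  rw [e, mul_comm recK, mul_assoc]
  refine mul_le_mul_of_nonneg_left ?_ (pow_nonneg (sq_nonneg θ) _)
  refine (pair_diff ⟨by linarith [hm D h], by linarith [sq_nonneg (mgp G θ D h o w 0)]⟩
    (prod_mem (hr D' h') _)).trans ?_
  rw [recK, mul_assoc, add_mul]
  refine mul_le_mul_of_nonneg_left (add_le_add ?_ ?_) zero_le_two
  · have h2 : (mgp G θ D h o w 0 + mgp G θ D' h' o w 0) ^ 2 ≤ 4 :=
      add_sq_le.trans (by linarith [hm D h, hm D' h'])
    calc _ = (mgp G θ D h o w 0 + mgp G θ D' h' o w 0) ^ 2 *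
          (mgp G θ D h o w 0 - mgp G θ D' h' o w 0) ^ 2 := by ring
      _ ≤ _ := mul_le_mul h2 (Finset.single_le_sum
          (f := fun i => (mgp G θ D h o w i - mgp G θ D' h' o w i) ^ 2)
          (fun i _ => sq_nonneg _) (Finset.mem_range.2 (Nat.succ_pos _))) (sq_nonneg _)
          (by norm_num)
  · refine (delta_fwd hT h0 h0 hl hl hp hp' h h' (Nat.zero_le _)).trans (le_of_eq ?_)
    simp

theorem abs_cvx_le (hT : RTree G d) (h0 : 0 ≤ θ) (h1 : θ < 1) {D : Finset V} (hD : Conn G D)
    (h : V → ℝ) {v : V} (hv : v ∈ D) (w : V) : |cvx G θ D h v w| ≤ θ ^ G.dist v w := by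
  unfold cvx
  split_ifs with hw
  · exact cv_bound hT h0 h1 hD h v hv w hw
  · simpa using pow_nonneg h0 _

theorem measurable_cvx (D : Finset V) (v w : V) :
    Measurable fun h : V → ℝ => cvx G θ D h v w := by
  unfold cvx
  split_ifs
  · simp only [cv, mag, avg, part]
    exact ((measurable_num _ _).div (measurable_num _ _)).sub
      (((measurable_num _ _).div (measurable_num _ _)).mul
        ((measurable_num _ _).div (measurable_num _ _)))
  · exact measurable_const

/-- The mean square difference at `v` of two volumes. -/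
def volGap (G : SimpleGraph V) (θ : ℝ) (D D' : Finset V) (δ : ℝ) (k : ℕ) (v : V) : ℝ :=
  ∫ z, (mag G θ D (scheme G θ D δ z k) v - mag G θ D' (scheme G θ D' δ z k) v) ^ 2 ∂gN (ℕ × V)

theorem measurable_magDiff (D D' : Finset V) (δ : ℝ) (k : ℕ) (v : V) :
    Measurable fun z => mag G θ D (scheme G θ D δ z k) v - mag G θ D' (scheme G θ D' δ z k) v :=
  ((measurable_mag D v).comp (measurable_scheme D δ k)).sub
    ((measurable_mag D' v).comp (measurable_scheme D' δ k))

theorem abs_magDiff_le (h0 : 0 ≤ θ) (h1 : θ < 1) (D D' : Finset V) (δ : ℝ) (k : ℕ) (v : V)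
    (z : ℕ × V → ℝ) :
    |mag G θ D (scheme G θ D δ z k) v - mag G θ D' (scheme G θ D' δ z k) v| ≤ 2 :=
  (abs_sub _ _).trans ((add_le_add (abs_mag_le h0 h1 _ _ _) (abs_mag_le h0 h1 _ _ _)).trans
    (by norm_num))

theorem magDiff_sq_le (h0 : 0 ≤ θ) (h1 : θ < 1) (D D' : Finset V) (δ : ℝ) (k : ℕ) (v : V)
    (z : ℕ × V → ℝ) :
    (mag G θ D (scheme G θ D δ z k) v - mag G θ D' (scheme G θ D' δ z k) v) ^ 2 ≤ 4 := by
  have := pow_le_pow_left₀ (abs_nonneg _) (abs_magDiff_le (G := G) h0 h1 D D' δ k v z) 2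
  rw [sq_abs] at this
  linarith

theorem integrable_magDiff (h0 : 0 ≤ θ) (h1 : θ < 1) (D D' : Finset V) (δ : ℝ) (k : ℕ) (v : V) :
    Integrable (fun z => (mag G θ D (scheme G θ D δ z k) v -
      mag G θ D' (scheme G θ D' δ z k) v) ^ 2) (gN (ℕ × V)) :=
  integrable_of_bdd ((measurable_magDiff D D' δ k v).pow_const 2) (B := 4) fun z => by
    rw [abs_of_nonneg (sq_nonneg _)]; exact magDiff_sq_le h0 h1 D D' δ k v z

/-- The key step: two balls with nearby centres, weighted by the distance to the first centre. -/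
theorem volGap_bound (hT : RTree G d) (h0 : 0 ≤ θ) {β q' : ℝ} (hβ : 1 ≤ β)
    (hq : θ ^ 2 * β < q') (hQ : ((d : ℝ) - 1) * q' < 1) (R M : ℕ) :
    ∃ Kr : ℝ, 0 ≤ Kr ∧ ∀ δ : ℝ, 0 < δ → δ ≤ 1 → ∀ (k : ℕ) (c x v : V), G.dist c x ≤ M →
      volGap G θ (ball G c R) (ball G x R) δ k v ≤
        (4 / β ^ (R - M) * β ^ G.dist c v + Kr * √δ) *
          exp ((recK * ((1 - θ ^ 2 * β / q')⁻¹ * (2 / (1 - ((d : ℝ) - 1) * q'))) + 1) *
            (k * δ)) := by
  have hd : (3 : ℝ) ≤ d := by exact_mod_cast hT.three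
  have hb0 : 0 < β := by linarith
  have hqp : 0 < q' := lt_of_le_of_lt (mul_nonneg (sq_nonneg θ) hb0.le) hq
  have hθQ : θ ^ 2 * ((d : ℝ) - 1) < 1 := by
    refine lt_of_le_of_lt ?_ hQ
    rw [mul_comm]
    refine mul_le_mul_of_nonneg_left ?_ (by linarith)
    exact le_trans (le_mul_of_one_le_right (sq_nonneg θ) hβ) hq.le
  have h1 : θ < 1 := by
    by_contra h
    nlinarith [one_le_pow₀ (n := 2) (not_lt.1 h)]
  have hl : ((d - 1 : ℕ) : ℝ) * θ ^ 2 ≤ 1 := by
    rw [Nat.cast_sub (by have := hT.three; omega), Nat.cast_one, mul_comm]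
    exact hθQ.le
  obtain ⟨c0⟩ := hT.conn.nonempty
  obtain ⟨Kr, hKr, hstep⟩ := mag_step hT (2 * (ball G c0 R).card)
  refine ⟨Kr, hKr, fun δ hδ hδ1 k c x v hcx => ?_⟩
  set A := 4 / β ^ (R - M) with hA
  have hA0 : 0 ≤ A := by positivity
  set K := recK * ((1 - θ ^ 2 * β / q')⁻¹ * (2 / (1 - ((d : ℝ) - 1) * q'))) with hK
  have hr : θ ^ 2 * β / q' < 1 := (div_lt_one hqp).2 hq
  have hK0 : 0 ≤ K := mul_nonneg (by linarith [recK_ge]) (mul_nonneg
    (inv_nonneg.2 (by linarith)) (div_nonneg zero_le_two (by linarith)))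
  set D := ball G c R with hD
  set D' := ball G x R with hD'
  induction k generalizing v with
  | zero =>
    have hz : volGap G θ D D' δ 0 v ≤ 4 * (if G.dist c v < R - M then 0 else 1) := by
      split_ifs with hv
      · have hv1 : v ∈ D := (mem_ball hT).2 (by omega)
        have hv2 : v ∈ D' := (mem_ball hT).2 (by
          have := hT.conn.dist_triangle (u := x) (v := c) (w := v)
          rw [SimpleGraph.dist_comm (u := x) (v := c)] at this
          omega)
        simp [volGap, scheme, mag_at_zero hT h0 h1 (D := D) (conn_ball hT c R) hv1,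
          mag_at_zero hT h0 h1 (D := D') (conn_ball hT x R) hv2]
      · refine (integral_mono (integrable_magDiff h0 h1 D D' δ 0 v) (integrable_const 4)
          (magDiff_sq_le h0 h1 D D' δ 0 v)).trans ?_
        simp
    refine hz.trans ?_
    rw [Nat.cast_zero, zero_mul, mul_zero, Real.exp_zero, mul_one]
    split_ifs with hv
    · rw [mul_zero]; positivity
    · refine le_add_of_le_of_nonneg ?_ (by positivity)
      rw [hA, div_mul_eq_mul_div, mul_one, le_div_iff₀ (by positivity)]
      exact mul_le_mul_of_nonneg_left (pow_le_pow_right₀ hβ (by omega)) (by norm_num)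
  | succ k ih =>
    set Φ := fun v => (A * β ^ G.dist c v + Kr * √δ) * exp ((K + 1) * (k * δ)) with hΦ
    have hexp : 1 ≤ exp ((K + 1) * (k * δ)) := Real.one_le_exp (by positivity)
    have hexp2 : exp ((K + 1) * (((k + 1 : ℕ) : ℝ) * δ)) =
        exp ((K + 1) * (k * δ)) * exp ((K + 1) * δ) := by
      rw [← Real.exp_add]; push_cast; ring_nf
    by_cases hv : G.dist c v < R - M
    swap
    · refine le_trans (integral_mono (integrable_magDiff h0 h1 D D' δ (k + 1) v)
        (integrable_const 4) (magDiff_sq_le h0 h1 D D' δ (k + 1) v)) ?_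
      simp only [integral_const, probReal_univ, one_smul]
      refine le_trans ?_ (le_mul_of_one_le_right (by positivity)
        (Real.one_le_exp (by positivity)))
      refine le_add_of_le_of_nonneg ?_ (by positivity)
      rw [hA, div_mul_eq_mul_div, le_div_iff₀ (by positivity)]
      exact mul_le_mul_of_nonneg_left (pow_le_pow_right₀ hβ (by omega)) (by norm_num)
    have hxc : G.dist x c ≤ M := by rw [SimpleGraph.dist_comm]; exact hcx
    have hv1 : v ∈ D := (mem_ball hT).2 (by omega)
    have hv2 : v ∈ D' := (mem_ball hT).2 (by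
      have := hT.conn.dist_triangle (u := x) (v := c) (w := v)
      omega)
    have hcard : (D ∪ D').card ≤ 2 * (ball G c0 R).card := by
      refine (Finset.card_union_le _ _).trans ?_
      rw [card_ball_eq hT c0 c, card_ball_eq hT c0 x, two_mul]
    have hs := hstep θ θ h0 h1 h0 h1 D D' (conn_ball hT _ _) (conn_ball hT _ _) hcard v hv1 hv2
      δ hδ hδ1 k
    have hbd : ∀ w z, |(cvx G θ D (scheme G θ D δ z k) v w -
        cvx G θ D' (scheme G θ D' δ z k) v w) ^ 2| ≤ 4 * (θ ^ 2) ^ G.dist v w := by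
      intro w z
      rw [abs_of_nonneg (sq_nonneg _)]
      have := pow_le_pow_left₀ (abs_nonneg _) ((abs_sub _ _).trans (add_le_add
        (abs_cvx_le hT h0 h1 (conn_ball hT c R) (scheme G θ D δ z k) hv1 w)
        (abs_cvx_le hT h0 h1 (conn_ball hT x R) (scheme G θ D' δ z k) hv2 w))) 2
      rw [sq_abs, ← two_mul, mul_pow, ← pow_mul, mul_comm (G.dist v w) 2, pow_mul] at this
      linarith
    have hmc : ∀ w, Measurable fun z => (cvx G θ D (scheme G θ D δ z k) v w -
        cvx G θ D' (scheme G θ D' δ z k) v w) ^ 2 := fun w =>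
      (((measurable_cvx D v w).comp (measurable_scheme D δ k)).sub
        ((measurable_cvx D' v w).comp (measurable_scheme D' δ k))).pow_const 2
    have hΦ0 : ∀ u, 0 ≤ Φ u := fun u => by simp only [hΦ]; positivity
    have hterm : ∀ w, ∫ z, (cvx G θ D (scheme G θ D δ z k) v w -
        cvx G θ D' (scheme G θ D' δ z k) v w) ^ 2 ∂gN (ℕ × V) ≤
        recK * Φ v * (((G.dist v w : ℝ) + 1) * (θ ^ 2 * β) ^ G.dist v w) := by
      intro w
      by_cases hn : G.dist c v + G.dist v w ≤ R - M
      · have hpath : OnPath G D v w ∧ OnPath G D' v w := by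
          constructor <;> intro i hi <;> rw [mem_ball hT]
          · have := hT.conn.dist_triangle (u := c) (v := v) (w := geo G v w i)
            rw [(geo_spec hT hi).1] at this
            omega
          · have h2 := hT.conn.dist_triangle (u := x) (v := v) (w := geo G v w i)
            have h3 := hT.conn.dist_triangle (u := x) (v := c) (w := v)
            rw [(geo_spec hT hi).1] at h2
            omega
        have hwD : w ∈ D ∧ w ∈ D' :=
          ⟨geo_end hT v w ▸ hpath.1 _ le_rfl, geo_end hT v w ▸ hpath.2 _ le_rfl⟩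
        refine le_trans (integral_mono (g := fun z => recK * (θ ^ 2) ^ G.dist v w *
            ∑ i ∈ range (G.dist v w + 1), (mag G θ D (scheme G θ D δ z k) (geo G v w i) -
              mag G θ D' (scheme G θ D' δ z k) (geo G v w i)) ^ 2)
          (integrable_of_bdd (hmc w) (hbd w))
          ((integrable_finsetSum _ fun i _ => integrable_magDiff h0 h1 D D' δ k _).const_mul _)
          fun z => ?_) ?_
        · simp only [cvx, if_pos hwD.1, if_pos hwD.2]
          exact delta_cv_same hT h0 hl (conn_ball hT _ _) (conn_ball hT _ _) hpath.1 hpath.2 _ _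
        rw [integral_const_mul, integral_finsetSum _ fun i _ => integrable_magDiff h0 h1 D D' δ k _]
        have hsum : ∑ i ∈ range (G.dist v w + 1), volGap G θ D D' δ k (geo G v w i) ≤
            ∑ _i ∈ range (G.dist v w + 1), β ^ G.dist v w * Φ v := by
          refine Finset.sum_le_sum fun i hi => (ih (geo G v w i)).trans ?_
          have hi' : i ≤ G.dist v w := by have := Finset.mem_range.1 hi; omega
          simp only [hΦ]
          rw [← mul_assoc (β ^ G.dist v w)]
          refine mul_le_mul_of_nonneg_right ?_ (exp_pos _).le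
          rw [mul_add, ← mul_assoc, mul_comm _ A, mul_assoc A, ← pow_add]
          refine add_le_add (mul_le_mul_of_nonneg_left (pow_le_pow_right₀ hβ ?_) hA0)
            (le_mul_of_one_le_left (by positivity) (one_le_pow₀ hβ))
          have := hT.conn.dist_triangle (u := c) (v := v) (w := geo G v w i)
          rw [(geo_spec hT hi').1] at this
          omega
        refine (mul_le_mul_of_nonneg_left hsum (mul_nonneg (by linarith [recK_ge])
          (pow_nonneg (sq_nonneg θ) _))).trans (le_of_eq ?_)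
        rw [Finset.sum_const, Finset.card_range, nsmul_eq_mul, mul_pow]
        push_cast
        ring
      · refine le_trans (integral_mono (integrable_of_bdd (hmc w) (hbd w)) (integrable_const _)
          fun z => (le_abs_self _).trans (hbd w z)) ?_
        simp only [integral_const, probReal_univ, one_smul, mul_pow]
        have h2 : 4 ≤ β ^ G.dist v w * Φ v := by
          simp only [hΦ]
          rw [← mul_assoc (β ^ G.dist v w)]
          refine le_trans ?_ (le_mul_of_one_le_right (by positivity) hexp)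
          rw [mul_add, ← mul_assoc, mul_comm _ A, mul_assoc A, ← pow_add]
          refine le_add_of_le_of_nonneg ?_ (by positivity)
          rw [hA, div_mul_eq_mul_div, le_div_iff₀ (by positivity)]
          exact mul_le_mul_of_nonneg_left (pow_le_pow_right₀ hβ (by omega)) (by norm_num)
        calc 4 * (θ ^ 2) ^ G.dist v w ≤ β ^ G.dist v w * Φ v * (θ ^ 2) ^ G.dist v w :=
              mul_le_mul_of_nonneg_right h2 (pow_nonneg (sq_nonneg θ) _)
          _ = 1 * Φ v * (1 * ((θ ^ 2) ^ G.dist v w * β ^ G.dist v w)) := by ring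
          _ ≤ _ := by
              refine mul_le_mul (mul_le_mul_of_nonneg_right (by linarith [recK_ge]) (hΦ0 v))
                (mul_le_mul_of_nonneg_right (le_add_of_nonneg_left (Nat.cast_nonneg _))
                  (by positivity)) (by positivity)
                (mul_nonneg (by linarith [recK_ge]) (hΦ0 v))
    rw [integral_finsetSum _ fun w _ => integrable_of_bdd (hmc w) (hbd w)] at hs
    have hW : ∑ w ∈ D ∪ D', ∫ z, (cvx G θ D (scheme G θ D δ z k) v w -
        cvx G θ D' (scheme G θ D' δ z k) v w) ^ 2 ∂gN (ℕ × V) ≤ Φ v * K := by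
      refine (Finset.sum_le_sum fun w _ => hterm w).trans ?_
      rw [← Finset.mul_sum, hK, mul_comm recK (Φ v), mul_assoc]
      exact mul_le_mul_of_nonneg_left (mul_le_mul_of_nonneg_left
        (sum_weight_le hT v (by positivity) hq hQ _) (by linarith [recK_ge])) (hΦ0 v)
    have hKΦ : Kr * √δ ≤ Φ v := by
      simp only [hΦ]
      exact le_trans (le_add_of_nonneg_left (by positivity))
        (le_mul_of_one_le_right (by positivity) hexp)
    refine hs.trans ?_
    rw [hexp2, ← mul_assoc (_ + _)]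
    calc _ ≤ Φ v + δ * (Φ v * K) + δ * Φ v :=
          add_le_add (add_le_add (ih v) (mul_le_mul_of_nonneg_left hW hδ.le))
            (le_trans (le_of_eq (by ring)) (mul_le_mul_of_nonneg_left hKΦ hδ.le))
      _ = Φ v * ((K + 1) * δ + 1) := by ring
      _ ≤ _ := mul_le_mul_of_nonneg_left (add_one_le_exp _) (hΦ0 v)

end Recenter

open Recenter in
theorem recenter (hT : RTree G d) (h0 : 0 ≤ θ) (hsub : ((d : ℝ) - 1) * θ ^ 2 < 1) (M T : ℕ)
    {η : ℝ} (hη : 0 < η) :
    ∃ R0, ∀ R, R0 ≤ R → ∀ᶠ j in atTop, ∀ k, k ≤ steps T j → ∀ c x, G.dist c x ≤ M →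
      ∫ z, |mag G θ (ball G c R) (hs G θ R j k c z) x - mc G θ R j k x z| ∂gN (ℕ × V) ≤ η := by
  have hd : (3 : ℝ) ≤ d := by exact_mod_cast hT.three
  set Q := (d : ℝ) - 1 with hQdef
  have hQp : 0 < Q := by linarith
  set s := Q * θ ^ 2 with hs
  have hs0 : 0 ≤ s := by positivity
  set β := 2 / (1 + s) with hβdef
  have hβ : 1 < β := by rw [hβdef, one_lt_div (by linarith)]; linarith
  have hsb : Q * (θ ^ 2 * β) < 1 := by
    rw [← mul_assoc, ← hs, hβdef, ← mul_div_assoc, div_lt_one (by linarith)]; linarith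
  set q' := (θ ^ 2 * β + 1 / Q) / 2 with hq'
  have hi : θ ^ 2 * β < 1 / Q := by rw [lt_div_iff₀ hQp, mul_comm]; exact hsb
  have hq : θ ^ 2 * β < q' := by rw [hq']; linarith
  have hQ : Q * q' < 1 := by
    have : q' < 1 / Q := by rw [hq']; linarith
    calc Q * q' < Q * (1 / Q) := mul_lt_mul_of_pos_left this hQp
      _ = 1 := by field_simp
  have h1 : θ < 1 := by
    by_contra h
    nlinarith [one_le_pow₀ (n := 2) (not_lt.1 h)]
  set E := exp ((recK * ((1 - θ ^ 2 * β / q')⁻¹ * (2 / (1 - Q * q'))) + 1) * T) with hE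
  have hE0 : 0 < E := exp_pos _
  have hlim : Tendsto (fun R : ℕ => 4 * β ^ M / β ^ (R - M) * E) atTop (𝓝 0) := by
    have h := ((tendsto_pow_atTop_atTop_of_one_lt hβ).comp (tendsto_sub_atTop_nat M))
    simpa using (h.const_div_atTop (4 * β ^ M)).mul_const E
  obtain ⟨R0, hR0⟩ := eventually_atTop.1 (hlim.eventually_le_const
    (show (0 : ℝ) < η ^ 2 / 2 by positivity))
  refine ⟨R0, fun R hR => ?_⟩
  obtain ⟨Kr, hKr, hB⟩ := volGap_bound hT h0 hβ.le hq hQ R M
  have hj : ∀ᶠ j in atTop, Kr * √(dt j) * E ≤ η ^ 2 / 2 := by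
    have : Tendsto (fun j => Kr * √(dt j) * E) atTop (𝓝 0) := by
      simpa using (tendsto_sqrt_dt.const_mul Kr).mul_const E
    exact this.eventually_le_const (by positivity)
  filter_upwards [hj] with j hj k hk c x hcx
  have hv : volGap G θ (ball G c R) (ball G x R) (dt j) k x ≤ η ^ 2 := by
    refine (hB _ (dt_pos j) (dt_le_one j) k c x x hcx).trans ?_
    have hkT : (k : ℝ) * dt j ≤ T := by
      rw [← steps_mul_dt T j]
      exact mul_le_mul_of_nonneg_right (by exact_mod_cast hk) (dt_pos j).le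
    have hr : θ ^ 2 * β / q' < 1 :=
      (div_lt_one (lt_of_le_of_lt (by positivity) hq)).2 hq
    have he : exp ((recK * ((1 - θ ^ 2 * β / q')⁻¹ * (2 / (1 - Q * q'))) + 1) *
        ((k : ℝ) * dt j)) ≤ E := by
      refine exp_le_exp.2 (mul_le_mul_of_nonneg_left hkT ?_)
      refine add_nonneg (mul_nonneg (by linarith [recK_ge]) (mul_nonneg
        (inv_nonneg.2 (by linarith)) (div_nonneg zero_le_two (by linarith)))) zero_le_one
    refine (mul_le_mul_of_nonneg_left he ?_).trans ?_
    · have := hβ.le; positivity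
    rw [add_mul]
    refine (add_le_add ?_ hj).trans_eq (add_halves (η ^ 2))
    refine le_trans (mul_le_mul_of_nonneg_right ?_ hE0.le) (hR0 R hR)
    rw [mul_div_right_comm]
    exact mul_le_mul_of_nonneg_left (pow_le_pow_right₀ hβ.le hcx) (by positivity)
  have hI := integral_abs_le (μ := gN (ℕ × V))
    (measurable_magDiff (G := G) (θ := θ) (ball G c R) (ball G x R) (dt j) k x)
    (abs_magDiff_le h0 h1 _ _ _ _ _) hη
  refine hI.trans ?_
  have h3 : volGap G θ (ball G c R) (ball G x R) (dt j) k x / (2 * η) ≤ η / 2 := by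
    rw [div_le_iff₀ (by positivity)]
    linarith [hv, show η / 2 * (2 * η) = η ^ 2 by ring]
  simp only [volGap] at h3
  linarith

end Vale.Agent.P161
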