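import Vale.Agent.P161.Crit.Words

/-!
# The strength of the messages up to the critical point

`strength` is the expected magnetization times the spin.  Near the critical point it is of the
order of the square root of the time.
-/

open MeasureTheory ProbabilityTheory Finset Real
open scoped ENNReal NNReal Classical

noncomputable section

namespace Vale.Agent.P161

variable {Q : ℕ} {θ t : ℝ}

theorem fourSum_tanh (a b : ℝ) :
    fourSum tanh a b = (tanh a ^ 2 + tanh b ^ 2 - 2 * (tanh a ^ 2 * tanh b ^ 2)) /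
      (1 - tanh a ^ 2 * tanh b ^ 2) := by
  have d1 := one_add_tanh_mul_pos a b
  have d2 := one_add_tanh_mul_pos a (-b)
  rw [Real.tanh_neg, mul_neg, ← sub_eq_add_neg] at d2
  have d3 : (0 : ℝ) < 1 - tanh a ^ 2 * tanh b ^ 2 := by nlinarith [mul_pos d1 d2]
  have d1' := d1.ne'
  have d2' := d2.ne'
  have d3' := d3.ne'
  have f2 : tanh (a + -b) = (tanh a - tanh b) / (1 - tanh a * tanh b) := by
    rw [tanh_add', Real.tanh_neg, mul_neg, ← sub_eq_add_neg, ← sub_eq_add_neg]
  simp only [fourSum, show -a + -b = -(a + b) by ring, show -a + b = -(a + -b) by ring,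
    Real.tanh_neg]
  rw [tanh_add' a b, f2]
  field_simp
  ring

/-- Combining with an independent observation does not lose strength. -/
theorem Nish.add_tanh_ge {μ ν : Measure ℝ} (hμ : Nish μ) (hν : Nish ν) :
    ∫ x, tanh x ∂μ ≤ ∫ x, tanh x ∂addLaw μ ν := by
  have := hμ.1
  have := hν.1
  rw [hμ.tanh_sq, integral_addLaw_four hμ hν measurable_tanh' abs_tanh_le]
  have hb : ∀ a b, tanh a ^ 2 ≤ fourSum tanh a b ∧ fourSum tanh a b ≤ 2 := by
    intro a b
    have d1 := one_add_tanh_mul_pos a b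
    have d2 := one_add_tanh_mul_pos a (-b)
    rw [Real.tanh_neg, mul_neg, ← sub_eq_add_neg] at d2
    have d3 : (0 : ℝ) < 1 - tanh a ^ 2 * tanh b ^ 2 := by nlinarith [mul_pos d1 d2]
    have ha : tanh a ^ 2 ≤ 1 := by rw [← sq_abs]; exact pow_le_one₀ (abs_nonneg _) (abs_tanh_le a)
    have hb : tanh b ^ 2 ≤ 1 := by rw [← sq_abs]; exact pow_le_one₀ (abs_nonneg _) (abs_tanh_le b)
    rw [fourSum_tanh, le_div_iff₀ d3, div_le_iff₀ d3]
    refine ⟨?_, ?_⟩
    · nlinarith [mul_nonneg (sq_nonneg (tanh b)) (sq_nonneg (1 - tanh a ^ 2))]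
    · nlinarith [mul_nonneg (sub_nonneg.2 ha) (sub_nonneg.2 hb)]
  have hm : Measurable fun p : ℝ × ℝ => fourSum tanh p.1 p.2 := by
    have t1 : Measurable fun p : ℝ × ℝ => tanh p.1 := measurable_tanh'.comp measurable_fst
    have t2 : Measurable fun p : ℝ × ℝ => tanh p.2 := measurable_tanh'.comp measurable_snd
    simp only [fourSum_tanh]
    exact (((t1.pow_const 2).add (t2.pow_const 2)).sub
      (((t1.pow_const 2).mul (t2.pow_const 2)).const_mul 2)).div
      (((t1.pow_const 2).mul (t2.pow_const 2)).const_sub 1)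
  have i1 : Integrable (fun p : ℝ × ℝ => fourSum tanh p.1 p.2) (μ.prod ν) :=
    Integrable.of_bound hm.aestronglyMeasurable 2 (ae_of_all _ fun p => by
      rw [Real.norm_eq_abs, abs_of_nonneg ((sq_nonneg _).trans (hb _ _).1)]; exact (hb _ _).2)
  have i2 : Integrable (fun p : ℝ × ℝ => tanh p.1 ^ 2) (μ.prod ν) :=
    Integrable.of_bound ((measurable_tanh'.comp measurable_fst).pow_const 2).aestronglyMeasurable 1
      (ae_of_all _ fun p => by
        rw [Real.norm_eq_abs, abs_pow]; exact pow_le_one₀ (abs_nonneg _) (abs_tanh_le _))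
  calc ∫ a, tanh a ^ 2 ∂μ = ∫ p, tanh p.1 ^ 2 ∂μ.prod ν := by
        rw [integral_fun_fst (fun a => tanh a ^ 2)]; simp
    _ ≤ ∫ p, fourSum tanh p.1 p.2 ∂μ.prod ν := integral_mono i2 i1 fun p => (hb _ _).1
    _ = _ := integral_prod _ i1

theorem Nish.tanh_range {μ : Measure ℝ} (hμ : Nish μ) :
    0 ≤ ∫ x, tanh x ∂μ ∧ ∫ x, tanh x ∂μ ≤ 1 := by
  have := hμ.1
  refine ⟨?_, ?_⟩
  · rw [hμ.tanh_sq]; exact integral_nonneg fun x => sq_nonneg _
  · exact (integral_mono (integrable_of_bdd measurable_tanh' abs_tanh_le) (integrable_const 1)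
      fun x => (abs_le.1 (abs_tanh_le x)).2).trans (le_of_eq (by simp))

theorem sumLaw_tanh {μ : Measure ℝ} (hμ : Nish μ) (n : ℕ) :
    ∫ x, tanh x ∂sumLaw μ n ≤ 1 - (1 - ∫ x, tanh x ∂μ) ^ n ∧
      n * (∫ x, tanh x ∂μ) - (n : ℝ) ^ 2 * (∫ x, tanh x ∂μ) ^ 2 ≤ ∫ x, tanh x ∂sumLaw μ n ∧
      ∫ x, tanh x ∂sumLaw μ n ≤ n * ∫ x, tanh x ∂μ := by
  have := hμ.1
  set a := ∫ x, tanh x ∂μ with ha
  induction n with
  | zero => simp [sumLaw_zero]
  | succ n ih =>
    obtain ⟨i1, i2, i3⟩ := ih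
    obtain ⟨l, u⟩ := hμ.add_tanh (nish_sumLaw hμ n)
    rw [← sumLaw_succ] at l u
    obtain ⟨a0, a1⟩ := hμ.tanh_range
    obtain ⟨b0, b1⟩ := (nish_sumLaw hμ n).tanh_range
    rw [← ha] at l u a0 a1
    push_cast
    refine ⟨?_, ?_, ?_⟩
    · rw [pow_succ]
      nlinarith [mul_le_mul_of_nonneg_left i1 (sub_nonneg.2 a1)]
    · nlinarith [mul_le_mul_of_nonneg_left i3 a0, mul_nonneg a0 b0, sq_nonneg a]
    · nlinarith [mul_nonneg a0 b0]

theorem one_sub_pow_ge {y : ℝ} (h0 : 0 ≤ y) (h1 : y ≤ 1) :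
    ∀ n : ℕ, 2 ≤ n → 1 - n * y + y ^ 2 ≤ (1 - y) ^ n := by
  intro n hn
  induction n, hn using Nat.le_induction with
  | base => exact le_of_eq (by push_cast; ring)
  | succ n hn ih =>
    have h := mul_le_mul_of_nonneg_right ih (sub_nonneg.2 h1)
    rw [← pow_succ] at h
    push_cast
    have hn' : (2 : ℝ) ≤ n := by exact_mod_cast hn
    nlinarith [mul_nonneg (mul_nonneg h0 h0) (show (0 : ℝ) ≤ (n : ℝ) - y by linarith)]

/-- Expected magnetization times spin at the root of a branch. -/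
def strength (Q : ℕ) (θ t : ℝ) (R : ℕ) : ℝ := ∫ x, tanh x ∂XLaw Q θ t R

/-- The same for a single observation. -/
def ownStr (t : ℝ) : ℝ := ∫ x, tanh x ∂gaussianReal t t.toNNReal

theorem nish_own (ht : 0 < t) : Nish (gaussianReal t t.toNNReal) := by
  have := nish_gauss (t := t.toNNReal) (by simpa using ht)
  rwa [Real.coe_toNNReal t ht.le] at this

theorem ownStr_le (ht : 0 < t) : ownStr t ≤ 2 * min t 1 := by
  rcases le_total t 1 with h | h
  · rw [min_eq_left h, ownStr, (nish_own ht).tanh_sq]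
    have hi : Integrable (fun x : ℝ => x ^ 2) (gaussianReal t t.toNNReal) :=
      (memLp_id_gaussianReal (μ := t) (v := t.toNNReal) 2).integrable_sq
    have hv := variance_id_gaussianReal (μ := t) (v := t.toNNReal)
    rw [variance_eq_sub (memLp_id_gaussianReal (μ := t) (v := t.toNNReal) 2)] at hv
    simp only [Pi.pow_apply, id_eq, integral_id_gaussianReal] at hv
    rw [Real.coe_toNNReal t ht.le] at hv
    refine (integral_mono (integrable_of_bdd (measurable_tanh'.pow_const 2) (B := 1) fun x => by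
      rw [abs_pow]; exact pow_le_one₀ (abs_nonneg _) (abs_tanh_le x)) hi fun x => ?_).trans ?_
    · show tanh x ^ 2 ≤ x ^ 2
      rw [← sq_abs, ← sq_abs x]
      refine pow_le_pow_left₀ (abs_nonneg _) ?_ 2
      simpa using abs_tanh_sub_le x 0
    · nlinarith
  · rw [min_eq_right h]
    exact (nish_own ht).tanh_range.2.trans (by norm_num)

theorem ownStr_lower : ∃ c : ℝ, 0 < c ∧ c ≤ 1 ∧ ∀ t : ℝ, 0 < t → c * min t 1 ≤ ownStr t := by
  set p := (gaussianReal 0 1).real (Set.Ici 1) with hp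
  have hp0 : 0 < p := by
    rw [hp, measureReal_def]
    refine ENNReal.toReal_pos (fun h => ?_) (measure_ne_top _ _)
    have := gaussianReal_absolutelyContinuous' 0 one_ne_zero h
    simp at this
  have hp1 : p ≤ 1 := measureReal_le_one
  refine ⟨p / 9, by linarith, by linarith, fun t ht => ?_⟩
  set m := min t 1 with hm
  have hm0 : 0 < m := lt_min ht one_pos
  set v := √m with hv
  have hv1 : v ≤ 1 := Real.sqrt_le_one.2 (min_le_right _ _)
  have hv0 : 0 ≤ v := Real.sqrt_nonneg _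
  have key : ∀ z : ℝ, (Set.Ici (1 : ℝ)).indicator (fun _ => m / 9) z ≤ tanh (t + √t * z) ^ 2 := by
    intro z
    by_cases hz : z ∈ Set.Ici (1 : ℝ)
    · rw [Set.indicator_of_mem hz]
      have h1 : v ≤ t + √t * z := by
        have e1 : v ≤ √t := Real.sqrt_le_sqrt (min_le_left _ _)
        have e2 : √t * 1 ≤ √t * z := mul_le_mul_of_nonneg_left hz (Real.sqrt_nonneg t)
        linarith
      have h2 := (half_le_tanh hv0 hv1).trans (tanh_le_tanh h1)
      have h3 := pow_le_pow_left₀ (by linarith) h2 2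
      rw [div_pow, hv, Real.sq_sqrt hm0.le] at h3
      linarith
    · rw [Set.indicator_of_notMem hz]; exact sq_nonneg _
  have hmeas : Measurable fun z : ℝ => tanh (t + √t * z) ^ 2 :=
    (measurable_tanh'.comp (by fun_prop)).pow_const 2
  have hlaw : gaussianReal t t.toNNReal = (gaussianReal 0 1).map (fun z => t + √t * z) := by
    rw [show (fun z : ℝ => t + √t * z) = (fun z => t + z) ∘ (fun z => √t * z) from rfl,
      ← Measure.map_map (by fun_prop) (by fun_prop), gaussianReal_map_const_mul,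
      gaussianReal_map_const_add, mul_zero, zero_add, mul_one]
    congr 1
    ext
    simp [Real.sq_sqrt ht.le, ht.le]
  calc p / 9 * m = ∫ z, (Set.Ici (1 : ℝ)).indicator (fun _ => m / 9) z ∂gaussianReal 0 1 := by
        rw [integral_indicator measurableSet_Ici, setIntegral_const, smul_eq_mul, ← hp]; ring
    _ ≤ ∫ z, tanh (t + √t * z) ^ 2 ∂gaussianReal 0 1 :=
        integral_mono ((integrable_const _).indicator measurableSet_Ici)
          (integrable_of_bdd hmeas (B := 1) fun z => by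
            rw [abs_pow]; exact pow_le_one₀ (abs_nonneg _) (abs_tanh_le _)) key
    _ = ownStr t := by
        rw [ownStr, (nish_own ht).tanh_sq, hlaw,
          integral_map (by fun_prop) (measurable_tanh'.pow_const 2).aestronglyMeasurable]

theorem strength_step (h0 : 0 ≤ θ) (h1 : θ < 1) (ht : 0 < t) (R : ℕ) :
    let s := ownStr t; let w := θ ^ 2 * strength Q θ t R; let q' := strength Q θ t (R + 1)
    1 - q' ≥ (1 - s) * (1 - w) ^ Q ∧ s + (1 - 2 * s) * (Q * w - (Q : ℝ) ^ 2 * w ^ 2) ≤ q' ∨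
      1 / 2 < s := by
  intro s w q'
  by_cases hs : 1 / 2 < s
  · exact Or.inr hs
  left
  rw [not_lt] at hs
  have hx := nish_XLaw (Q := Q) h0 h1 ht R
  have hW : Nish (childLaw θ (XLaw Q θ t R)) := hx.child h0 h1
  have hq : q' = ∫ x, tanh x ∂addLaw (gaussianReal t t.toNNReal)
      (sumLaw (childLaw θ (XLaw Q θ t R)) Q) := by
    show ∫ x, tanh x ∂XLaw Q θ t (R + 1) = _
    rw [XLaw_succ ht.le, WLaw_eq]
  have hw : ∫ x, tanh x ∂childLaw θ (XLaw Q θ t R) = w := childLaw_tanh h0 h1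
  obtain ⟨hu, hl, -⟩ := sumLaw_tanh hW Q
  rw [hw] at hu hl
  obtain ⟨el, eu⟩ := (nish_own ht).add_tanh (nish_sumLaw hW Q)
  rw [← hq] at el eu
  have hsr := (nish_own ht).tanh_range
  set S := ∫ x, tanh x ∂sumLaw (childLaw θ (XLaw Q θ t R)) Q
  have es : ∫ x, tanh x ∂gaussianReal t t.toNNReal = s := rfl
  rw [es] at el eu hsr
  constructor
  · nlinarith [mul_le_mul_of_nonneg_left hu (sub_nonneg.2 hsr.2)]
  · nlinarith [mul_le_mul_of_nonneg_left hl (by linarith : (0 : ℝ) ≤ 1 - 2 * s)]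

theorem strength_ge (h0 : 0 ≤ θ) (h1 : θ < 1) (ht : 0 < t) (hQ : 1 ≤ Q) (R : ℕ) :
    ownStr t ≤ strength Q θ t (R + 1) ∧ θ ^ 2 * strength Q θ t R ≤ strength Q θ t (R + 1) := by
  have hx := nish_XLaw (Q := Q) h0 h1 ht R
  have hW : Nish (childLaw θ (XLaw Q θ t R)) := hx.child h0 h1
  have e : strength Q θ t (R + 1) = ∫ x, tanh x ∂addLaw (gaussianReal t t.toNNReal)
      (sumLaw (childLaw θ (XLaw Q θ t R)) Q) := by
    show ∫ x, tanh x ∂XLaw Q θ t (R + 1) = _
    rw [XLaw_succ ht.le, WLaw_eq]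
  have := hW.1
  obtain ⟨n, rfl⟩ : ∃ n, Q = n + 1 := ⟨Q - 1, by omega⟩
  refine ⟨e ▸ (nish_own ht).add_tanh_ge (nish_sumLaw hW _), ?_⟩
  have h2 := hW.add_tanh_ge (nish_sumLaw hW n)
  rw [← sumLaw_succ, childLaw_tanh h0 h1] at h2
  obtain ⟨l, -⟩ := (nish_own ht).add_tanh (nish_sumLaw hW (n + 1))
  have hs := (nish_own ht).tanh_range
  have hS := (nish_sumLaw hW (n + 1)).tanh_range
  rw [e]
  have h3 : ∫ x, tanh x ∂sumLaw (childLaw θ (XLaw (n + 1) θ t R)) (n + 1) ≤
      ∫ x, tanh x ∂addLaw (gaussianReal t t.toNNReal) (sumLaw (childLaw θ (XLaw (n + 1) θ t R)) (n + 1)) := by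
    have := (nish_own ht).1
    have := (nish_sumLaw hW (n + 1)).1
    have hswap : addLaw (gaussianReal t t.toNNReal) (sumLaw (childLaw θ (XLaw (n + 1) θ t R)) (n + 1)) =
        addLaw (sumLaw (childLaw θ (XLaw (n + 1) θ t R)) (n + 1)) (gaussianReal t t.toNNReal) := by
      rw [addLaw, addLaw, ← Measure.prod_swap, Measure.map_map (by fun_prop) measurable_swap]
      congr 1
      funext p
      exact add_comm _ _
    rw [hswap]
    exact (nish_sumLaw hW (n + 1)).add_tanh_ge (nish_own ht)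
  exact le_trans h2 h3

/-- Up to the critical point the strength is at most of order `√t`. -/
theorem strength_le (h0 : 0 ≤ θ) (h1 : θ < 1) (hQ : 2 ≤ Q) (hθ : (Q : ℝ) * θ ^ 2 ≤ 1) (ht : 0 < t) :
    ∀ R, strength Q θ t R ≤ 2 * Q * √(min t 1) := by
  set m := min t 1 with hm
  have hm0 : 0 < m := lt_min ht one_pos
  have hm1 : m ≤ 1 := min_le_right _ _
  have hQr : (2 : ℝ) ≤ Q := by exact_mod_cast hQ
  have hsm : m ≤ √m := (Real.le_sqrt hm0.le hm0.le).2 (by nlinarith)
  intro R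
  induction R with
  | zero =>
    show ∫ x, tanh x ∂XLaw Q θ t 0 ≤ _
    rw [XLaw_zero ht.le]
    refine (ownStr_le ht).trans ?_
    rw [← hm]
    nlinarith [Real.sqrt_nonneg m]
  | succ R ih =>
    rcases strength_step (Q := Q) h0 h1 ht R with ⟨hu, -⟩ | hs
    · have hs2 : ownStr t ≤ 2 * m := ownStr_le ht
      set s := ownStr t
      set q := strength Q θ t R
      set y := θ ^ 2 * q with hy
      have hq0 : 0 ≤ q ∧ q ≤ 1 := (nish_XLaw h0 h1 ht R).tanh_range
      have hq1 := (nish_XLaw (Q := Q) h0 h1 ht (R + 1)).tanh_range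
      have hs0 : 0 ≤ s := (nish_own ht).tanh_range.1
      have hs1 : s ≤ 1 := (nish_own ht).tanh_range.2
      by_cases hbig : 1 ≤ 2 * (Q : ℝ) * √m
      · exact hq1.2.trans hbig
      rw [not_le] at hbig
      have hmq : (16 : ℝ) * m < 1 := by
        have h2 := mul_self_lt_mul_self (by positivity) hbig
        nlinarith [Real.sq_sqrt hm0.le, mul_le_mul hQr hQr (by norm_num) (by linarith)]
      -- compare with the largest admissible argument
      have hQ0 : (0 : ℝ) < Q := by linarith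
      set z := 2 * √m with hz
      have hy0 : 0 ≤ y := mul_nonneg (sq_nonneg _) hq0.1
      have hyz : y ≤ z := by
        have h2 : θ ^ 2 ≤ 1 / Q := by rw [le_div_iff₀ hQ0]; linarith
        calc y ≤ 1 / Q * (2 * Q * √m) := mul_le_mul h2 ih hq0.1 (by positivity)
          _ = z := by rw [hz]; field_simp
      have hz1 : z ≤ 1 := by nlinarith [Real.sq_sqrt hm0.le, Real.sqrt_nonneg m]
      have hp : (1 - z) ^ Q ≤ (1 - y) ^ Q := pow_le_pow_left₀ (by linarith) (by linarith) _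
      have hp2 := one_sub_pow_ge (y := z) (by positivity) hz1 Q hQ
      have h4 := mul_le_mul_of_nonneg_left (hp2.trans hp) (sub_nonneg.2 hs1)
      have hz2 : z ^ 2 = 4 * m := by rw [hz, mul_pow, Real.sq_sqrt hm0.le]; ring
      rw [hz2] at h4
      have hkey : s + (1 - s) * (Q * z - 4 * m) ≤ 2 * Q * √m := by
        have : (Q : ℝ) * z = 2 * Q * √m := by rw [hz]; ring
        rw [this]
        nlinarith [mul_le_mul_of_nonneg_left hs2 (by norm_num : (0 : ℝ) ≤ 1)]
      show strength Q θ t (R + 1) ≤ _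
      nlinarith
    · have hq1 : strength Q θ t (R + 1) ≤ 1 := (nish_XLaw h0 h1 ht (R + 1)).tanh_range.2
      have hs2 : ownStr t ≤ 2 * m := ownStr_le ht
      have hm4 : 1 / 2 ≤ √m := (Real.le_sqrt (by norm_num) hm0.le).2 (by linarith)
      exact hq1.trans (by nlinarith)

theorem parabola_mono {lam x y : ℝ} (h0 : 0 ≤ lam) (h1 : lam ≤ 1) (hx : 0 ≤ x) (hxy : x ≤ y)
    (hy : y ≤ 1 / 4) : lam * x - lam ^ 2 * x ^ 2 ≤ lam * y - lam ^ 2 * y ^ 2 := by
  have h2 : lam * (y + x) ≤ 1 := by nlinarith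
  have h3 : 0 ≤ (y - x) * (lam * (1 - lam * (y + x))) :=
    mul_nonneg (by linarith) (mul_nonneg h0 (by linarith))
  have e : lam * y - lam ^ 2 * y ^ 2 - (lam * x - lam ^ 2 * x ^ 2) =
      (y - x) * (lam * (1 - lam * (y + x))) := by ring
  linarith

theorem gain_step {c0 c u s lam x : ℝ} (hc : 0 ≤ c) (hu0 : 0 ≤ u) (hu1 : u ≤ 1)
    (hc200 : c ≤ c0 / 200) (hs : c0 * (u * u) ≤ s) (hlu : 1 - lam ≤ u) (hl : lam ≤ 1)
    (hl0 : 0 ≤ lam) (hs0 : 0 ≤ s) (hs8 : s ≤ 1 / 8) (hc1 : c0 ≤ 1) (hx0 : 0 ≤ x) (hx : x ≤ c * u) :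
    x + s / 2 ≤ s + (1 - 2 * s) * (lam * x - lam ^ 2 * x ^ 2) := by
  have hcu : c * u ≤ c := mul_le_of_le_one_right hc hu1
  have hc' : c ≤ 1 / 200 := by linarith
  have a1 : (1 - lam) * x ≤ c * (u * u) :=
    (mul_le_mul hlu hx hx0 hu0).trans (le_of_eq (by ring))
  have a2 : 2 * s * (lam * x) ≤ 2 * s * (1 / 200) := by
    refine mul_le_mul_of_nonneg_left ?_ (by linarith)
    calc lam * x ≤ 1 * x := mul_le_mul_of_nonneg_right hl hx0
      _ ≤ 1 / 200 := by linarith
  have a3 : (1 - 2 * s) * (lam ^ 2 * x ^ 2) ≤ 1 * (1 * (c * u) ^ 2) :=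
    mul_le_mul (by linarith) (mul_le_mul (pow_le_one₀ hl0 hl)
      (pow_le_pow_left₀ hx0 hx 2) (sq_nonneg _) zero_le_one) (by positivity) zero_le_one
  have huu : 0 ≤ u * u := mul_self_nonneg u
  have a4 : (c * u) ^ 2 ≤ c * (u * u) := by
    have h := mul_le_mul_of_nonneg_right (mul_le_mul_of_nonneg_left (show c ≤ 1 by linarith) hc) huu
    calc (c * u) ^ 2 = c * c * (u * u) := by ring
      _ ≤ c * 1 * (u * u) := h
      _ = c * (u * u) := by ring
  have a5 : c * (u * u) ≤ s / 200 :=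
    (mul_le_mul_of_nonneg_right hc200 huu).trans (by linarith)
  have e : s + (1 - 2 * s) * (lam * x - lam ^ 2 * x ^ 2) =
      x + s - ((1 - lam) * x + 2 * s * (lam * x) + (1 - 2 * s) * (lam ^ 2 * x ^ 2)) := by ring
  linarith

/-- Near the critical point the strength is at least of order `√t`. -/
theorem strength_lower (hQ : 2 ≤ Q) : ∃ c : ℝ, 0 < c ∧ ∀ τ : ℝ, 0 < τ → ∃ L : ℕ, ∀ θ t : ℝ,
    0 ≤ θ → θ < 1 → τ ≤ t →
    (Q : ℝ) * θ ^ 2 ≤ 1 → 1 / 2 ≤ (Q : ℝ) * θ ^ 2 → (1 - (Q : ℝ) * θ ^ 2) ^ 2 ≤ min t 1 →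
    ∀ R, L ≤ R → c * √(min t 1) ≤ strength Q θ t R := by
  obtain ⟨c0, hc0, hc1, hown⟩ := ownStr_lower
  have hQr : (2 : ℝ) ≤ Q := by exact_mod_cast hQ
  refine ⟨c0 / (100 * Q), by positivity, fun τ hτ => ?_⟩
  obtain ⟨L, hL⟩ := exists_nat_gt (2 * (c0 / (100 * Q)) / (c0 * √(min τ 1)))
  refine ⟨L, fun θ t h0 h1 hτt hl hl' hcrit => ?_⟩
  have ht : 0 < t := hτ.trans_le hτt
  set c := c0 / (100 * Q) with hc
  have hcpos : 0 < c := by positivity
  have hc100 : c ≤ c0 / 200 := div_le_div_of_nonneg_left hc0.le (by norm_num) (by linarith)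
  set m := min t 1 with hm
  have hm0 : 0 < m := lt_min ht one_pos
  have hm1 : m ≤ 1 := min_le_right _ _
  set u := √m with hu
  have hu0 : 0 < u := Real.sqrt_pos.2 hm0
  have hu1 : u ≤ 1 := Real.sqrt_le_one.2 hm1
  have huu : u * u = m := Real.mul_self_sqrt hm0.le
  set s := ownStr t with hs
  have hs_lo : c0 * m ≤ s := hown t ht
  have hspos : 0 < s := lt_of_lt_of_le (by positivity) hs_lo
  set lam := (Q : ℝ) * θ ^ 2 with hlam
  have hlu : 1 - lam ≤ u := (Real.le_sqrt (by linarith) hm0.le).2 hcrit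
  -- one step keeps the bound or gains `s / 2`
  have step : ∀ R, (c * u ≤ strength Q θ t R → c * u ≤ strength Q θ t (R + 1)) ∧
      (strength Q θ t R < c * u → c * u ≤ strength Q θ t (R + 1) ∨
        strength Q θ t R + s / 2 ≤ strength Q θ t (R + 1)) := by
    intro R
    obtain ⟨hg1, hg2⟩ := strength_ge (Q := Q) h0 h1 ht (by omega) R
    rw [← hs] at hg1
    set q := strength Q θ t R
    set q' := strength Q θ t (R + 1)
    have hcu : c * u ≤ c := mul_le_of_le_one_right hcpos.le hu1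
    by_cases hsbig : 1 / 8 < s
    · have : c * u ≤ q' := by linarith
      exact ⟨fun _ => this, fun _ => Or.inl this⟩
    rw [not_lt] at hsbig
    rcases strength_step (Q := Q) h0 h1 ht R with ⟨-, hl2⟩ | hbad
    swap
    · linarith [show ownStr t ≤ 1 / 8 from hsbig]
    have hl3 : s + (1 - 2 * s) * (lam * q - lam ^ 2 * q ^ 2) ≤ q' := by
      have e : (Q : ℝ) * (θ ^ 2 * q) - (Q : ℝ) ^ 2 * (θ ^ 2 * q) ^ 2 = lam * q - lam ^ 2 * q ^ 2 := by
        rw [hlam]; ring
      rw [← e]; exact hl2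
    have hl4 : ∀ x : ℝ, 0 ≤ x → x ≤ c * u →
        x + s / 2 ≤ s + (1 - 2 * s) * (lam * x - lam ^ 2 * x ^ 2) := fun x hx0 hx =>
      gain_step hcpos.le hu0.le hu1 hc100 (huu ▸ hs_lo) hlu hl (by linarith) hspos.le hsbig hc1 hx0 hx
    refine ⟨fun hq => ?_, fun hq => Or.inr ?_⟩
    · by_cases hq4 : q ≤ 1 / 4
      · have h5 := hl4 (c * u) (by positivity) le_rfl
        have hc4 : c ≤ 1 / 4 := by linarith
        have mono := mul_le_mul_of_nonneg_left
          (parabola_mono (lam := lam) (x := c * u) (y := q) (by linarith) hl (by positivity) hq hq4)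
          (by linarith : (0 : ℝ) ≤ 1 - 2 * s)
        linarith
      · rw [not_le] at hq4
        have h5 : 1 / (8 * (Q : ℝ)) ≤ θ ^ 2 * q := by
          rw [div_le_iff₀ (by positivity)]
          nlinarith
        have h6 : c ≤ 1 / (8 * (Q : ℝ)) := by
          rw [hc, div_le_div_iff₀ (by positivity) (by positivity)]
          nlinarith
        linarith
    · exact le_trans (hl4 q ((nish_XLaw h0 h1 ht R).tanh_range.1) hq.le) hl3
  have grow : ∀ n, c * u ≤ strength Q θ t n ∨ (n : ℝ) * (s / 2) ≤ strength Q θ t n := by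
    intro n
    induction n with
    | zero =>
      right
      rw [Nat.cast_zero, zero_mul]
      exact (nish_XLaw (Q := Q) h0 h1 ht 0).tanh_range.1
    | succ n ih =>
      rcases le_or_gt (c * u) (strength Q θ t n) with h | h
      · exact Or.inl ((step n).1 h)
      · rcases (step n).2 h with h' | h'
        · exact Or.inl h'
        · rcases ih with h2 | h2
          · linarith
          · right; push_cast; linarith
  have hL : 2 * (c * u) / s < (L : ℝ) := by
    refine lt_of_le_of_lt ?_ hL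
    have hm2 : √(min τ 1) ≤ u := Real.sqrt_le_sqrt (min_le_min hτt le_rfl)
    have hm3 : 0 < √(min τ 1) := Real.sqrt_pos.2 (lt_min hτ one_pos)
    rw [div_le_div_iff₀ hspos (by positivity)]
    have h7 : c0 * √(min τ 1) * u ≤ s := by
      refine le_trans ?_ hs_lo
      rw [← huu, ← mul_assoc]
      exact mul_le_mul_of_nonneg_right (mul_le_mul_of_nonneg_left hm2 hc0.le) hu0.le
    calc 2 * (c * u) * (c0 * √(min τ 1)) = 2 * c * (c0 * √(min τ 1) * u) := by ring
      _ ≤ 2 * c * s := mul_le_mul_of_nonneg_left h7 (by positivity)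
  intro R hR
  induction R, hR using Nat.le_induction with
  | base =>
    rcases grow L with h | h
    · exact h
    · rw [div_lt_iff₀ hspos] at hL; nlinarith
  | succ R _ ih => exact (step R).1 ih

end Vale.Agent.P161
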