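import Vale.Agent.P161.Crit.Bridge
import Vale.Agent.P161.Crit.Strength

/-!
# A convergent subsequence of strengths

`strength (d - 1) θ t R` is monotone in the time `t` and in the depth `R`.  Hence a diagonal
subsequence of parameters makes its limit in `R` converge at all dyadic times, and monotonicity
turns this into convergence in square mean on bounded time intervals.
-/

open MeasureTheory Finset Real Filter Topology
open scoped Classical

noncomputable section

namespace Vale.Agent.P161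

universe u

variable {V : Type u} {G : SimpleGraph V} {d Q : ℕ} {θ t δ : ℝ}

theorem msgX_zero_time (h0 : 0 ≤ θ) (h1 : θ < 1) :
    ∀ (R : ℕ) (ω : Lbl Q), msgX θ 0 R ω = 0 := by
  have h : leafShift θ 0 = 0 := by
    have := leafShift_neg h0 h1 0
    rw [neg_zero] at this
    linarith
  intro R
  induction R with
  | zero => intro ω; simp [msgX]
  | succ R ih => intro ω; simp [msgX, ih, h]

theorem strength_eq_sq (h0 : 0 ≤ θ) (h1 : θ < 1) (ht : 0 ≤ t) (R : ℕ) :
    strength Q θ t R = ∫ x, tanh x ^ 2 ∂XLaw Q θ t R := by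
  rcases ht.eq_or_lt with rfl | ht'
  · rw [strength, XLaw,
      integral_map (measurable_msgX R).aemeasurable measurable_tanh'.aestronglyMeasurable,
      integral_map (measurable_msgX R).aemeasurable
        (measurable_tanh'.pow_const 2).aestronglyMeasurable]
    simp [msgX_zero_time h0 h1]
  · exact (nish_XLaw h0 h1 ht' R).tanh_sq

theorem strength_mem_unit (h0 : 0 ≤ θ) (h1 : θ < 1) (ht : 0 ≤ t) (R : ℕ) :
    0 ≤ strength Q θ t R ∧ strength Q θ t R ≤ 1 := by
  have hsq : ∀ x : ℝ, tanh x ^ 2 ≤ 1 := fun x => by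
    rw [← sq_abs]; exact pow_le_one₀ (abs_nonneg _) (abs_tanh_le x)
  rw [strength_eq_sq h0 h1 ht R]
  refine ⟨integral_nonneg fun x => sq_nonneg _, ?_⟩
  calc ∫ x, tanh x ^ 2 ∂XLaw Q θ t R ≤ ∫ _x, (1 : ℝ) ∂XLaw Q θ t R :=
        integral_mono (Integrable.of_bound (measurable_tanh'.pow_const 2).aestronglyMeasurable 1
          (ae_of_all _ fun x => by
            rw [Real.norm_eq_abs, abs_of_nonneg (sq_nonneg _)]; exact hsq x))
          (integrable_const 1) hsq
    _ = 1 := by simp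

/-- The strength is the mean squared magnetization at the root of a complete branch. -/
theorem strength_eq_qv (hT : RTree G d) (h0 : 0 ≤ θ) (h1 : θ < 1) (hδ : 0 ≤ δ) {a b : V}
    (hab : G.Adj a b) (k R : ℕ) :
    strength (d - 1) θ (k * δ) R = qv G θ (branch G (ball G b R) a b) δ k b := by
  set D := branch G (ball G b R) a b with hD
  have hDD : branch G D a b = D := by
    rw [hD]
    ext u
    simp [branch]
  have hC : Conn G D := conn_branch hT (conn_ball hT b R) hab (self_mem_ball hT b R)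
  have e1 : ∀ {y : ℝ}, |y| ≤ 1 → min (y ^ 2) 1 = y ^ 2 := fun {y} hy =>
    min_eq_left (by rw [← sq_abs]; exact pow_le_one₀ (abs_nonneg _) hy)
  have hbr := bridge_msg hT h0 h1 hδ hC hab (r := R) hDD k (f := fun x => min (x ^ 2) 1)
    (by fun_prop) (fun x => by simp) (B := 1) (fun x => by
      rw [abs_of_nonneg (le_min (sq_nonneg x) zero_le_one)]; exact min_le_right _ _)
  simp only [mu, hDD, e1 (abs_mag_le h0 h1 _ _ _), e1 (abs_tanh_le _)] at hbr
  rw [strength_eq_sq h0 h1 (mul_nonneg (Nat.cast_nonneg k) hδ) R, ← hbr]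
  rfl

theorem strength_mono (hT : RTree G d) (h0 : 0 ≤ θ) (h1 : θ < 1) (hδ : 0 ≤ δ) {k k' R R' : ℕ}
    (hk : k ≤ k') (hR : R ≤ R') :
    strength (d - 1) θ (k * δ) R ≤ strength (d - 1) θ (k' * δ) R' := by
  obtain ⟨b⟩ := hT.conn.nonempty
  obtain ⟨a, ha⟩ := Finset.card_pos.1 (by rw [card_nbr hT b]; have := hT.three; omega :
    0 < (nbr G b).card)
  have hab : G.Adj a b := ((mem_nbr hT).1 ha).symm
  rw [strength_eq_qv hT h0 h1 hδ hab k R, strength_eq_qv hT h0 h1 hδ hab k' R']
  exact qv_mono hT h0 h1 hδ (conn_branch hT (conn_ball hT b R) hab (self_mem_ball hT b R))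
    (conn_branch hT (conn_ball hT b R') hab (self_mem_ball hT b R'))
    (Finset.filter_subset_filter _ (ball_mono hT b hR)) hk
    (self_mem_branch hT hab (self_mem_ball hT b R))

/-- Two monotone functions with values in `[0, 1]` that are close on a coarse grid are close in
square mean. -/
theorem sum_sq_sub_le_of_grid {A A' : ℕ → ℝ} (hA : Monotone A) (hA' : Monotone A')
    (hr : ∀ k, 0 ≤ A k ∧ A k ≤ 1) (hr' : ∀ k, 0 ≤ A' k ∧ A' k ≤ 1) (hδ : 0 ≤ δ) {e : ℝ} (n : ℕ)
    (M : ℕ) (hg : ∀ l, l ≤ M → |A (l * n) - A' (l * n)| ≤ e) :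
    ∑ k ∈ range (M * n), δ * (A k - A' k) ^ 2 ≤ n * δ * (M * e + 2) := by
  suffices h : ∑ k ∈ range (M * n), δ * (A k - A' k) ^ 2 ≤
      n * δ * (M * e + (A (M * n) - A 0) + (A' (M * n) - A' 0)) by
    refine h.trans (mul_le_mul_of_nonneg_left ?_ (mul_nonneg (Nat.cast_nonneg n) hδ))
    linarith [(hr (M * n)).2, (hr' (M * n)).2, (hr 0).1, (hr' 0).1]
  induction M with
  | zero => simp
  | succ M ih =>
    have h := ih fun l hl => hg l (hl.trans M.le_succ)
    have g0 := abs_le.1 (hg M M.le_succ)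
    have g1 := abs_le.1 (hg (M + 1) le_rfl)
    have hle : M * n ≤ (M + 1) * n := Nat.mul_le_mul_right n M.le_succ
    have dA := sub_nonneg.2 (hA hle)
    have dA' := sub_nonneg.2 (hA' hle)
    have hterm : ∀ i ∈ range n, δ * (A (M * n + i) - A' (M * n + i)) ^ 2 ≤
        δ * (e + (A ((M + 1) * n) - A (M * n)) + (A' ((M + 1) * n) - A' (M * n))) := by
      intro i hi
      have hin := Finset.mem_range.1 hi
      have l1 : M * n ≤ M * n + i := Nat.le_add_right _ _
      have l2 : M * n + i ≤ (M + 1) * n := by rw [Nat.add_mul, one_mul]; omega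
      refine mul_le_mul_of_nonneg_left ?_ hδ
      obtain ⟨a0, a1⟩ := hr (M * n + i)
      obtain ⟨b0, b1⟩ := hr' (M * n + i)
      calc (A (M * n + i) - A' (M * n + i)) ^ 2
          = |A (M * n + i) - A' (M * n + i)| ^ 2 := (sq_abs _).symm
        _ ≤ |A (M * n + i) - A' (M * n + i)| ^ 1 :=
            pow_le_pow_of_le_one (abs_nonneg _) (abs_le.2 ⟨by linarith, by linarith⟩) (by omega)
        _ = |A (M * n + i) - A' (M * n + i)| := pow_one _
        _ ≤ _ := abs_le.2 ⟨by linarith [hA l1, hA' l2], by linarith [hA l2, hA' l1]⟩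
    have hs := Finset.sum_le_sum hterm
    rw [Finset.sum_const, Finset.card_range, nsmul_eq_mul] at hs
    rw [show range ((M + 1) * n) = range (M * n + n) by rw [Nat.add_mul, one_mul],
      Finset.sum_range_add]
    refine (add_le_add h hs).trans (le_of_eq ?_)
    push_cast
    ring

/-- Along a subsequence of the parameters the strengths converge in square mean. -/
theorem exists_strength_limit (hT : RTree G d) (θs : ℕ → ℝ) (hθ : ∀ i, 0 ≤ θs i ∧ θs i < 1) :
    ∃ φ : ℕ → ℕ, StrictMono φ ∧ ∀ (T : ℕ) (ε : ℝ), 0 < ε → ∃ i0, ∀ i i', i0 ≤ i → i0 ≤ i' →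
      ∀ᶠ R in atTop, ∀ᶠ j in atTop, ∑ k ∈ range (steps T j),
        dt j * (strength (d - 1) (θs (φ i)) (k * dt j) R -
          strength (d - 1) (θs (φ i')) (k * dt j) R) ^ 2 ≤ ε := by
  set A : ℕ → ℕ × ℕ → ℕ → ℝ := fun i p R => strength (d - 1) (θs i) (p.2 * dt p.1) R with hAdef
  set S : ℕ → ℕ × ℕ → ℝ := fun i p => ⨆ R, A i p R with hSdef
  have hA01 : ∀ i p R, 0 ≤ A i p R ∧ A i p R ≤ 1 := fun i p R =>
    strength_mem_unit (hθ i).1 (hθ i).2 (mul_nonneg (Nat.cast_nonneg _) (dt_pos _).le) R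
  have hbdd : ∀ i p, BddAbove (Set.range (A i p)) := fun i p =>
    ⟨1, Set.forall_mem_range.2 fun R => (hA01 i p R).2⟩
  have hlimR : ∀ i p, Tendsto (A i p) atTop (𝓝 (S i p)) := fun i p =>
    tendsto_atTop_ciSup (fun R R' h => strength_mono hT (hθ i).1 (hθ i).2 (dt_pos _).le le_rfl h)
      (hbdd i p)
  have hS01 : ∀ i, S i ∈ Set.pi Set.univ fun _ : ℕ × ℕ => Set.Icc (0 : ℝ) 1 := fun i p _ =>
    ⟨(hA01 i p 0).1.trans (le_ciSup (hbdd i p) 0), ciSup_le fun R => (hA01 i p R).2⟩
  obtain ⟨a, -, φ, hφ, hlim⟩ :=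
    (isCompact_univ_pi fun _ : ℕ × ℕ => isCompact_Icc).tendsto_subseq hS01
  refine ⟨φ, hφ, fun T ε hε => ?_⟩
  have hdt : Tendsto dt atTop (𝓝 0) :=
    tendsto_pow_atTop_nhds_zero_of_lt_one (by norm_num) (by norm_num)
  obtain ⟨m, hm⟩ := (hdt.eventually_le_const (show 0 < ε / 4 by linarith)).exists
  set e : ℝ := ε / (4 * (T + 1)) with he
  have hepos : 0 < e := by positivity
  set M := steps T m with hMdef
  have hev : ∀ᶠ i in atTop, ∀ l ∈ range (M + 1), |S (φ i) (m, l) - a (m, l)| ≤ e / 4 := by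
    rw [Filter.eventually_all_finset]
    intro l _
    have := Metric.tendsto_nhds.1 (tendsto_pi_nhds.1 hlim (m, l)) (e / 4) (by linarith)
    exact this.mono fun i hi => (show |S (φ i) (m, l) - a (m, l)| < e / 4 from hi).le
  obtain ⟨i0, hi0⟩ := eventually_atTop.1 hev
  refine ⟨i0, fun i i' hi hi' => ?_⟩
  have hR : ∀ i, ∀ᶠ R in atTop, ∀ l ∈ range (M + 1), |A i (m, l) R - S i (m, l)| ≤ e / 4 := by
    intro i
    rw [Filter.eventually_all_finset]
    intro l _
    have := Metric.tendsto_nhds.1 (hlimR i (m, l)) (e / 4) (by linarith)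
    exact this.mono fun R hR => (show |A i (m, l) R - S i (m, l)| < e / 4 from hR).le
  filter_upwards [hR (φ i), hR (φ i')] with R hR1 hR2
  filter_upwards [eventually_ge_atTop m] with j hj
  obtain ⟨q, rfl⟩ := Nat.exists_eq_add_of_le hj
  have hn : ((2 ^ q : ℕ) : ℝ) * dt (m + q) = dt m := by
    simp only [dt, pow_add, Nat.cast_pow, Nat.cast_ofNat]
    rw [← mul_assoc, mul_comm ((2 : ℝ) ^ q), mul_assoc, ← mul_pow]
    norm_num
  have hsteps : steps T (m + q) = M * 2 ^ q := by
    simp only [hMdef, steps, pow_add, mul_assoc]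
  rw [hsteps]
  refine le_trans (sum_sq_sub_le_of_grid (e := e)
    (A := fun k : ℕ => strength (d - 1) (θs (φ i)) (k * dt (m + q)) R)
    (A' := fun k : ℕ => strength (d - 1) (θs (φ i')) (k * dt (m + q)) R)
    (fun k k' h => strength_mono hT (hθ _).1 (hθ _).2 (dt_pos _).le h le_rfl)
    (fun k k' h => strength_mono hT (hθ _).1 (hθ _).2 (dt_pos _).le h le_rfl)
    (fun k => strength_mem_unit (hθ _).1 (hθ _).2
      (mul_nonneg (Nat.cast_nonneg _) (dt_pos _).le) R)
    (fun k => strength_mem_unit (hθ _).1 (hθ _).2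
      (mul_nonneg (Nat.cast_nonneg _) (dt_pos _).le) R)
    (dt_pos _).le (2 ^ q) M fun l hl => ?_) ?_
  · have ht : ((l * 2 ^ q : ℕ) : ℝ) * dt (m + q) = l * dt m := by
      rw [Nat.cast_mul, mul_assoc, hn]
    simp only [ht]
    have hl' : l ∈ range (M + 1) := Finset.mem_range.2 (Nat.lt_succ_of_le hl)
    have b1 := abs_le.1 (hR1 l hl')
    have b2 := abs_le.1 (hR2 l hl')
    have c1 := abs_le.1 (hi0 i hi l hl')
    have c2 := abs_le.1 (hi0 i' hi' l hl')
    simp only [hAdef] at b1 b2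
    rw [abs_le]
    constructor <;> linarith
  · rw [hn]
    have hT1 : (M : ℝ) * dt m = T := steps_mul_dt T m
    have hTe : (T : ℝ) * e ≤ ε / 4 := by
      rw [he, ← mul_div_assoc, div_le_div_iff₀ (by positivity) (by norm_num)]
      nlinarith
    calc dt m * ((M : ℝ) * e + 2) = ((M : ℝ) * dt m) * e + 2 * dt m := by ring
      _ ≤ ε := by rw [hT1]; linarith

end Vale.Agent.P161
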