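import Vale.Agent.P161.Crit.Rates
import Vale.Agent.P161.Crit.Recenter
import Vale.Agent.P161.Crit.StrengthLim
import Vale.Agent.P161.Crit.Limit

/-!
# Stability at the critical point
-/

open MeasureTheory Finset Real Filter Topology
open scoped Classical

noncomputable section

namespace Vale.Agent.P161

universe u

variable {V : Type u} {G : SimpleGraph V} {d : ℕ} {θ θ' η : ℝ} {R M T j k : ℕ}

theorem chain {F x y : ℕ → ℝ} {b a : ℕ} (hba : b ≤ a) (hF : ∀ i, 0 ≤ F i) (hx : ∀ i, 0 ≤ x i)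
    (hy : ∀ i, 0 ≤ y i) (h : ∀ i, b ≤ i → i < a → F i ≤ exp (x i) * (F (i + 1) + y i)) :
    F b ≤ exp (∑ i ∈ Finset.Ico b a, x i) * (F a + ∑ i ∈ Finset.Ico b a, y i) := by
  induction a, hba using Nat.le_induction with
  | base => simp
  | succ a hba ih =>
    refine (ih fun i h1 h2 => h i h1 (Nat.lt_succ_of_lt h2)).trans ?_
    have h2 := h a hba (Nat.lt_succ_self a)
    rw [Finset.sum_Ico_succ_top hba, Finset.sum_Ico_succ_top hba, Real.exp_add, mul_assoc]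
    refine mul_le_mul_of_nonneg_left ?_ (exp_pos _).le
    have h3 := mul_le_mul_of_nonneg_right (Real.one_le_exp (hx a))
      (Finset.sum_nonneg fun i (_ : i ∈ Finset.Ico b a) => hy i)
    linarith

theorem half_geom_sum (S : Finset ℕ) : ∑ i ∈ S, (1 / 2 : ℝ) ^ i ≤ 2 := by
  refine (summable_geometric_two.sum_le_tsum S fun i _ => by positivity).trans ?_
  rw [tsum_geometric_two]

theorem sqrt_half_pow (n : ℕ) : √((1 / 2 : ℝ) ^ (2 * n)) = (1 / 2) ^ n := by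
  rw [Nat.mul_comm, pow_mul]; exact Real.sqrt_sq (by positivity)

theorem half_two_pow (n : ℕ) : (1 / 2 : ℝ) ^ n * 2 ^ n = 1 := by
  rw [← mul_pow]; norm_num

/-- The step at which the time is `(1/2) ^ (16 i)`. -/
def idx (j i : ℕ) : ℕ := 2 ^ (j - 16 * i)

theorem idx_time {j i : ℕ} (h : 16 * i ≤ j) : (idx j i : ℝ) * dt j = (1 / 2) ^ (16 * i) := by
  simp only [idx, dt]
  push_cast
  obtain ⟨e, rfl⟩ := Nat.exists_eq_add_of_le h
  rw [Nat.add_sub_cancel_left, pow_add (1 / 2 : ℝ), mul_left_comm, mul_comm ((2 : ℝ) ^ e),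
    half_two_pow, mul_one]

theorem idx_le {j i : ℕ} : idx j (i + 1) ≤ idx j i :=
  Nat.pow_le_pow_right (by norm_num) (by omega)

theorem idx_zero (j : ℕ) : idx j 0 = steps 1 j := by simp [idx, steps]

/-- What is assumed about a pair of parameters, a volume and a level. -/
structure Setting (G : SimpleGraph V) (d : ℕ) (o : V) (θ θ' : ℝ) (R M T j L a : ℕ)
    (η φ ω ε : ℝ) : Prop where
  lev : 16 * a ≤ j
  hT1 : 1 ≤ T
  nearl : ∀ k, k ≤ steps T j → Near G d θ R M T j k η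
  nearr : ∀ k, k ≤ steps T j → Near G d θ' R M T j k η
  depth : M + L < R
  far : ∀ k, ∑ w ∈ ball G o R \ ball G o M, ∫ z, dC G θ θ' R j k o w z ^ 2 ∂gN (ℕ × V) ≤ φ
  str : ∑ k ∈ range (steps T j), dt j * (strength (d - 1) θ (k * dt j) R -
      strength (d - 1) θ' (k * dt j) R) ^ 2 ≤ ε
  stepErr : ∀ k, k < steps T j → gap G θ θ' R j (k + 1) o ≤
      gap G θ θ' R j k o + dt j * (Phi G θ θ' R j k o + ω)
  om : 0 ≤ ω

/-- Gronwall on one stretch of time. -/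
theorem phase {o : V} {L a : ℕ} {φ ω ε : ℝ} (hS : Setting G d o θ θ' R M T j L a η φ ω ε)
    {m n : ℕ} (hmn : m ≤ n) (hn : n ≤ steps T j) {c β α : ℝ} (hc : 0 ≤ c) (hβ : 0 ≤ β) (hα : 0 ≤ α)
    (h : ∀ k, m ≤ k → k < n → Phi G θ θ' R j k o ≤ c * gap G θ θ' R j k o + β +
      α * (strength (d - 1) θ (k * dt j) R - strength (d - 1) θ' (k * dt j) R) ^ 2) :
    gap G θ θ' R j n o ≤ exp (((n : ℝ) * dt j - m * dt j) * c) *
      (gap G θ θ' R j m o + (((n : ℝ) * dt j - m * dt j) * (β + ω) + α * ε)) := by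
  set S := fun k : ℕ => (strength (d - 1) θ (k * dt j) R - strength (d - 1) θ' (k * dt j) R) ^ 2
    with hSdef
  have hω := hS.om
  have hg := gronwall (g := fun k => gap G θ θ' R j k o) (c := fun _ => c)
    (b := fun k => β + ω + α * S k) (dt_pos j).le hmn (fun _ => hc)
    (fun k => add_nonneg (add_nonneg hβ hω) (mul_nonneg hα (sq_nonneg _)))
    (fun k => gap_nonneg θ θ' R j k o) fun k h1 h2 => by
      refine (hS.stepErr k (by omega)).trans (add_le_add le_rfl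
        (mul_le_mul_of_nonneg_left ?_ (dt_pos j).le))
      have := h k h1 h2
      simp only [hSdef]
      linarith
  refine hg.trans ?_
  have e1 : ∀ x : ℝ, ∑ _k ∈ Finset.Ico m n, dt j * x = ((n : ℝ) * dt j - m * dt j) * x := fun x => by
    rw [Finset.sum_const, Nat.card_Ico, nsmul_eq_mul, Nat.cast_sub hmn]; ring
  rw [e1]
  refine mul_le_mul_of_nonneg_left (add_le_add le_rfl ?_) (exp_pos _).le
  simp only [mul_add (dt j) (β + ω)]
  rw [Finset.sum_add_distrib, e1]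
  refine add_le_add le_rfl ?_
  rw [Finset.sum_congr rfl fun k _ => (mul_left_comm (dt j) α (S k)), ← Finset.mul_sum]
  refine mul_le_mul_of_nonneg_left ?_ hα
  refine (Finset.sum_le_sum_of_subset_of_nonneg (fun k hk => ?_) fun k _ _ =>
    mul_nonneg (dt_pos j).le (sq_nonneg _)).trans hS.str
  rw [Finset.mem_Ico] at hk
  exact Finset.mem_range.2 (by omega)

/-- The gap at a small time. -/
theorem gap_start (hT : RTree G d) (hN : Near G d θ R M T j k η) (hN' : Near G d θ' R M T j k η)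
    {t : ℝ} (ht : (k : ℝ) * dt j = t) (h0 : 0 < t) (h1 : t ≤ 1) (o : V) :
    gap G θ θ' R j k o ≤ 512 * (2 * ((d - 1 : ℕ) : ℝ) * √t + η) := by
  have hQ := Q_two hT
  have hm : ∀ θ₀, Near G d θ₀ R M T j k η →
      Mom (d - 1) θ₀ ((k : ℝ) * dt j) 2 (2 * ((d - 1 : ℕ) : ℝ) * √t) := fun θ₀ h => by
    refine ⟨by positivity, fun r => ?_⟩
    simp only [sq_abs]
    rw [ht, ← (nish_XLaw h.nn (h.lt1 hT) h0 r).tanh_sq]
    have := strength_le h.nn (h.lt1 hT) hQ h.crit h0 r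
    rwa [min_eq_left h1] at this
  have e1 := moment_mc hT hN (hm θ hN) o
  have e2 := moment_mc hT hN' (hm θ' hN') o
  have hi : ∀ θ₀, Near G d θ₀ R M T j k η →
      Integrable (fun z => |mc G θ₀ R j k o z| ^ 2) (gN (ℕ × V)) := fun θ₀ h =>
    integrable_of_bdd ((measurable_mc R j k o).abs.pow_const 2) (B := 1) fun z => by
      rw [abs_pow, abs_abs]; exact pow_le_one₀ (abs_nonneg _) (abs_mc_le h.nn (h.lt1 hT) R j k o z)
  have hpt : ∀ z, (mc G θ R j k o z - mc G θ' R j k o z) ^ 2 ≤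
      2 * (|mc G θ R j k o z| ^ 2 + |mc G θ' R j k o z| ^ 2) := fun z => by
    simp only [sq_abs]; nlinarith [sq_nonneg (mc G θ R j k o z + mc G θ' R j k o z)]
  refine (integral_mono (integrable_of_bdd
    (((measurable_mc R j k o).sub (measurable_mc R j k o)).pow_const 2) (B := 4) fun z => ?_)
    (((hi θ hN).add (hi θ' hN')).const_mul 2) hpt).trans ?_
  · have := sq_diff_le_four (abs_mc_le (G := G) hN.nn (hN.lt1 hT) R j k o z)
      (abs_mc_le (G := G) hN'.nn (hN'.lt1 hT) R j k o z)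
    simp only [Pi.sub_apply]
    rw [abs_of_nonneg this.1]; exact this.2
  · rw [integral_const_mul, integral_add' (hi θ hN) (hi θ' hN')]
    linarith

theorem final_bound {T K K2 Cp Q A20 SA SB ξ X ha hb M₀ δ₀ γ0 b Fa Fb F0 gT S1 S2 Y1 Y2 : ℝ}
    (hT : 1 ≤ T) (hK : 0 ≤ K) (hK2 : 0 ≤ K2) (hCp : 0 ≤ Cp) (hQ : 0 ≤ Q) (hA20 : 0 ≤ A20)
    (hSA : 0 ≤ SA) (hSB : 0 ≤ SB) (hξ : 0 ≤ ξ) (hX : 0 ≤ X) (hha : 0 ≤ ha) (hhb : 0 ≤ hb)
    (gFa : 0 ≤ Fa) (gFb : 0 ≤ Fb) (gF0 : 0 ≤ F0) (hM : 1 ≤ M₀) (hb2 : b = M₀ ^ 2)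
    (hδ : 0 < δ₀) (hγ0 : γ0 = δ₀ * (1 / 2) ^ 8)
    (h1 : Fb ≤ exp S1 * (Fa + Y1)) (h2 : F0 ≤ exp S2 * (Fb + Y2))
    (h3 : gT ≤ exp ((T - 1) * (K2 * (1 / γ0 ^ 2 + M₀ ^ 2))) * (F0 + (T - 1) * (K2 * X + (A20 + 1) * ξ)))
    (hs : Fa ≤ 1024 * Q * ha + 512 * ξ) (hy1 : Y1 ≤ 2 * Cp * hb + 2 * ξ + 2 * SA * ξ)
    (hy2 : Y2 ≤ 2 * (K2 * X + (SB + 1) * ξ)) (hx1 : S1 ≤ 2 * K)
    (hx2 : S2 ≤ b * (K2 * (2 ^ 16 / δ₀ ^ 2)) + 2 * (K2 * M₀ ^ 2)) :
    gT ≤ exp ((K2 * (2 ^ 16 / δ₀ ^ 2 + 1) * 2 + 2 * K) * (T + 3) * M₀ ^ 2) *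
      ((1024 * Q + 2 * Cp + K2) * (T + 3) * (ha + hb + X) +
        ((512 + 4 * SA + 4) + (T + 3) * (SB + A20 + 1)) * ξ) := by
  set e := 2 ^ 16 / δ₀ ^ 2 with he
  have he0 : 0 ≤ e := by positivity
  have hγe : 1 / γ0 ^ 2 = e := by rw [hγ0, he]; field_simp
  rw [hγe] at h3
  set E1 := exp (2 * K) with hE1
  set E2 := exp (b * (K2 * e) + 2 * (K2 * M₀ ^ 2)) with hE2
  set E3 := exp ((T - 1) * (K2 * (e + M₀ ^ 2))) with hE3
  have hb0 : 0 ≤ b := hb2 ▸ sq_nonneg M₀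
  set U1 := 1024 * Q * ha + 512 * ξ + (2 * Cp * hb + 2 * ξ + 2 * SA * ξ) with hU1
  set U2 := 2 * (K2 * X + (SB + 1) * ξ) with hU2
  set U3 := (T - 1) * (K2 * X + (A20 + 1) * ξ) with hU3
  have hT0 : 0 ≤ T - 1 := by linarith
  have one1 : 1 ≤ E1 := Real.one_le_exp (by positivity)
  have one2 : 1 ≤ E2 := Real.one_le_exp (by positivity)
  have u2 : 0 ≤ U2 := by simp only [hU2]; positivity
  have u1 : 0 ≤ U1 := by simp only [hU1]; positivity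
  have u3 : 0 ≤ U3 := by simp only [hU3]; positivity
  have b1 : Fb ≤ E1 * U1 := by
    refine h1.trans ?_
    refine (mul_le_mul_of_nonneg_left (add_le_add hs hy1) (exp_pos _).le).trans ?_
    exact mul_le_mul_of_nonneg_right (Real.exp_le_exp.2 hx1) u1
  have b2 : F0 ≤ E2 * (E1 * (U1 + U2)) := by
    refine h2.trans ((mul_le_mul_of_nonneg_left (add_le_add b1 hy2) (exp_pos _).le).trans ?_)
    refine mul_le_mul (Real.exp_le_exp.2 hx2) ?_ ?_ (exp_pos _).le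
    · linarith [le_mul_of_one_le_left u2 one1]
    · positivity
  have b3 : gT ≤ E3 * (E2 * (E1 * (U1 + U2 + U3))) := by
    refine h3.trans (mul_le_mul_of_nonneg_left ?_ (exp_pos _).le)
    have a1 := le_mul_of_one_le_left u3 one1
    have a2 := le_mul_of_one_le_left (by positivity : 0 ≤ E1 * U3) one2
    linarith
  refine b3.trans ?_
  rw [← mul_assoc, ← mul_assoc, hE3, hE2, hE1, ← Real.exp_add, ← Real.exp_add]
  refine mul_le_mul (Real.exp_le_exp.2 ?_) ?_ (by positivity) (exp_pos _).le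
  · rw [hb2]
    have hM2 : 1 ≤ M₀ ^ 2 := one_le_pow₀ hM
    have a1 : 2 * K ≤ 2 * K * (T + 3) * M₀ ^ 2 := by
      rw [mul_assoc]
      exact le_mul_of_one_le_right (by positivity)
        (one_le_mul_of_one_le_of_one_le (by linarith) hM2)
    have a2 : (T - 1) * (K2 * e) ≤ (T - 1) * (K2 * e) * M₀ ^ 2 :=
      le_mul_of_one_le_right (by positivity) hM2
    have p1 : 0 ≤ K2 * (M₀ ^ 2) * (T + 3) := by positivity
    have p2 : 0 ≤ K2 * e * M₀ ^ 2 * (T + 3) := by positivity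
    have p3 : 0 ≤ K2 * M₀ ^ 2 := by positivity
    have p4 : 0 ≤ K2 * e * M₀ ^ 2 := by positivity
    linarith
  · have q1 : 0 ≤ Q * (ha + hb + X) := by positivity
    have q2 : 0 ≤ Cp * (ha + hb + X) := by positivity
    have q3 : 0 ≤ K2 * (ha + hb) := by positivity
    have q4 : 0 ≤ Q * (T + 2) * (ha + hb + X) := by positivity
    have q5 : 0 ≤ Cp * (T + 2) * (ha + hb + X) := by positivity
    have q6 : 0 ≤ K2 * (T + 2) * (ha + hb) := by positivity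
    have q7 : 0 ≤ Q * (hb + X) := by positivity
    have q8 : 0 ≤ Cp * (ha + X) := by positivity
    have q9 : 0 ≤ K2 * X := by positivity
    have r1 : 0 ≤ ξ * SA := by positivity
    have r2 : 0 ≤ ξ * A20 := by positivity
    have r3 : 0 ≤ ξ * T * SB := by positivity
    have r4 : 0 ≤ ξ * SB := by positivity
    have r5 : 0 ≤ ξ * T := by positivity
    simp only [hU1, hU2, hU3]
    linarith

theorem eta_weight {K2 W η M4 N3 : ℝ} (hK2 : 0 ≤ K2) (hW : 0 ≤ W) (hη : 0 ≤ η) (hN : 0 ≤ N3)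
    (hM : 1 ≤ M4) : K2 * (N3 + M4) * η ≤ (W + K2 * (N3 + 1)) * (M4 * η) := by
  have h1 : N3 * η ≤ N3 * (M4 * η) := mul_le_mul_of_nonneg_left (le_mul_of_one_le_left hη hM) hN
  have h2 := mul_le_mul_of_nonneg_left h1 hK2
  have h3 : 0 ≤ W * (M4 * η) := mul_nonneg hW (mul_nonneg (by linarith) hη)
  linarith

theorem assemble {T K K2 Cp Q ξ X δ₀ gT : ℝ} {A A2 F : ℕ → ℝ} {M₀ a p : ℕ} (hT : 1 ≤ T)
    (hK : 0 ≤ K) (hK2 : 0 ≤ K2) (hCp : 0 ≤ Cp) (hQ : 0 ≤ Q) (hA : ∀ i, 0 ≤ A i)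
    (hA2 : ∀ i, 0 ≤ A2 i) (hξ : 0 ≤ ξ) (hX : 0 ≤ X) (hba : (M₀ + 1) ^ 2 ≤ a) (hδ : 0 < δ₀)
    (hF : ∀ i, 0 ≤ F i) (hgT : 0 ≤ gT)
    (small : ∀ i, i < a → F i ≤ exp (K * (1 / 2) ^ i) * (F (i + 1) +
      (Cp * (1 / 2) ^ (p * i) * (1 / 2) ^ i + (1 / 2) ^ i * ξ + 2 * A i * ξ)))
    (large : ∀ i, i < a → F i ≤
      exp (K2 * (2 ^ 16 / δ₀ ^ 2) + (1 / 2) ^ i * (K2 * ((M₀ : ℝ) + 1) ^ 2)) *
        (F (i + 1) + (1 / 2) ^ i * (K2 * X + ((∑ l ∈ range a, A2 l) + 1) * ξ)))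
    (h3 : gT ≤ exp ((T - 1) * (K2 * (1 / (δ₀ * (1 / 2) ^ (8 * (0 + 1))) ^ 2 + ((M₀ : ℝ) + 1) ^ 2))) *
      (F 0 + (T - 1) * (K2 * X + (A2 0 + 1) * ξ)))
    (hs : F a ≤ 1024 * Q * (1 / 2) ^ (8 * a) + 512 * ξ) :
    gT ≤ exp ((K2 * (2 ^ 16 / δ₀ ^ 2 + 1) * 2 + 2 * K) * (T + 3) * ((M₀ : ℝ) + 1) ^ 2) *
      ((1024 * Q + 2 * Cp + K2) * (T + 3) *
          ((1 / 2) ^ (8 * a) + (1 / 2) ^ (p * (M₀ + 1) ^ 2) + X) +
        ((512 + 4 * (∑ l ∈ range a, A l) + 4) + (T + 3) * ((∑ l ∈ range a, A2 l) + A2 0 + 1)) * ξ) := by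
  set b := (M₀ + 1) ^ 2 with hb
  have c1 := chain hba hF (x := fun i => K * (1 / 2) ^ i)
    (y := fun i => Cp * (1 / 2) ^ (p * i) * (1 / 2) ^ i + (1 / 2) ^ i * ξ + 2 * A i * ξ)
    (fun i => by positivity) (fun i => by have := hA i; positivity) fun i _ hi => small i hi
  have hSB : 0 ≤ ∑ l ∈ range a, A2 l := Finset.sum_nonneg fun i _ => hA2 i
  have c2 := chain (Nat.zero_le b) hF
    (x := fun i => K2 * (2 ^ 16 / δ₀ ^ 2) + (1 / 2) ^ i * (K2 * ((M₀ : ℝ) + 1) ^ 2))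
    (y := fun i => (1 / 2) ^ i * (K2 * X + ((∑ l ∈ range a, A2 l) + 1) * ξ))
    (fun i => by positivity) (fun i => by positivity) fun i _ hi => large i (lt_of_lt_of_le hi hba)
  refine final_bound (b := (b : ℝ)) hT hK hK2 hCp hQ (hA2 0) (Finset.sum_nonneg fun i _ => hA i) hSB
    hξ hX (by positivity) (by positivity) (hF a) (hF b) (hF 0)
    (by linarith [Nat.cast_nonneg (α := ℝ) M₀]) (by rw [hb]; push_cast; rfl) hδ (by norm_num)
    c1 c2 h3 hs ?_ ?_ ?_ ?_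
  · rw [Finset.sum_add_distrib, Finset.sum_add_distrib, ← Finset.sum_mul, ← Finset.sum_mul,
      ← Finset.mul_sum]
    refine add_le_add (add_le_add ?_ (mul_le_mul_of_nonneg_right (half_geom_sum _) hξ)) ?_
    · refine (Finset.sum_le_sum (g := fun i => Cp * (1 / 2) ^ (p * b) * (1 / 2) ^ i) fun i hi =>
        ?_).trans ?_
      · rw [Finset.mem_Ico] at hi
        refine mul_le_mul_of_nonneg_right (mul_le_mul_of_nonneg_left ?_ hCp) (by positivity)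
        exact pow_le_pow_of_le_one (by norm_num) (by norm_num) (Nat.mul_le_mul_left p hi.1)
      · rw [← Finset.mul_sum]
        exact (mul_le_mul_of_nonneg_left (half_geom_sum _) (by positivity)).trans_eq (by ring)
    · refine mul_le_mul_of_nonneg_right (mul_le_mul_of_nonneg_left ?_ two_pos.le) hξ
      exact Finset.sum_le_sum_of_subset_of_nonneg
        (fun i hi => Finset.mem_range.2 (Finset.mem_Ico.1 hi).2) fun i _ _ => hA i
  · rw [← Finset.sum_mul]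
    exact mul_le_mul_of_nonneg_right (half_geom_sum _) (by positivity)
  · rw [← Finset.mul_sum, mul_comm 2 K]
    exact mul_le_mul_of_nonneg_left (half_geom_sum _) hK
  · rw [Finset.sum_add_distrib, Finset.sum_const, Nat.card_Ico, Nat.sub_zero, nsmul_eq_mul,
      ← Finset.sum_mul]
    exact add_le_add le_rfl (mul_le_mul_of_nonneg_right (half_geom_sum _) (by positivity))

/-- The small quantities, collected. -/
def smalls (d : ℕ) (θ θ' η φ ω ε : ℝ) (M : ℕ) : ℝ :=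
  φ + ω + (θ - θ') ^ 2 + (1 / ((d - 1 : ℕ) : ℝ) - θ ^ 2) + (1 / ((d - 1 : ℕ) : ℝ) - θ' ^ 2) + ε +
    ((M : ℝ) + 1) ^ 4 * η

theorem Setting.eta_nn {o : V} {L a : ℕ} {φ ω ε : ℝ} (hS : Setting G d o θ θ' R M T j L a η φ ω ε) :
    0 ≤ η :=
  (hS.nearl 0 (Nat.zero_le _)).eta_nn o

theorem Setting.defect_nn (hT : RTree G d) {o : V} {L a : ℕ} {φ ω ε : ℝ}
    (hS : Setting G d o θ θ' R M T j L a η φ ω ε) :
    0 ≤ 1 / ((d - 1 : ℕ) : ℝ) - θ ^ 2 ∧ 0 ≤ 1 / ((d - 1 : ℕ) : ℝ) - θ' ^ 2 :=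
  ⟨sub_nonneg.2 (sq_le_inv (Q_two hT) (hS.nearl 0 (Nat.zero_le _)).crit),
    sub_nonneg.2 (sq_le_inv (Q_two hT) (hS.nearr 0 (Nat.zero_le _)).crit)⟩

theorem ret_block {δr δ₀ t : ℝ} {Q L a i : ℕ} (hle : δ₀ ≤ δr) (hδ : 0 ≤ δ₀)
    (hL : ∀ θ t : ℝ, 0 ≤ θ → θ < 1 → (1 / 2 : ℝ) ^ (16 * a) ≤ t → (Q : ℝ) * θ ^ 2 ≤ 1 →
      1 / 2 ≤ (Q : ℝ) * θ ^ 2 → (1 - (Q : ℝ) * θ ^ 2) ^ 2 ≤ min t 1 → ∀ R, L ≤ R →
      ∀ (x : ℝ) (n : ℕ),
        ∫ y, rc Q (tanh (x + y)) ∂sumLaw (WLaw Q θ t R) (n + 1) ≤ 1 - δr * √(min t 1))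
    (h0 : 0 ≤ θ) (h1 : θ < 1) (hc : (Q : ℝ) * θ ^ 2 ≤ 1) (hl : 1 / 2 ≤ (Q : ℝ) * θ ^ 2)
    (hcl : (1 - (Q : ℝ) * θ ^ 2) ^ 2 ≤ (1 / 2) ^ (16 * a)) (hia : i < a)
    (ht : (1 / 2 : ℝ) ^ (16 * (i + 1)) ≤ t) :
    Ret Q θ t (1 - δ₀ * (1 / 2) ^ (8 * (i + 1))) L := by
  intro R' hR' x n
  have hpow : (1 / 2 : ℝ) ^ (16 * a) ≤ (1 / 2) ^ (16 * (i + 1)) :=
    pow_le_pow_of_le_one (by norm_num) (by norm_num) (by omega)
  have hmin : (1 / 2 : ℝ) ^ (16 * (i + 1)) ≤ min t 1 :=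
    le_min ht (pow_le_one₀ (by norm_num) (by norm_num))
  refine (hL θ t h0 h1 (hpow.trans ht) hc hl (hcl.trans (hpow.trans hmin)) R' hR' x n).trans ?_
  have : δ₀ * (1 / 2 : ℝ) ^ (8 * (i + 1)) ≤ δr * √(min t 1) := by
    refine mul_le_mul hle ?_ (by positivity) (hδ.trans hle)
    rw [← sqrt_half_pow, ← Nat.mul_assoc]
    exact Real.sqrt_le_sqrt hmin
  linarith

theorem mom_block {Q i q : ℕ} {Cq : ℝ} (hC : 0 ≤ Cq)
    (hmom : ∀ θ t : ℝ, 0 ≤ θ → (Q : ℝ) * θ ^ 2 ≤ 1 → 0 < t → t ≤ 1 → ∀ R,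
      ∫ x, |tanh x| ^ q ∂XLaw Q θ t R ≤ Cq * √√t ^ q)
    (h0 : 0 ≤ θ) (hc : (Q : ℝ) * θ ^ 2 ≤ 1) {t : ℝ} (hpos : 0 < t) (hupp : t ≤ (1 / 2) ^ (16 * i)) :
    Mom Q θ t q (Cq * (1 / 2) ^ (4 * i * q)) := by
  refine ⟨by positivity, fun r => ?_⟩
  refine (hmom θ t h0 hc hpos (hupp.trans (pow_le_one₀ (by norm_num) (by norm_num))) r).trans
    (mul_le_mul_of_nonneg_left ?_ hC)
  rw [pow_mul _ (4 * i) q]
  refine pow_le_pow_left₀ (Real.sqrt_nonneg _) ?_ _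
  refine (Real.sqrt_le_sqrt (Real.sqrt_le_sqrt hupp)).trans (le_of_eq ?_)
  rw [show 16 * i = 2 * (2 * (4 * i)) by ring, sqrt_half_pow, sqrt_half_pow]

theorem small_block (hT : RTree G d) {o : V} {L a i p : ℕ} {φ ω ε : ℝ}
    (hS : Setting G d o θ θ' R M T j L a η φ ω ε) (hi : i < a) (hφ : 0 ≤ φ) (hε : 0 ≤ ε)
    {K Cp A : ℝ} (hK : 0 ≤ K) (hCp : 0 ≤ Cp) (hA : 0 ≤ A)
    (hrate : ∀ k, idx j (i + 1) ≤ k → k < idx j i →
      Phi G θ θ' R j k o ≤ K * 2 ^ (14 * i) * gap G θ θ' R j k o + Cp * (1 / 2) ^ (p * i) + φ +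
        A * ((θ - θ') ^ 2 + (1 / ((d - 1 : ℕ) : ℝ) - θ ^ 2) + (1 / ((d - 1 : ℕ) : ℝ) - θ' ^ 2) +
          (strength (d - 1) θ (k * dt j) R - strength (d - 1) θ' (k * dt j) R) ^ 2) +
        A * ((M : ℝ) + 1) ^ 4 * η) :
    gap G θ θ' R j (idx j i) o ≤ exp (K * (1 / 2) ^ i) * (gap G θ θ' R j (idx j (i + 1)) o +
      (Cp * (1 / 2) ^ (p * i) * (1 / 2) ^ i + (1 / 2) ^ i * smalls d θ θ' η φ ω ε M +
        2 * A * smalls d θ θ' η φ ω ε M)) := by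
  have hlev := hS.lev
  have hω := hS.om
  have hη := hS.eta_nn
  obtain ⟨d1', d2'⟩ := hS.defect_nn hT
  have hn : idx j i ≤ steps T j := by
    refine le_trans ?_ (steps_mono hS.hT1 j)
    rw [← idx_zero]
    exact Nat.pow_le_pow_right (by norm_num) (by omega)
  have t1 := idx_time (j := j) (i := i) (by omega)
  have t2 := idx_time (j := j) (i := i + 1) (by omega)
  set E := (θ - θ') ^ 2 + (1 / ((d - 1 : ℕ) : ℝ) - θ ^ 2) + (1 / ((d - 1 : ℕ) : ℝ) - θ' ^ 2) +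
    ((M : ℝ) + 1) ^ 4 * η with hE
  have hE0 : 0 ≤ E := by simp only [hE]; positivity
  have hph := phase hS idx_le hn (c := K * 2 ^ (14 * i))
    (β := Cp * (1 / 2) ^ (p * i) + φ + A * E) (α := A)
    (by positivity) (by positivity) hA fun k hk1 hk2 =>
      (hrate k hk1 hk2).trans (le_of_eq (by simp only [hE]; ring))
  rw [t1, t2] at hph
  have hdur : (1 / 2 : ℝ) ^ (16 * i) - (1 / 2) ^ (16 * (i + 1)) ≤ (1 / 2) ^ (16 * i) :=
    sub_le_self _ (by positivity)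
  have hdur0 : 0 ≤ (1 / 2 : ℝ) ^ (16 * i) - (1 / 2) ^ (16 * (i + 1)) :=
    sub_nonneg.2 (pow_le_pow_of_le_one (by norm_num) (by norm_num) (by omega))
  have hd16 : (1 / 2 : ℝ) ^ (16 * i) ≤ (1 / 2) ^ i :=
    pow_le_pow_of_le_one (by norm_num) (by norm_num) (by omega)
  have hd1 : (1 / 2 : ℝ) ^ (16 * i) ≤ 1 := pow_le_one₀ (by norm_num) (by norm_num)
  have hex : ((1 / 2 : ℝ) ^ (16 * i) - (1 / 2) ^ (16 * (i + 1))) * (K * 2 ^ (14 * i)) ≤
      K * (1 / 2) ^ i := by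
    refine (mul_le_mul_of_nonneg_right hdur (by positivity)).trans ?_
    rw [show 16 * i = 2 * i + 14 * i by omega, pow_add]
    calc (1 / 2 : ℝ) ^ (2 * i) * (1 / 2) ^ (14 * i) * (K * 2 ^ (14 * i))
        = K * (1 / 2) ^ (2 * i) * ((1 / 2) ^ (14 * i) * 2 ^ (14 * i)) := by ring
      _ ≤ _ := by
          rw [half_two_pow, mul_one]
          exact mul_le_mul_of_nonneg_left
            (pow_le_pow_of_le_one (by norm_num) (by norm_num) (by omega)) hK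
  have hξ : φ + ω ≤ smalls d θ θ' η φ ω ε M ∧ E ≤ smalls d θ θ' η φ ω ε M ∧
      ε ≤ smalls d θ θ' η φ ω ε M := by
    have := mul_nonneg (pow_nonneg (by positivity : (0 : ℝ) ≤ (M : ℝ) + 1) 4) hη
    have := sq_nonneg (θ - θ')
    simp only [smalls, hE]
    refine ⟨?_, ?_, ?_⟩ <;> linarith
  refine hph.trans (mul_le_mul (Real.exp_le_exp.2 hex) (add_le_add le_rfl ?_) ?_ (exp_pos _).le)
  · refine (add_le_add (mul_le_mul_of_nonneg_right hdur (by positivity)) le_rfl).trans ?_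
    have b1 : (1 / 2 : ℝ) ^ (16 * i) * (Cp * (1 / 2) ^ (p * i)) ≤
        Cp * (1 / 2) ^ (p * i) * (1 / 2) ^ i := by
      rw [mul_comm]; exact mul_le_mul_of_nonneg_left hd16 (by positivity)
    have b2 : (1 / 2 : ℝ) ^ (16 * i) * (φ + ω) ≤ (1 / 2) ^ i * smalls d θ θ' η φ ω ε M :=
      mul_le_mul hd16 hξ.1 (by linarith) (by positivity)
    have b3 : (1 / 2 : ℝ) ^ (16 * i) * (A * E) ≤ A * smalls d θ θ' η φ ω ε M :=
      (mul_le_of_le_one_left (by positivity) hd1).trans (mul_le_mul_of_nonneg_left hξ.2.1 hA)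
    have b4 := mul_le_mul_of_nonneg_left hξ.2.2 hA
    linarith
  · exact add_nonneg (gap_nonneg _ _ _ _ _ _)
      (add_nonneg (mul_nonneg hdur0 (by positivity)) (mul_nonneg hA hε))

theorem large_phase (hT : RTree G d) {o : V} {L a : ℕ} {φ ω ε : ℝ}
    (hS : Setting G d o θ θ' R M T j L a η φ ω ε) (hφ : 0 ≤ φ) (hε : 0 ≤ ε) {m n : ℕ} (hmn : m ≤ n)
    (hn : n ≤ steps T j) {K2 X B c A : ℝ} (hK2 : 0 ≤ K2) (hX : 0 ≤ X) (hB : 0 ≤ B) (hc : 0 ≤ c)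
    (hA : 0 ≤ A) (hBA : B ≤ A)
    (hrate : ∀ k, m ≤ k → k < n → Phi G θ θ' R j k o ≤ c * gap G θ θ' R j k o +
      K2 * X + φ + B * (θ - θ') ^ 2 + A * (((M : ℝ) + 1) ^ 4 * η)) :
    gap G θ θ' R j n o ≤ exp (((n : ℝ) * dt j - m * dt j) * c) *
      (gap G θ θ' R j m o +
        ((n : ℝ) * dt j - m * dt j) * (K2 * X + (A + 1) * smalls d θ θ' η φ ω ε M)) := by
  have hω := hS.om
  have hη := hS.eta_nn
  obtain ⟨d1', d2'⟩ := hS.defect_nn hT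
  have hM := mul_nonneg (pow_nonneg (by positivity : (0 : ℝ) ≤ (M : ℝ) + 1) 4) hη
  have hdur0 : 0 ≤ (n : ℝ) * dt j - m * dt j :=
    sub_nonneg.2 (mul_le_mul_of_nonneg_right (by exact_mod_cast hmn) (dt_pos j).le)
  have hph := phase hS hmn hn (c := c)
    (β := K2 * X + φ + B * (θ - θ') ^ 2 + A * (((M : ℝ) + 1) ^ 4 * η)) (α := 0)
    hc (by positivity) le_rfl fun k hk1 hk2 => (hrate k hk1 hk2).trans (le_of_eq (by ring))
  rw [zero_mul, add_zero] at hph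
  refine hph.trans (mul_le_mul_of_nonneg_left (add_le_add le_rfl
    (mul_le_mul_of_nonneg_left ?_ hdur0)) (exp_pos _).le)
  have h3 := mul_le_mul_of_nonneg_right hBA (sq_nonneg (θ - θ'))
  have h4 : A * ((θ - θ') ^ 2 + ((M : ℝ) + 1) ^ 4 * η) ≤ A * smalls d θ θ' η φ ω ε M :=
    mul_le_mul_of_nonneg_left (by simp only [smalls]; linarith) hA
  have h5 : φ + ω ≤ smalls d θ θ' η φ ω ε M := by
    simp only [smalls]; linarith [sq_nonneg (θ - θ')]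
  linarith

theorem gap_start' (hT : RTree G d) {o : V} {L a : ℕ} {φ ω ε : ℝ}
    (hS : Setting G d o θ θ' R M T j L a η φ ω ε) (hφ : 0 ≤ φ) (hε : 0 ≤ ε) :
    gap G θ θ' R j (idx j a) o ≤
      1024 * ((d - 1 : ℕ) : ℝ) * (1 / 2) ^ (8 * a) + 512 * smalls d θ θ' η φ ω ε M := by
  have hn : idx j a ≤ steps T j := by
    refine le_trans ?_ (steps_mono hS.hT1 j)
    rw [← idx_zero]
    exact Nat.pow_le_pow_right (by norm_num) (by omega)
  have hd : (1 / 2 : ℝ) ^ (16 * a) ≤ 1 := pow_le_one₀ (by norm_num) (by norm_num)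
  refine (gap_start hT (hS.nearl _ hn) (hS.nearr _ hn) (idx_time hS.lev) (by positivity) hd o).trans ?_
  rw [show 16 * a = 2 * (8 * a) by ring, sqrt_half_pow]
  have h : η ≤ smalls d θ θ' η φ ω ε M := by
    have h1 : η ≤ ((M : ℝ) + 1) ^ 4 * η :=
      le_mul_of_one_le_left hS.eta_nn (one_le_pow₀ (by linarith [Nat.cast_nonneg (α := ℝ) M]))
    obtain ⟨d1', d2'⟩ := hS.defect_nn hT
    have := hS.om
    simp only [smalls]; linarith [sq_nonneg (θ - θ')]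
  linarith

theorem large_block (hT : RTree G d) {o : V} {L a i : ℕ} {φ ω ε : ℝ}
    (hS : Setting G d o θ θ' R M T j L a η φ ω ε) (hi : i < a) {δ₀ K2 X A Z : ℝ} (hK2 : 0 ≤ K2)
    (hX : 0 ≤ X) (hA : 0 ≤ A) (hδ : 0 < δ₀) {M₂ : ℝ} (hM₂ : 0 ≤ M₂) (hAZ : A ≤ Z)
    (hξ : 0 ≤ smalls d θ θ' η φ ω ε M)
    (h : gap G θ θ' R j (idx j i) o ≤
      exp (((idx j i : ℝ) * dt j - (idx j (i + 1) : ℝ) * dt j) *
          (K2 * (1 / (δ₀ * (1 / 2) ^ (8 * (i + 1))) ^ 2 + M₂))) *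
        (gap G θ θ' R j (idx j (i + 1)) o +
          ((idx j i : ℝ) * dt j - (idx j (i + 1) : ℝ) * dt j) *
            (K2 * X + (A + 1) * smalls d θ θ' η φ ω ε M))) :
    gap G θ θ' R j (idx j i) o ≤ exp (K2 * (2 ^ 16 / δ₀ ^ 2) + (1 / 2) ^ i * (K2 * M₂)) *
      (gap G θ θ' R j (idx j (i + 1)) o +
        (1 / 2) ^ i * (K2 * X + (Z + 1) * smalls d θ θ' η φ ω ε M)) := by
  have hlev := hS.lev
  have t1 := idx_time (j := j) (i := i) (by omega)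
  have t2 := idx_time (j := j) (i := i + 1) (by omega)
  rw [t1, t2] at h
  have hdur : (1 / 2 : ℝ) ^ (16 * i) - (1 / 2) ^ (16 * (i + 1)) ≤ (1 / 2) ^ (16 * i) :=
    sub_le_self _ (by positivity)
  have hdur0 : 0 ≤ (1 / 2 : ℝ) ^ (16 * i) - (1 / 2) ^ (16 * (i + 1)) :=
    sub_nonneg.2 (pow_le_pow_of_le_one (by norm_num) (by norm_num) (by omega))
  have hd16 : (1 / 2 : ℝ) ^ (16 * i) ≤ (1 / 2) ^ i :=
    pow_le_pow_of_le_one (by norm_num) (by norm_num) (by omega)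
  refine h.trans (mul_le_mul (Real.exp_le_exp.2 ?_) (add_le_add le_rfl ?_) ?_ (exp_pos _).le)
  · refine (mul_le_mul_of_nonneg_right hdur (by positivity)).trans ?_
    rw [mul_add K2, mul_add ((1 / 2 : ℝ) ^ (16 * i))]
    refine add_le_add (le_of_eq ?_) (mul_le_mul_of_nonneg_right hd16 (by positivity))
    have e : ((1 / 2 : ℝ) ^ (8 * (i + 1))) ^ 2 = (1 / 2) ^ (16 * i) * (1 / 2) ^ 16 := by
      rw [← pow_mul, ← pow_add]; congr 1; ring
    rw [mul_pow, e]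
    have h1 : (1 / 2 : ℝ) ^ (16 * i) ≠ 0 := by positivity
    generalize (1 / 2 : ℝ) ^ (16 * i) = w at h1 ⊢
    field_simp
  · exact mul_le_mul (hdur.trans hd16) (by gcongr) (by positivity) (by positivity)
  · exact add_nonneg (gap_nonneg _ _ _ _ _ _) (mul_nonneg hdur0 (by positivity))

/-- The gap at time `T`. -/
theorem gap_bound (hT : RTree G d) : ∃ K : ℝ, 0 ≤ K ∧ ∀ p : ℕ, ∃ C : ℝ, 0 ≤ C ∧
    ∀ (T M₀ a : ℕ), 4 ≤ M₀ → (M₀ + 1) ^ 2 ≤ a → ∃ (W : ℝ) (L : ℕ), 0 ≤ W ∧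
    ∀ (θ θ' η φ ω ε : ℝ) (R M j : ℕ) (o : V), Setting G d o θ θ' R M T j L a η φ ω ε →
      1 / 2 ≤ ((d - 1 : ℕ) : ℝ) * θ ^ 2 → 1 / 2 ≤ ((d - 1 : ℕ) : ℝ) * θ' ^ 2 →
      (1 - ((d - 1 : ℕ) : ℝ) * θ ^ 2) ^ 2 ≤ (1 / 2) ^ (16 * a) →
      (1 - ((d - 1 : ℕ) : ℝ) * θ' ^ 2) ^ 2 ≤ (1 / 2) ^ (16 * a) →
      0 ≤ φ → 0 ≤ ε →
      gap G θ θ' R j (steps T j) o ≤
        exp (K * ((T : ℝ) + 3) * ((M₀ : ℝ) + 1) ^ 2) * (C * ((T : ℝ) + 3) *
            ((1 / 2) ^ (8 * a) + (1 / 2) ^ (p * (M₀ + 1) ^ 2) +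
              (39 / 40) ^ (M₀ / 2) * exp (-((3 / 2 : ℝ) ^ (M₀ / 4) / 2))) +
          W * smalls d θ θ' η φ ω ε M) := by
  obtain ⟨δr, hδr, -, hret⟩ := retain (Q := d - 1) (Q_two hT)
  set δ₀ := min δr (1 / 4) with hδ₀def
  have hδ₀ : 0 < δ₀ := lt_min hδr (by norm_num)
  obtain ⟨K2, hK2, hlarge⟩ := rate_large hT
  obtain ⟨K1, hK1, hsmall⟩ := rate_small hT
  obtain ⟨K1', hK1', hsmall⟩ := hsmall δ₀ hδ₀ (min_le_right _ _)
  refine ⟨K2 * (2 ^ 16 / δ₀ ^ 2 + 1) * 2 + 2 * (K1 + K1'), by positivity, fun p => ?_⟩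
  obtain ⟨Cq, hCq, hmom⟩ := moment_bound (Q := d - 1) (Q_two hT) (p + 33) (by omega)
  obtain ⟨Cp, hCp, hblock⟩ := hsmall p (p + 34) (by omega) Cq hCq
  refine ⟨1024 * ((d - 1 : ℕ) : ℝ) + 2 * Cp + K2, by positivity, fun T M₀ a hM₀ hba => ?_⟩
  choose A hA hblock using hblock
  obtain ⟨L, hL⟩ := hret ((1 / 2 : ℝ) ^ (16 * a)) (by positivity)
  set A2 := fun i : ℕ => K2 * (1 / (δ₀ * (1 / 2 : ℝ) ^ (8 * (i + 1))) ^ 3 + ((M₀ : ℝ) + 1) ^ 3) +
    K2 * (((M₀ : ℝ) + 1) ^ 3 + 1) with hA2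
  have hA2nn : ∀ i, 0 ≤ A2 i := fun i => by simp only [hA2]; positivity
  set SA := ∑ i ∈ range a, A i with hSA
  set SB := ∑ i ∈ range a, A2 i with hSB
  have hSA0 : 0 ≤ SA := Finset.sum_nonneg fun i _ => hA i
  have hSB0 : 0 ≤ SB := Finset.sum_nonneg fun i _ => hA2nn i
  have hW0 : 0 ≤ (512 + 4 * SA + 4) + ((T : ℝ) + 3) * (SB + A2 0 + 1) :=
    add_nonneg (by linarith) (mul_nonneg (by linarith [Nat.cast_nonneg (α := ℝ) T])
      (by linarith [hA2nn 0]))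
  refine ⟨(512 + 4 * SA + 4) + ((T : ℝ) + 3) * (SB + A2 0 + 1), L, hW0, ?_⟩
  intro θ θ' η φ ω ε R M j o hS hlo hlo' hcr hcr' hφ hε
  have hξ : 0 ≤ smalls d θ θ' η φ ω ε M := by
    obtain ⟨d1', d2'⟩ := hS.defect_nn hT
    have := hS.eta_nn
    have := hS.om
    unfold smalls; positivity
  have hret2 : ∀ i, i < a → ∀ k, k ≤ steps T j → (1 / 2 : ℝ) ^ (16 * (i + 1)) ≤ (k : ℝ) * dt j →
      Ret (d - 1) θ (k * dt j) (1 - δ₀ * (1 / 2) ^ (8 * (i + 1))) L ∧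
        Ret (d - 1) θ' (k * dt j) (1 - δ₀ * (1 / 2) ^ (8 * (i + 1))) L :=
    fun i hi k hk hk' =>
      ⟨ret_block (min_le_left _ _) hδ₀.le hL (hS.nearl k hk).nn ((hS.nearl k hk).lt1 hT)
        (hS.nearl k hk).crit hlo hcr hi hk',
      ret_block (min_le_left _ _) hδ₀.le hL (hS.nearr k hk).nn ((hS.nearr k hk).lt1 hT)
        (hS.nearr k hk).crit hlo' hcr' hi hk'⟩
  have hidx : ∀ i, idx j i ≤ steps T j := fun i => by
    refine le_trans ?_ (steps_mono hS.hT1 j)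
    rw [← idx_zero]
    exact Nat.pow_le_pow_right (by norm_num) (by omega)
  have hlev := hS.lev
  have small : ∀ i, i < a → gap G θ θ' R j (idx j i) o ≤ exp ((K1 + K1') * (1 / 2) ^ i) *
      (gap G θ θ' R j (idx j (i + 1)) o + (Cp * (1 / 2) ^ (p * i) * (1 / 2) ^ i +
        (1 / 2) ^ i * smalls d θ θ' η φ ω ε M + 2 * A i * smalls d θ θ' η φ ω ε M)) := fun i hi =>
    small_block hT hS hi hφ hε (by positivity) hCp (hA i) fun k hk1 hk2 => by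
      have hk : k ≤ steps T j := le_trans hk2.le (hidx i)
      have hlow : (1 / 2 : ℝ) ^ (16 * (i + 1)) ≤ (k : ℝ) * dt j :=
        idx_time (j := j) (i := i + 1) (by omega) ▸
          mul_le_mul_of_nonneg_right (Nat.cast_le.2 hk1) (dt_pos j).le
      have hupp : (k : ℝ) * dt j ≤ (1 / 2) ^ (16 * i) :=
        idx_time (j := j) (i := i) (by omega) ▸
          mul_le_mul_of_nonneg_right (Nat.cast_le.2 hk2.le) (dt_pos j).le
      have hpos : 0 < (k : ℝ) * dt j := lt_of_lt_of_le (by positivity) hlow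
      obtain ⟨r1, r2⟩ := hret2 i hi k hk hlow
      exact hblock i θ θ' η φ R M T j k L (hS.nearl k hk) (hS.nearr k hk) hS.depth hpos r1 r2
        (mom_block hCq hmom (hS.nearl k hk).nn (hS.nearl k hk).crit hpos hupp)
        (mom_block hCq hmom (hS.nearr k hk).nn (hS.nearr k hk).crit hpos hupp) o (hS.far k)
  set X := (39 / 40 : ℝ) ^ (M₀ / 2) * exp (-((3 / 2 : ℝ) ^ (M₀ / 4) / 2)) with hX
  have hX0 : 0 ≤ X := mul_nonneg (by positivity) (exp_pos _).le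
  have large : ∀ i, i < a → ∀ m n : ℕ, m ≤ n → n ≤ steps T j →
      (1 / 2 : ℝ) ^ (16 * (i + 1)) ≤ (m : ℝ) * dt j →
      gap G θ θ' R j n o ≤ exp (((n : ℝ) * dt j - m * dt j) *
          (K2 * (1 / (δ₀ * (1 / 2 : ℝ) ^ (8 * (i + 1))) ^ 2 + ((M₀ : ℝ) + 1) ^ 2))) *
        (gap G θ θ' R j m o + ((n : ℝ) * dt j - m * dt j) *
          (K2 * X + (A2 i + 1) * smalls d θ θ' η φ ω ε M)) := fun i hi m n hmn hn hm =>
    large_phase hT hS hφ hε hmn hn hK2 hX0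
      (B := K2 * (1 / (δ₀ * (1 / 2 : ℝ) ^ (8 * (i + 1))) ^ 3 + ((M₀ : ℝ) + 1) ^ 3))
      (by positivity) (by positivity) (hA2nn i)
      (by simp only [hA2]; linarith [mul_nonneg hK2 (by positivity : (0 : ℝ) ≤ ((M₀ : ℝ) + 1) ^ 3 + 1)])
      fun k hk1 hk2 => by
        have hk : k ≤ steps T j := by omega
        have hlow : (1 / 2 : ℝ) ^ (16 * (i + 1)) ≤ (k : ℝ) * dt j :=
          hm.trans (mul_le_mul_of_nonneg_right (Nat.cast_le.2 hk1) (dt_pos j).le)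
        obtain ⟨r1, r2⟩ := hret2 i hi k hk hlow
        refine (hlarge θ θ' η _ φ R M T j k L M₀ (hS.nearl k hk) (hS.nearr k hk) (by positivity)
          ((mul_le_of_le_one_right hδ₀.le (pow_le_one₀ (by norm_num) (by norm_num))).trans
            (min_le_right _ _)) hS.depth hM₀ r1 r2 o (hS.far k)).trans ?_
        refine add_le_add (add_le_add (add_le_add (add_le_add le_rfl (le_of_eq ?_)) le_rfl) le_rfl) ?_
        · simp only [hX]; ring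
        · exact eta_weight hK2 (mul_nonneg hK2 (by positivity)) hS.eta_nn (by positivity)
            (one_le_pow₀ (by linarith [Nat.cast_nonneg (α := ℝ) M]))
  have hT1 : (1 : ℝ) ≤ T := Nat.one_le_cast.2 hS.hT1
  have ha0 : 0 < a := lt_of_lt_of_le (by positivity) hba
  have c3 := large 0 ha0 (idx j 0) (steps T j) (hidx 0) le_rfl (by
    rw [idx_time (by omega)]; exact pow_le_pow_of_le_one (by norm_num) (by norm_num) (by omega))
  rw [idx_time (by omega), steps_mul_dt, mul_zero, pow_zero] at c3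
  refine assemble hT1 (add_nonneg hK1 hK1') hK2 hCp (Nat.cast_nonneg _) hA hA2nn hξ hX0 hba hδ₀
    (fun i => gap_nonneg _ _ _ _ _ _) (gap_nonneg _ _ _ _ _ _) small ?_ c3 (gap_start' hT hS hφ hε)
  exact fun i hi => large_block hT hS hi hK2 hX0 (hA2nn i) hδ₀ (by positivity)
    (Finset.single_le_sum (fun i _ => hA2nn i) (Finset.mem_range.2 hi)) hξ
    (large i hi (idx j (i + 1)) (idx j i) idx_le (hidx i)
      (idx_time (j := j) (i := i + 1) (by omega)).ge)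

end Vale.Agent.P161
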