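import Vale.Agent.P161.Existence
import Vale.Agent.P161.Crit.Branch
import Vale.Agent.P161.Crit.Arms
import Mathlib.Probability.ProductMeasure
import Mathlib.MeasureTheory.Constructions.Pi

/-!
# Messages of the exact chain are messages on a branch

The exact chain is the configuration grown from labels, observed through independent Gaussians.
In the gauge of the spins the messages along the vertices behind an edge become the messages of
`Words`, read along an enumeration of the branch by words.
-/

open MeasureTheory ProbabilityTheory Finset Real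
open scoped ENNReal NNReal Classical

noncomputable section

namespace Vale.Agent.P161

variable {V : Type*} {G : SimpleGraph V} {d : ℕ} {θ δ : ℝ}

/-- The average over non-backtracking continuations of the products of retentions. -/
def armVal (G : SimpleGraph V) (Q : ℕ) (θ : ℝ) (D : Finset V) (h : V → ℝ) : ℕ → V → V → ℝ
  | 0, _, _ => 1
  | l + 1, a, b => (∑ c ∈ kids G a b, rc Q (mu G θ D h b c) * armVal G Q θ D h l b c) / Q

/-- The vertices `l` steps behind `b`, seen from `a`. -/
def ahead (G : SimpleGraph V) : ℕ → V → V → Finset (V × V)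
  | 0, a, b => {(a, b)}
  | l + 1, a, b => (kids G a b).biUnion fun c => ahead G l b c

/-! ## Geometry of the vertices behind an edge -/

theorem mem_kids (hT : RTree G d) {a b c : V} : c ∈ kids G a b ↔ c ≠ a ∧ G.Adj b c := by
  rw [kids, Finset.mem_erase, mem_nbr hT]

theorem card_kids (hT : RTree G d) {a b : V} (hab : G.Adj a b) :
    (kids G a b).card = d - 1 := by
  rw [kids, Finset.card_erase_of_mem ((mem_nbr hT).2 hab.symm), card_nbr hT]

/-- `mem_ahead`: the last vertices are exactly those at distance `l` behind `b`. -/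
theorem mem_ahead (hT : RTree G d) {a b x y : V} (hab : G.Adj a b) (l : ℕ) :
    (x, y) ∈ ahead G l a b ↔
      G.Adj x y ∧ G.dist b y = l ∧ G.dist a y = l + 1 ∧ G.dist a x = l := by
  induction l generalizing a b with
  | zero =>
    simp only [ahead, Finset.mem_singleton, Prod.mk.injEq]
    constructor
    · rintro ⟨rfl, rfl⟩
      simp [hab, SimpleGraph.dist_eq_one_iff_adj.2 hab]
    · rintro ⟨-, h1, -, h3⟩
      exact ⟨(hT.conn.dist_eq_zero_iff.1 h3).symm, (hT.conn.dist_eq_zero_iff.1 h1).symm⟩
  | succ l ih =>
    simp only [ahead, Finset.mem_biUnion, mem_kids hT]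
    constructor
    · rintro ⟨c, ⟨hca, hbc⟩, hm⟩
      obtain ⟨hxy, e1, e2, e3⟩ := (ih hbc).1 hm
      have hy : G.dist a y = G.dist b y + 1 := by
        rcases dist_adj_cases hT hab y with h | h
        · exact h
        · refine absurd (closer_unique hT (o := y) hbc hab.symm ?_ ?_) hca
          · rw [SimpleGraph.dist_comm (u := y), SimpleGraph.dist_comm (u := y) (v := c)]; omega
          · rw [SimpleGraph.dist_comm (u := y), SimpleGraph.dist_comm (u := y) (v := a)]; omega
      have hx : G.dist a x = G.dist b x + 1 := by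
        rcases dist_adj_cases hT hab x with h | h
        · exact h
        · have := hT.conn.dist_triangle (u := a) (v := x) (w := y)
          rw [SimpleGraph.dist_eq_one_iff_adj.2 hxy] at this
          omega
      exact ⟨hxy, e2, by omega, by omega⟩
    · rintro ⟨hxy, e1, e2, e3⟩
      obtain ⟨c, hbc, hc⟩ := exists_closer hT (v := y) (u := b) (by rintro rfl; simp at e1)
      rw [SimpleGraph.dist_comm (u := y), SimpleGraph.dist_comm (u := y) (v := c)] at hc
      refine ⟨c, ⟨?_, hbc⟩, (ih hbc).2 ⟨hxy, by omega, by omega, ?_⟩⟩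
      · rintro rfl; omega
      · rcases dist_adj_cases hT hab x with h | h
        · omega
        · have := dist_through hT hab (u := x) (w := y) h (by omega)
          rw [SimpleGraph.dist_eq_one_iff_adj.2 hxy] at this
          omega

theorem ahead_unique (hT : RTree G d) {b c c' x x' y : V} (hc : G.Adj b c) (hc' : G.Adj b c')
    {l : ℕ} (h : (x, y) ∈ ahead G l b c) (h' : (x', y) ∈ ahead G l b c') : c = c' := by
  obtain ⟨-, e1, e2, -⟩ := (mem_ahead hT hc l).1 h
  obtain ⟨-, e1', e2', -⟩ := (mem_ahead hT hc' l).1 h'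
  refine closer_unique hT (o := y) hc hc' ?_ ?_
  · rw [SimpleGraph.dist_comm (u := y), SimpleGraph.dist_comm (u := y) (v := c)]; omega
  · rw [SimpleGraph.dist_comm (u := y), SimpleGraph.dist_comm (u := y) (v := c')]; omega

theorem card_ahead (hT : RTree G d) {a b : V} (hab : G.Adj a b) (l : ℕ) :
    (ahead G l a b).card = (d - 1) ^ l := by
  induction l generalizing a b with
  | zero => simp [ahead]
  | succ l ih =>
    rw [ahead, Finset.card_biUnion]
    · rw [Finset.sum_congr rfl fun c hc => ih ((mem_kids hT).1 hc).2, Finset.sum_const, smul_eq_mul,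
        card_kids hT hab, pow_succ']
    · intro c hc c' hc' hne
      rw [Function.onFun, Finset.disjoint_left]
      rintro ⟨x, y⟩ h h'
      exact hne (ahead_unique hT ((mem_kids hT).1 hc).2 ((mem_kids hT).1 hc').2 h h')

theorem ahead_snoc (hT : RTree G d) {a b p v c : V} (hab : G.Adj a b) {m : ℕ}
    (h : (p, v) ∈ ahead G m a b) (hc : c ∈ kids G p v) : (v, c) ∈ ahead G (m + 1) a b := by
  induction m generalizing a b with
  | zero =>
    simp only [ahead, Finset.mem_singleton, Prod.mk.injEq] at h
    obtain ⟨rfl, rfl⟩ := h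
    simpa [ahead] using hc
  | succ m ih =>
    rw [ahead, Finset.mem_biUnion] at h
    obtain ⟨c₀, hc₀, h⟩ := h
    exact Finset.mem_biUnion.2 ⟨c₀, hc₀, ih ((mem_kids hT).1 hc₀).2 h⟩

theorem ahead_mem_branch (hT : RTree G d) {D : Finset V} {a b : V} (hab : G.Adj a b) {r : ℕ}
    (hbr : branch G D a b = branch G (ball G b r) a b) {m : ℕ} {p v : V}
    (h : (p, v) ∈ ahead G m a b) : v ∈ D ↔ m ≤ r := by
  obtain ⟨-, e1, e2, -⟩ := (mem_ahead hT hab m).1 h
  have he := Finset.ext_iff.1 hbr v
  rw [mem_branch hT hab, mem_branch hT hab, mem_ball hT] at he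
  simp only [e1, e2, and_true] at he
  exact he

/-! ## Words indexing the vertices behind an edge -/

/-- The `i`-th continuation of the step `(a, b)`. -/
def child (G : SimpleGraph V) (Q : ℕ) (a b : V) (i : Fin Q) : V :=
  if h : (kids G a b).card = Q then (((kids G a b).equivFinOfCardEq h).symm i : V) else b

/-- The last step reached along a word. -/
def stepAt (G : SimpleGraph V) (Q : ℕ) : List (Fin Q) → V → V → V × V
  | [], a, b => (a, b)
  | i :: l, a, b => stepAt G Q l b (child G Q a b i)

theorem child_mem (hT : RTree G d) {a b : V} (hab : G.Adj a b) (i : Fin (d - 1)) :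
    child G (d - 1) a b i ∈ kids G a b := by
  rw [child, dif_pos (card_kids hT hab)]
  exact Subtype.coe_prop _

theorem child_adj (hT : RTree G d) {a b : V} (hab : G.Adj a b) (i : Fin (d - 1)) :
    G.Adj b (child G (d - 1) a b i) := ((mem_kids hT).1 (child_mem hT hab i)).2

theorem child_injective (hT : RTree G d) {a b : V} (hab : G.Adj a b) :
    Function.Injective (child G (d - 1) a b) := fun i j h => by
  simp only [child, dif_pos (card_kids hT hab)] at h
  exact ((kids G a b).equivFinOfCardEq _).symm.injective (Subtype.ext h)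

theorem sum_kids (hT : RTree G d) {a b : V} (hab : G.Adj a b) (g : V → ℝ) :
    ∑ c ∈ kids G a b, g c = ∑ i, g (child G (d - 1) a b i) := by
  rw [← Finset.sum_coe_sort]
  refine (Fintype.sum_equiv ((kids G a b).equivFinOfCardEq (card_kids hT hab)).symm _ _ fun i => ?_).symm
  rw [child, dif_pos (card_kids hT hab)]

theorem stepAt_mem (hT : RTree G d) {a b : V} (hab : G.Adj a b) (l : List (Fin (d - 1))) :
    stepAt G (d - 1) l a b ∈ ahead G l.length a b := by
  induction l generalizing a b with
  | nil => simp [stepAt, ahead]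
  | cons i l ih =>
    exact Finset.mem_biUnion.2 ⟨_, child_mem hT hab i, ih (child_adj hT hab i)⟩

theorem stepAt_injective (hT : RTree G d) {a b : V} (hab : G.Adj a b) :
    Function.Injective fun l => (stepAt G (d - 1) l a b).2 := by
  intro l l' h
  change (stepAt G (d - 1) l a b).2 = (stepAt G (d - 1) l' a b).2 at h
  have hlen : l.length = l'.length := by
    have e := ((mem_ahead hT hab _).1 (stepAt_mem hT hab l)).2.1
    have e' := ((mem_ahead hT hab _).1 (stepAt_mem hT hab l')).2.1
    rw [← e, ← e', h]
  induction l generalizing a b l' with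
  | nil => exact (List.length_eq_zero_iff.1 hlen.symm).symm
  | cons i l ih =>
    cases l' with
    | nil => simp at hlen
    | cons j l' =>
      have hl : l.length = l'.length := Nat.succ_injective hlen
      simp only [stepAt] at h
      have m1 : ((stepAt G (d - 1) l b (child G (d - 1) a b i)).1,
          (stepAt G (d - 1) l b (child G (d - 1) a b i)).2) ∈
            ahead G l.length b (child G (d - 1) a b i) := stepAt_mem hT (child_adj hT hab i) l
      have m2 : ((stepAt G (d - 1) l' b (child G (d - 1) a b j)).1,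
          (stepAt G (d - 1) l' b (child G (d - 1) a b j)).2) ∈
            ahead G l'.length b (child G (d - 1) a b j) := stepAt_mem hT (child_adj hT hab j) l'
      rw [h, hl] at m1
      obtain rfl := child_injective hT hab
        (ahead_unique hT (child_adj hT hab i) (child_adj hT hab j) m1 m2)
      rw [ih (child_adj hT hab i) h hl]

/-- The labels read along the words behind a step. -/
def labels (G : SimpleGraph V) (Q : ℕ) (U ξ : V → ℝ) (a b : V) : Lbl Q :=
  fun l => (U (stepAt G Q l a b).2, ξ (stepAt G Q l a b).2)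

theorem sub_labels (Q : ℕ) (U ξ : V → ℝ) (a b : V) (i : Fin Q) :
    sub i (labels G Q U ξ a b) = labels G Q U ξ b (child G Q a b i) := rfl

/-- Reading i.i.d. variables along an injection gives i.i.d. variables. -/
theorem comp_injective_mp {ι κ α : Type*} [MeasurableSpace α] (μ : Measure α)
    [IsProbabilityMeasure μ] {e : κ → ι} (he : Function.Injective e) :
    MeasurePreserving (fun x : ι → α => fun k => x (e k)) (Measure.infinitePi fun _ => μ)
      (Measure.infinitePi fun _ => μ) := by
  refine ⟨by fun_prop, Measure.eq_infinitePi _ fun s t ht => ?_⟩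
  rw [Measure.map_apply (by fun_prop) (.pi s.countable_toSet fun i _ => ht i)]
  set t' : ι → Set α := Function.extend e t (fun _ => Set.univ) with ht'
  have : (fun x : ι → α => fun k => x (e k)) ⁻¹' (Set.pi (s : Set κ) t) =
      Set.pi ((s.image e : Finset ι) : Set ι) t' := by
    ext x
    simp [ht', he.extend_apply]
  rw [this, Measure.infinitePi_pi, Finset.prod_image fun a _ b _ h => he h]
  · exact Finset.prod_congr rfl fun k _ => by rw [ht', he.extend_apply]
  · intro i hi
    obtain ⟨k, -, rfl⟩ := Finset.mem_image.1 hi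
    rw [ht', he.extend_apply]
    exact ht k

/-- Pairing two independent i.i.d. families gives an i.i.d. family of pairs. -/
theorem zip_mp {κ α β : Type*} [MeasurableSpace α] [MeasurableSpace β] (μ : Measure α)
    (ν : Measure β) [IsProbabilityMeasure μ] [IsProbabilityMeasure ν] :
    MeasurePreserving (fun p : (κ → α) × (κ → β) => fun k => (p.1 k, p.2 k))
      ((Measure.infinitePi fun _ => μ).prod (Measure.infinitePi fun _ => ν))
      (Measure.infinitePi fun _ => μ.prod ν) := by
  refine ⟨by fun_prop, Measure.eq_infinitePi _ fun s t ht => ?_⟩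
  rw [Measure.map_apply (by fun_prop) (.pi s.countable_toSet fun i _ => ht i)]
  set r : (κ → α) × (κ → β) → (s → α) × (s → β) := Prod.map s.restrict s.restrict with hr
  have hrm : Measurable r := (Finset.measurable_restrict s).prodMap (Finset.measurable_restrict s)
  set T : Set (s → α × β) := Set.univ.pi fun k => t k with hT
  have hpre : (fun p : (κ → α) × (κ → β) => fun k => (p.1 k, p.2 k)) ⁻¹' (Set.pi (s : Set κ) t) =
      r ⁻¹' ((MeasurableEquiv.arrowProdEquivProdArrow α β s).symm ⁻¹' T) := by
    ext p
    simp [hr, hT, MeasurableEquiv.arrowProdEquivProdArrow, Equiv.arrowProdEquivProdArrow]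
  have hmT : MeasurableSet T := MeasurableSet.univ_pi fun k => ht k
  have hre : ((Measure.infinitePi fun _ : κ => μ).prod (Measure.infinitePi fun _ : κ => ν)).map r =
      (Measure.pi fun _ : s => μ).prod (Measure.pi fun _ : s => ν) := by
    rw [hr, ← Measure.map_prod_map _ _ (Finset.measurable_restrict s) (Finset.measurable_restrict s),
      Measure.infinitePi_map_restrict, Measure.infinitePi_map_restrict]
  rw [hpre, ← Measure.map_apply hrm ((MeasurableEquiv.measurable _) hmT), hre,
    ← (measurePreserving_arrowProdEquivProdArrow α β s (fun _ => μ) (fun _ => ν)).map_eq,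
    MeasurableEquiv.map_apply, ← Set.preimage_comp, MeasurableEquiv.symm_comp_self, Set.preimage_id,
    hT, Measure.pi_pi]
  exact Finset.prod_coe_sort s fun k => μ.prod ν (t k)

theorem labels_mp (hT : RTree G d) {a b : V} (hab : G.Adj a b) :
    MeasurePreserving (fun p : (V → ℝ) × (V → ℝ) => labels G (d - 1) p.1 p.2 a b)
      ((iidLaw V).prod (gN V)) (lblLaw (d - 1)) :=
  (comp_injective_mp nodeLaw (stepAt_injective hT hab)).comp (zip_mp unifLaw (gaussianReal 0 1))

/-! ## The exact chain as a grown configuration observed in Gaussian noise -/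

theorem gauss_sumLaw (n : ℕ) : sumLaw (gaussianReal 0 1) n = gaussianReal 0 n := by
  induction n with
  | zero => rw [sumLaw_zero, Nat.cast_zero, gaussianReal_zero_var]
  | succ n ih =>
    rw [sumLaw_succ, ih, addLaw]
    show (gaussianReal 0 1).conv (gaussianReal 0 (n : ℝ≥0)) = _
    rw [gaussianReal_conv_gaussianReal, add_zero]
    congr 1
    push_cast
    ring

/-- The standardized sum of the first `k` increments at each vertex. -/
def merged (k : ℕ) (z : ℕ × V → ℝ) : V → ℝ :=
  fun v => if k = 0 then z (0, v) else (∑ j ∈ range k, z (j, v)) / √k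

theorem sqrt_mul_merged (δ : ℝ) (k : ℕ) (z : ℕ × V → ℝ) (v : V) :
    √(k * δ) * merged k z v = √δ * ∑ j ∈ range k, z (j, v) := by
  rcases Nat.eq_zero_or_pos k with rfl | hk
  · simp
  · have : (0 : ℝ) < √k := Real.sqrt_pos.2 (by exact_mod_cast hk)
    rw [merged, if_neg hk.ne', Real.sqrt_mul (Nat.cast_nonneg k)]
    field_simp

theorem merged_mp (k : ℕ) : MeasurePreserving (merged (V := V) k) (gN (ℕ × V)) (gN V) := by
  rcases Nat.eq_zero_or_pos k with rfl | hk
  · have : merged (V := V) 0 = fun z v => z (0, v) := by funext z v; simp [merged]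
    rw [this]
    exact reindex_mp fun a b h => (Prod.ext_iff.1 h).2
  set g : (Fin k → ℝ) → ℝ := fun y => (∑ j, y j) / √k with hg
  have hgm : Measurable g := by rw [hg]; fun_prop
  have e : merged (V := V) k = (fun y v => g (y v)) ∘ (MeasurableEquiv.curry V (Fin k) ℝ) ∘
      fun z q => z ((q.2 : ℕ), q.1) := by
    funext z v
    simp [merged, hk.ne', hg, Finset.sum_range]
  have h1 : MeasurePreserving (fun (z : ℕ × V → ℝ) (q : V × Fin k) => z ((q.2 : ℕ), q.1))
      (gN (ℕ × V)) (gN (V × Fin k)) :=
    reindex_mp fun a b h => Prod.ext (Prod.ext_iff.1 h).2 (Fin.ext (Prod.ext_iff.1 h).1)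
  have h2 : MeasurePreserving (MeasurableEquiv.curry V (Fin k) ℝ) (gN (V × Fin k))
      (Measure.infinitePi fun _ : V => gN (Fin k)) :=
    ⟨MeasurableEquiv.measurable _,
      Measure.infinitePi_map_curry (ι := V) (κ := Fin k) fun _ _ => gaussianReal 0 1⟩
  have hlaw : (gN (Fin k)).map g = gaussianReal 0 1 := by
    rw [gN, Measure.infinitePi_eq_pi,
      show g = (fun x => x / √k) ∘ fun y : Fin k → ℝ => ∑ j, y j from rfl,
      ← Measure.map_map (by fun_prop) (by fun_prop), ← sumLaw, gauss_sumLaw,
      gaussianReal_map_div_const, zero_div]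
    congr 1
    ext
    simp [hk.ne']
  have h3 : MeasurePreserving (fun (y : V → Fin k → ℝ) v => g (y v))
      (Measure.infinitePi fun _ : V => gN (Fin k)) (gN V) :=
    ⟨by fun_prop, by
      rw [Measure.infinitePi_map_pi _ fun _ => hgm]
      simp only [gN] at hlaw ⊢
      simp only [hlaw]⟩
  rw [e]
  exact h3.comp (h2.comp h1)

theorem flip_mp {s : V → ℝ} (hs : ∀ v, s v = 1 ∨ s v = -1) :
    MeasurePreserving (fun ξ v => s v * ξ v) (gN V) (gN V) := by
  refine ⟨by fun_prop, ?_⟩
  have h : ∀ v, (gaussianReal 0 1).map (fun x => s v * x) = gaussianReal 0 1 := fun v => by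
    rw [gaussianReal_map_const_mul, mul_zero, mul_one]
    congr 1
    ext
    rcases hs v with h | h <;> simp [h]
  rw [gN, Measure.infinitePi_map_pi _ fun v => (measurable_const_mul (s v))]
  simp only [h]

/-- The field, in time `t`, of the configuration `s` in the gauge of the spins. -/
def gaugeField (D : Finset V) (t : ℝ) (s : V → ℝ) (ξ : V → ℝ) : V → ℝ :=
  fun v => if v ∈ D then s v * (t + √t * ξ v) else 0

theorem measurable_gaugeField (D : Finset V) (t : ℝ) (s : V → ℝ) :
    Measurable (gaugeField D t s) := by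
  refine measurable_pi_lambda _ fun v => ?_
  simp only [gaugeField]
  split_ifs <;> fun_prop

/-- One component of the exact chain is a Gaussian observation of a fixed configuration. -/
theorem shifted_component (hδ : 0 ≤ δ) (D : Finset V) (k : ℕ) (A : Finset V)
    {g : (V → ℝ) → ℝ} (hg : Measurable g) :
    ∫ x, g (fieldOf D δ x k) * (exp (-(k * δ * D.card / 2)) *
        exp (∑ p ∈ coords D k, √δ * sp A p.2 * x p)) ∂gN (ℕ × V) =
      ∫ ξ, g (gaugeField D (k * δ) (sp A) ξ) ∂gN V := by
  set a : ℕ × V → (ℕ × V → ℝ) → ℝ := fun p _ => √δ * sp A p.2 with ha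
  set τ : (ℕ × V → ℝ) → ℕ × V → ℝ :=
    fun z p => if p ∈ coords D k then z p + a p z else z p with hτ
  have hτm : Measurable τ := by
    refine measurable_pi_lambda _ fun p => ?_
    simp only [hτ, ha]
    split_ifs <;> fun_prop
  have hsb := shift_block (coords D k) (a := a) (fun _ => measurable_const) (fun _ _ _ _ _ => rfl)
    (G := fun _ => 1) measurable_const (fun _ _ _ => rfl)
  rw [show (fun _ : ℕ × V → ℝ => (1 : ℝ≥0∞)) = 1 from rfl, withDensity_one] at hsb
  have hFm : Measurable fun x => g (fieldOf D δ x k) := hg.comp (measurable_fieldOf D δ k)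
  have hdens : Measurable fun x : ℕ × V → ℝ => ∏ p ∈ coords D k, ENNReal.ofReal (cm (a p x) (x p)) :=
    Finset.measurable_prod _ fun p _ => by simp only [ha, cm]; fun_prop
  have hcm : ∀ x : ℕ × V → ℝ, (∏ p ∈ coords D k, ENNReal.ofReal (cm (a p x) (x p))).toReal =
      exp (-(k * δ * D.card / 2)) * exp (∑ p ∈ coords D k, √δ * sp A p.2 * x p) := by
    intro x
    rw [ENNReal.toReal_prod, Finset.prod_congr rfl fun p _ =>
      ENNReal.toReal_ofReal (show 0 ≤ cm (a p x) (x p) from (exp_pos _).le)]
    simp only [cm, ha, mul_pow, Real.sq_sqrt hδ, sq (sp _ _), sp_sq, mul_one, ← Real.exp_sum,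
      Finset.sum_sub_distrib, Finset.sum_const, nsmul_eq_mul, ← Real.exp_add]
    congr 1
    simp [coords]
    ring
  have hmap : (gN (ℕ × V)).map τ =
      (gN (ℕ × V)).withDensity fun x => ∏ p ∈ coords D k, ENNReal.ofReal (cm (a p x) (x p)) := by
    simp only [one_mul] at hsb
    convert! hsb using 2
    funext z i
    by_cases hi : i ∈ coords D k <;> simp only [hτ, hi, if_true, if_false]
  have e1 : ∫ z, g (fieldOf D δ (τ z) k) ∂gN (ℕ × V) =
      ∫ x, g (fieldOf D δ x k) * (exp (-(k * δ * D.card / 2)) *
        exp (∑ p ∈ coords D k, √δ * sp A p.2 * x p)) ∂gN (ℕ × V) := by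
    rw [← integral_map (f := fun x => g (fieldOf D δ x k)) hτm.aemeasurable hFm.aestronglyMeasurable,
      hmap, integral_withDensity_eq_integral_toReal_smul hdens
        (ae_of_all _ fun x => (ENNReal.prod_lt_top fun _ _ => ENNReal.ofReal_lt_top))]
    exact integral_congr_ae (ae_of_all _ fun x => by simp only [hcm, smul_eq_mul, mul_comm])
  have e2 : ∀ z, fieldOf D δ (τ z) k =
      gaugeField D (k * δ) (sp A) (fun v => sp A v * merged k z v) := by
    intro z
    funext v
    simp only [fieldOf, gaugeField]
    split_ifs with hv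
    · have hτv : ∀ j ∈ range k, τ z (j, v) = z (j, v) + √δ * sp A v := fun j hj => by
        simp [hτ, ha, mem_coords, hv, Finset.mem_range.1 hj]
      rw [Finset.sum_congr rfl hτv, Finset.sum_add_distrib, Finset.sum_const, Finset.card_range,
        nsmul_eq_mul]
      linear_combination ((k : ℝ) * sp A v) * Real.mul_self_sqrt hδ -
        (√(k * δ) * merged k z v) * sp_sq A v - sqrt_mul_merged δ k z v
    · rfl
  have hgm : Measurable fun ξ => g (gaugeField D (k * δ) (sp A) ξ) :=
    hg.comp (measurable_gaugeField D _ _)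
  have hfl := (flip_mp (fun v => sp_cases A v)).comp (merged_mp (V := V) k)
  rw [← e1, ← hfl.map_eq, integral_map hfl.measurable.aemeasurable hgm.aestronglyMeasurable]
  exact integral_congr_ae (ae_of_all _ fun z => by simp only [e2, Function.comp_apply])

theorem measurable_spin_grownConf (o v : V) :
    Measurable fun U : V → ℝ => spin (grownConf G θ o U v) :=
  (measurable_of_countable spin).comp ((measurable_pi_apply v).comp (measurable_grownConf o))

theorem spin_cases (b : Bool) : spin b = 1 ∨ spin b = -1 := by cases b <;> simp [spin]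

/-- The zero field weights are the law of the grown configuration. -/
theorem sum_wt_grown (hT : RTree G d) (h0 : 0 ≤ θ) (h1 : θ < 1) {D : Finset V} (hD : Conn G D)
    {o : V} (ho : o ∈ D) (F : Finset V → ℝ) :
    ∑ A ∈ D.powerset, wt G θ D A * F A =
      ∫ U, F (D.filter fun v => grownConf G θ o U v = true) ∂iidLaw V := by
  set S := fun A : Finset V => {U : V → ℝ | ∀ v ∈ D, grownConf G θ o U v = decide (v ∈ A)} with hS
  have hev : ∀ A, MeasurableSet (S A) ∧ iidLaw V (S A) = ENNReal.ofReal (wt G θ D A) := fun A => by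
    obtain ⟨e1, e2⟩ := grown_event hT h0 h1 hD ho fun v => decide (v ∈ A)
    simp only [hS, e1]
    refine ⟨.pi D.countable_toSet fun v _ => measurableSet_cell o _ v, ?_⟩
    rw [iidLaw, Measure.infinitePi_pi _ (fun v _ => measurableSet_cell o _ v), e2]
    rfl
  have hpt : ∀ U, F (D.filter fun v => grownConf G θ o U v = true) =
      ∑ A ∈ D.powerset, (S A).indicator (fun _ => F A) U := by
    intro U
    rw [Finset.sum_eq_single (D.filter fun v => grownConf G θ o U v = true) (fun A hA hne => ?_)
      (fun h => absurd (Finset.mem_powerset.2 (Finset.filter_subset _ _)) h)]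
    · rw [Set.indicator_of_mem]
      show ∀ v ∈ D, grownConf G θ o U v = decide (v ∈ D.filter fun v => grownConf G θ o U v = true)
      intro v hv
      cases h : grownConf G θ o U v <;> simp [hv, h]
    · rw [Set.indicator_of_notMem]
      intro (hmem : ∀ v ∈ D, grownConf G θ o U v = decide (v ∈ A))
      apply hne
      ext v
      rw [Finset.mem_filter]
      constructor
      · intro hv
        have hvD := Finset.mem_powerset.1 hA hv
        exact ⟨hvD, by rw [hmem v hvD]; simpa using hv⟩
      · rintro ⟨hvD, hv⟩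
        rw [hmem v hvD] at hv
        simpa using hv
  have : IsProbabilityMeasure (iidLaw V) := by unfold iidLaw; infer_instance
  simp only [hpt]
  rw [integral_finsetSum _ fun A _ => (integrable_const _).indicator (hev A).1]
  refine Finset.sum_congr rfl fun A _ => ?_
  rw [integral_indicator (hev A).1, setIntegral_const, measureReal_def, (hev A).2,
    ENNReal.toReal_ofReal (wt_pos h0 h1 D A).le, smul_eq_mul]

/-- The spins grown from the root. -/
def grownSpin (G : SimpleGraph V) (θ : ℝ) (o : V) (U : V → ℝ) (v : V) : ℝ :=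
  spin (grownConf G θ o U v)

/-- The law of the field of the exact chain. -/
theorem bridge_field (hT : RTree G d) (h0 : 0 ≤ θ) (h1 : θ < 1) (hδ : 0 ≤ δ) {D : Finset V}
    (hD : Conn G D) {o : V} (ho : o ∈ D) (k : ℕ) {g : (V → ℝ) → ℝ} (hg : Measurable g) {B : ℝ}
    (hB : ∀ h, |g h| ≤ B) :
    ∫ x, lDens G θ D δ k x * g (fieldOf D δ x k) ∂gN (ℕ × V) =
      ∫ p, g (gaugeField D (k * δ) (grownSpin G θ o p.1) p.2) ∂(iidLaw V).prod (gN V) := by
  have hgf : Measurable fun x => g (fieldOf D δ x k) := hg.comp (measurable_fieldOf D δ k)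
  have hL : ∀ x, lDens G θ D δ k x * g (fieldOf D δ x k) =
      ∑ A ∈ D.powerset, wt G θ D A * (g (fieldOf D δ x k) * (exp (-(k * δ * D.card / 2)) *
        exp (∑ p ∈ coords D k, √δ * sp A p.2 * x p))) := fun x => by
    rw [lDens, post_eq_sum, Finset.sum_mul]
    exact Finset.sum_congr rfl fun A _ => by ring
  simp only [hL]
  rw [integral_finsetSum _ fun A _ => ((((lintegral_exp' (coords D k)
    fun p => √δ * sp A p.2).1).const_mul _).bdd_mul hgf.aestronglyMeasurable
      (ae_of_all _ fun x => hB _)).const_mul _]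
  simp only [integral_const_mul, shifted_component hδ D k _ hg]
  rw [sum_wt_grown hT h0 h1 hD ho fun A => ∫ ξ, g (gaugeField D (k * δ) (sp A) ξ) ∂gN V]
  have : IsProbabilityMeasure (iidLaw V) := by unfold iidLaw; infer_instance
  have hm : Measurable fun p : (V → ℝ) × (V → ℝ) =>
      gaugeField D (k * δ) (grownSpin G θ o p.1) p.2 := by
    refine measurable_pi_lambda _ fun v => ?_
    simp only [gaugeField, grownSpin]
    split_ifs
    · exact ((measurable_spin_grownConf o v).comp measurable_fst).mul
        (measurable_const.add (measurable_const.mul ((measurable_pi_apply v).comp measurable_snd)))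
    · exact measurable_const
  rw [integral_prod _ (integrable_of_bdd (f := fun p : (V → ℝ) × (V → ℝ) =>
    g (gaugeField D (k * δ) (grownSpin G θ o p.1) p.2)) (hg.comp hm) fun p => hB _)]
  refine integral_congr_ae (ae_of_all _ fun U => integral_congr_ae (ae_of_all _ fun ξ => ?_))
  refine congrArg g (funext fun v => ?_)
  simp only [gaugeField]
  split_ifs with hv
  · congr 1
    cases h : grownConf G θ o U v <;> simp [sp, spin, grownSpin, hv, h]
  · rfl

/-! ## Messages along the words -/

theorem leafShift_sign (h0 : 0 ≤ θ) (h1 : θ < 1) {s : ℝ} (hs : s = 1 ∨ s = -1) (x : ℝ) :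
    leafShift θ (s * x) = s * leafShift θ x := by
  rcases hs with rfl | rfl <;> simp [leafShift_neg h0 h1]

theorem rc_sign (Q : ℕ) {s : ℝ} (hs : s = 1 ∨ s = -1) (x : ℝ) :
    rc Q (tanh (s * x)) = rc Q (tanh x) := by
  rcases hs with rfl | rfl <;> simp [rc, Real.tanh_neg]

theorem grownSpin_child (hT : RTree G d) {a b p v c : V} (hab : G.Adj a b) {m : ℕ}
    (hpv : (p, v) ∈ ahead G m a b) (hc : c ∈ kids G p v) (U : V → ℝ) :
    grownSpin G θ b U c = grownSpin G θ b U v * sgn θ (U c) := by
  obtain ⟨-, e1, -, -⟩ := (mem_ahead hT hab m).1 hpv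
  obtain ⟨hvc, e2, -, -⟩ := (mem_ahead hT hab (m + 1)).1 (ahead_snoc hT hab hpv hc)
  have hcb : c ≠ b := by rintro rfl; simp at e2
  have hpar : par G b c = v :=
    closer_unique hT (par_spec hT hcb).1 hvc.symm (par_spec hT hcb).2 (by omega)
  rw [grownSpin, grownSpin, grownConf_step hT hcb, hpar, sgn]
  split_ifs
  · rw [mul_one]
  · cases grownConf G θ b U v <;> simp [spin]

/-- In the gauge of the spins the messages are those of the branch of words. -/
theorem mu_gauge (hT : RTree G d) (h0 : 0 ≤ θ) (h1 : θ < 1) {D : Finset V} (hD : Conn G D)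
    {a b : V} (hab : G.Adj a b) {r : ℕ} (hbr : branch G D a b = branch G (ball G b r) a b) (t : ℝ)
    (U ξ : V → ℝ) : ∀ (n m : ℕ) {p v : V}, m + n = r → (p, v) ∈ ahead G m a b →
      mu G θ D (gaugeField D t (grownSpin G θ b U) ξ) p v =
        tanh (grownSpin G θ b U v * msgX θ t n (labels G (d - 1) U ξ p v)) := by
  intro n
  induction n with
  | zero =>
    intro m p v hmr hpv
    have hpv' := ((mem_ahead hT hab m).1 hpv).1
    have hv : v ∈ D := (ahead_mem_branch hT hab hbr hpv).2 (by omega)
    have hnone : kids G p v ∩ D = ∅ := Finset.eq_empty_of_forall_notMem fun c hc => by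
      obtain ⟨hc, hcD⟩ := Finset.mem_inter.1 hc
      have := (ahead_mem_branch hT hab hbr (ahead_snoc hT hab hpv hc)).1 hcD
      omega
    rw [mu_rec hT h0 h1 hD hpv' hv, hnone, Finset.sum_empty, add_zero, gaugeField, if_pos hv]
    rfl
  | succ n ih =>
    intro m p v hmr hpv
    have hpv' := ((mem_ahead hT hab m).1 hpv).1
    have hv : v ∈ D := (ahead_mem_branch hT hab hbr hpv).2 (by omega)
    have hall : kids G p v ∩ D = kids G p v := Finset.inter_eq_left.2 fun c hc =>
      (ahead_mem_branch hT hab hbr (ahead_snoc hT hab hpv hc)).2 (by omega)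
    rw [mu_rec hT h0 h1 hD hpv' hv, hall, sum_kids hT hpv']
    refine congrArg tanh ?_
    rw [msgX, mul_add, Finset.mul_sum]
    refine congrArg₂ (· + ·) (by rw [gaugeField, if_pos hv]; rfl) (Finset.sum_congr rfl fun i _ => ?_)
    have hc := child_mem hT hpv' i
    rw [ih (m + 1) (by omega) (ahead_snoc hT hab hpv hc), Real.artanh_tanh, sub_labels,
      leafShift_sign h0 h1 (s := grownSpin G θ b U _) (spin_cases _), grownSpin_child hT hab hpv hc U, mul_assoc]
    rfl

theorem armVal_gauge (hT : RTree G d) (h0 : 0 ≤ θ) (h1 : θ < 1) {D : Finset V} (hD : Conn G D)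
    {a b : V} (hab : G.Adj a b) {r : ℕ} (hbr : branch G D a b = branch G (ball G b r) a b) (t : ℝ)
    (U ξ : V → ℝ) : ∀ (l n m : ℕ) {p v : V}, l ≤ n → m + n = r → (p, v) ∈ ahead G m a b →
      armVal G (d - 1) θ D (gaugeField D t (grownSpin G θ b U) ξ) l p v =
        armF θ t l n (labels G (d - 1) U ξ p v) := by
  intro l
  induction l with
  | zero => intro n m p v _ _ _; simp [armVal, armF]
  | succ l ih =>
    intro n m p v hln hmr hpv
    obtain ⟨n, rfl⟩ : ∃ n', n = n' + 1 := ⟨n - 1, by omega⟩
    have hpv' := ((mem_ahead hT hab m).1 hpv).1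
    rw [armVal, armF, sum_kids hT hpv']
    refine congrArg (· / ((d - 1 : ℕ) : ℝ)) (Finset.sum_congr rfl fun i _ => ?_)
    have hc := ahead_snoc hT hab hpv (child_mem hT hpv' i)
    rw [mu_gauge hT h0 h1 hD hab hbr t U ξ n (m + 1) (by omega) hc,
      ih n (m + 1) (by omega) (by omega) hc, rc_sign _ (s := grownSpin G θ b U _) (spin_cases _),
      sub_labels]

theorem measurable_armVal (Q : ℕ) (D : Finset V) : ∀ (l : ℕ) (a b : V),
    Measurable fun h : V → ℝ => armVal G Q θ D h l a b := by
  intro l
  induction l with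
  | zero => intro a b; simp only [armVal]; exact measurable_const
  | succ l ih =>
    intro a b
    simp only [armVal]
    exact (Finset.measurable_sum _ fun c _ =>
      (measurable_rc.comp (measurable_mu D b c)).mul (ih b c)).div_const _

/-- The law of one message; `hbr` says that the branch is complete to depth `r`. -/
theorem bridge_msg (hT : RTree G d) (h0 : 0 ≤ θ) (h1 : θ < 1) (hδ : 0 ≤ δ) {D : Finset V}
    (hD : Conn G D) {a b : V} (hab : G.Adj a b) {r : ℕ}
    (hbr : branch G D a b = branch G (ball G b r) a b) (k : ℕ) {f : ℝ → ℝ} (hf : Measurable f)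
    (heven : ∀ x, f (-x) = f x) {B : ℝ} (hB : ∀ x, |f x| ≤ B) :
    ∫ x, lDens G θ D δ k x * f (mu G θ D (fieldOf D δ x k) a b) ∂gN (ℕ × V) =
      ∫ x, f (tanh x) ∂XLaw (d - 1) θ (k * δ) r := by
  have h0mem : (a, b) ∈ ahead G 0 a b := by simp [ahead]
  have hb : b ∈ D := (ahead_mem_branch hT hab hbr h0mem).2 (Nat.zero_le r)
  rw [bridge_field hT h0 h1 hδ hD hb k (g := fun h => f (mu G θ D h a b))
    (hf.comp (measurable_mu D a b)) fun h => hB _]
  have hF : Measurable fun ω : Lbl (d - 1) => f (tanh (msgX θ (k * δ) r ω)) :=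
    hf.comp (measurable_tanh'.comp (measurable_msgX r))
  rw [XLaw, integral_map (measurable_msgX r).aemeasurable
      (f := fun x => f (tanh x)) (hf.comp measurable_tanh').aestronglyMeasurable,
    ← (labels_mp hT hab).map_eq,
    integral_map (labels_mp hT hab).measurable.aemeasurable hF.aestronglyMeasurable]
  refine integral_congr_ae (ae_of_all _ fun p => ?_)
  show f (mu G θ D _ a b) = _
  rw [mu_gauge hT h0 h1 hD hab hbr _ p.1 p.2 r 0 (Nat.zero_add r) h0mem]
  rcases spin_cases (grownConf G θ b p.1 b) with h | h <;>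
    simp [grownSpin, h, Real.tanh_neg, heven]

/-- The law of the arm averages behind an edge, in the ball around its head. -/
theorem bridge_arm (hT : RTree G d) (h0 : 0 ≤ θ) (h1 : θ < 1) (hδ : 0 ≤ δ) {a b : V}
    (hab : G.Adj a b) (R k l : ℕ) (hl : l ≤ R) {f : ℝ → ℝ} (hf : Measurable f) {B : ℝ}
    (hB : ∀ x, |f x| ≤ B) :
    ∫ x, lDens G θ (ball G b R) δ k x *
        f (armVal G (d - 1) θ (ball G b R) (fieldOf (ball G b R) δ x k) l a b) ∂gN (ℕ × V) =
      ∫ ω, f (armF θ (k * δ) l R ω) ∂lblLaw (d - 1) := by
  rw [bridge_field hT h0 h1 hδ (conn_ball hT b R) (self_mem_ball hT b R) k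
    (g := fun h => f (armVal G (d - 1) θ (ball G b R) h l a b))
    (hf.comp (measurable_armVal _ _ l a b)) fun h => hB _]
  have hF : Measurable fun ω : Lbl (d - 1) => f (armF θ (k * δ) l R ω) :=
    hf.comp (measurable_armF l R)
  rw [← (labels_mp hT hab).map_eq,
    integral_map (labels_mp hT hab).measurable.aemeasurable hF.aestronglyMeasurable]
  refine integral_congr_ae (ae_of_all _ fun p => ?_)
  show f (armVal G (d - 1) θ _ _ l a b) = _
  rw [armVal_gauge hT h0 h1 (conn_ball hT b R) hab rfl _ p.1 p.2 l R 0 hl (Nat.zero_add R)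
    (by simp [ahead])]

end Vale.Agent.P161
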