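import Vale.Agent.P161.Crit.Assemble

/-!
# The free Ising model at the critical point is a factor of IID
-/

open MeasureTheory Finset Real Filter Topology
open scoped Classical

noncomputable section

namespace Vale.Agent.P161

universe u

variable {V : Type u} {G : SimpleGraph V} {d : ℕ} {θ θ' : ℝ}

theorem natQ (hT : RTree G d) : ((d - 1 : ℕ) : ℝ) = (d : ℝ) - 1 := by
  rw [Nat.cast_sub (by have := hT.three; omega), Nat.cast_one]

theorem sub_lt_one (hT : RTree G d) (h0 : 0 ≤ θ) (h : ((d : ℝ) - 1) * θ ^ 2 < 1) : θ < 1 := by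
  have hd : (3 : ℝ) ≤ d := by exact_mod_cast hT.three
  nlinarith [mul_nonneg (sub_nonneg.2 hd) (sq_nonneg θ)]

/-- The far part of the covariance difference is small. -/
theorem far_small (hT : RTree G d) (h0 : 0 ≤ θ) (hsθ : ((d : ℝ) - 1) * θ ^ 2 < 1) (g0 : 0 ≤ θ')
    (gs : ((d : ℝ) - 1) * θ' ^ 2 < 1) {φ : ℝ} (hφ : 0 < φ) :
    ∃ M₁ : ℕ, ∀ M, M₁ ≤ M → ∀ (R j k : ℕ) (o : V),
      ∑ w ∈ ball G o R \ ball G o M, ∫ z, dC G θ θ' R j k o w z ^ 2 ∂gN (ℕ × V) ≤ φ := by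
  have hd : (3 : ℝ) ≤ d := by exact_mod_cast hT.three
  have hQ : (0 : ℝ) < (d : ℝ) - 1 := by linarith
  set a := max θ θ' with ha
  have ha0 : 0 ≤ a := h0.trans (le_max_left _ _)
  have has : ((d : ℝ) - 1) * a ^ 2 < 1 := by
    rcases max_choice θ θ' with e | e <;> rw [ha, e] <;> assumption
  set b := √((a ^ 2 + 1 / ((d : ℝ) - 1)) / 2) with hb
  have hlt : a ^ 2 < 1 / ((d : ℝ) - 1) := by rw [lt_div_iff₀ hQ]; linarith
  have hb2 : b ^ 2 = (a ^ 2 + 1 / ((d : ℝ) - 1)) / 2 :=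
    Real.sq_sqrt (div_nonneg (add_nonneg (sq_nonneg a) (by positivity)) two_pos.le)
  have hab : a < b := by
    rw [hb, Real.lt_sqrt ha0]; linarith
  have hb1 : ((d : ℝ) - 1) * b ^ 2 < 1 := by
    rw [hb2, mul_comm, ← lt_div_iff₀ hQ]; linarith
  have hbpos : 0 < b := lt_of_le_of_lt ha0 hab
  have hr1 : (a / b) ^ 2 < 1 :=
    pow_lt_one₀ (div_nonneg ha0 hbpos.le) ((div_lt_one hbpos).2 hab) two_ne_zero
  set C := 2 / (1 - ((d : ℝ) - 1) * b ^ 2) with hC
  have ht : Tendsto (fun M : ℕ => 4 * (C * ((a / b) ^ 2) ^ M)) atTop (𝓝 0) := by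
    simpa using ((tendsto_pow_atTop_nhds_zero_of_lt_one (sq_nonneg _) hr1).const_mul C).const_mul 4
  obtain ⟨M₁, hM₁⟩ := eventually_atTop.1 (ht.eventually_le_const hφ)
  refine ⟨M₁, fun M hM R j k o => le_trans ?_ (hM₁ M hM)⟩
  have h1 := sub_lt_one hT h0 hsθ
  have g1 := sub_lt_one hT g0 gs
  have hm := self_mem_ball hT o R
  calc ∑ w ∈ ball G o R \ ball G o M, ∫ z, dC G θ θ' R j k o w z ^ 2 ∂gN (ℕ × V)
      ≤ ∑ w ∈ ball G o R \ ball G o M, 4 * (a ^ G.dist o w) ^ 2 := by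
        refine Finset.sum_le_sum fun w hw => ?_
        have hwR := (Finset.mem_sdiff.1 hw).1
        have hpt : ∀ z, dC G θ θ' R j k o w z ^ 2 ≤ 4 * (a ^ G.dist o w) ^ 2 := fun z => by
          have e1 := (cv_bound hT h0 h1 (conn_ball hT o R) (hs G θ R j k o z) o hm w hwR).trans
            (pow_le_pow_left₀ h0 (le_max_left θ θ') _)
          have e2 := (cv_bound hT g0 g1 (conn_ball hT o R) (hs G θ' R j k o z) o hm w hwR).trans
            (pow_le_pow_left₀ g0 (le_max_right θ θ') _)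
          have e3 : |dC G θ θ' R j k o w z| ≤ 2 * a ^ G.dist o w :=
            (abs_sub _ _).trans (by rw [← ha] at e1 e2; linarith)
          calc dC G θ θ' R j k o w z ^ 2 = |dC G θ θ' R j k o w z| ^ 2 := (sq_abs _).symm
            _ ≤ (2 * a ^ G.dist o w) ^ 2 := pow_le_pow_left₀ (abs_nonneg _) e3 2
            _ = _ := by ring
        refine integral_const_le (integrable_of_bdd ((measurable_dC o w).pow_const 2)
          (B := 4 * (a ^ G.dist o w) ^ 2) fun z => ?_) hpt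
        rw [abs_of_nonneg (sq_nonneg _)]; exact hpt z
    _ ≤ _ := by
        rw [← Finset.mul_sum, Finset.sdiff_eq_filter]
        exact mul_le_mul_of_nonneg_left (tail_sum_le hT o ha0 hab hb1 (ball G o R) M) (by norm_num)

theorem dexp_beats (κ : ℝ) : ∀ᶠ n : ℕ in atTop,
    κ * ((n : ℝ) + 1) ^ 2 ≤ (3 / 2 : ℝ) ^ (n / 4) / 2 := by
  have h : Tendsto (fun m : ℕ => (m : ℝ) ^ 2 * (2 / 3 : ℝ) ^ m) atTop (𝓝 0) :=
    tendsto_pow_const_mul_const_pow_of_lt_one 2 (by norm_num) (by norm_num)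
  have h2 : Tendsto (fun n : ℕ => n / 4 + 1) atTop atTop :=
    tendsto_atTop_atTop.2 fun b => ⟨4 * b, fun n hn => by omega⟩
  have h3 := (h.comp h2).eventually_le_const (show (0 : ℝ) < 1 / (48 * (|κ| + 1)) by positivity)
  filter_upwards [h3] with n hn
  simp only [Function.comp_def] at hn
  set m := n / 4 with hm
  have e1 : (n : ℝ) + 1 ≤ 4 * ((m + 1 : ℕ) : ℝ) := by
    exact_mod_cast (by omega : n + 1 ≤ 4 * (m + 1))
  have e2 := pow_le_pow_left₀ (by positivity) e1 2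
  set q := ((m + 1 : ℕ) : ℝ) ^ 2 with hq
  have e3 : q ≤ 1 / (48 * (|κ| + 1)) * (3 / 2) ^ (m + 1) := by
    have h4 := mul_le_mul_of_nonneg_right hn (by positivity : (0 : ℝ) ≤ (3 / 2) ^ (m + 1))
    rw [mul_assoc, ← mul_pow, show (2 / 3 : ℝ) * (3 / 2) = 1 by norm_num, one_pow, mul_one] at h4
    exact h4
  have e4 : 48 * (|κ| + 1) * q ≤ (3 / 2) ^ (m + 1) := by
    rw [div_mul_eq_mul_div, one_mul, le_div_iff₀ (by positivity)] at e3
    linarith
  calc κ * ((n : ℝ) + 1) ^ 2 ≤ (|κ| + 1) * (16 * q) := by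
        refine mul_le_mul (by linarith [le_abs_self κ]) (e2.trans (le_of_eq (by rw [hq]; ring)))
          (by positivity) (by positivity)
    _ ≤ _ := by rw [pow_succ] at e4; linarith

/-- The choice of the radii at which the main error is small. -/
theorem exists_radius {κ C ε : ℝ} {p : ℕ} (hp : exp κ * (1 / 2) ^ p ≤ 1 / 2) (hε : 0 < ε) :
    ∃ M₀ a : ℕ, 4 ≤ M₀ ∧ (M₀ + 1) ^ 2 ≤ a ∧ exp (κ * ((M₀ : ℝ) + 1) ^ 2) * (C *
      ((1 / 2) ^ (8 * a) + (1 / 2) ^ (p * (M₀ + 1) ^ 2) +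
        (39 / 40) ^ (M₀ / 2) * exp (-((3 / 2 : ℝ) ^ (M₀ / 4) / 2)))) ≤ ε := by
  set ε' := ε / (3 * (|C| + 1)) with hε'
  have hε'0 : 0 < ε' := by positivity
  have hb : Tendsto (fun n : ℕ => (n + 1) ^ 2) atTop atTop :=
    tendsto_atTop_mono (fun n => (Nat.le_succ n).trans (Nat.le_self_pow two_ne_zero _)) tendsto_id
  have t1 : Tendsto (fun n : ℕ => (1 / 2 : ℝ) ^ (n + 1) ^ 2) atTop (𝓝 0) :=
    (tendsto_pow_atTop_nhds_zero_of_lt_one (by norm_num) (by norm_num)).comp hb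
  have t2 : Tendsto (fun n : ℕ => (39 / 40 : ℝ) ^ (n / 2)) atTop (𝓝 0) :=
    (tendsto_pow_atTop_nhds_zero_of_lt_one (by norm_num) (by norm_num)).comp
      (tendsto_atTop_atTop.2 fun b => ⟨2 * b, fun n hn => by omega⟩)
  obtain ⟨M₀, h1, h2, h3, h4⟩ := ((t1.eventually_le_const hε'0).and ((t2.eventually_le_const hε'0).and
    ((dexp_beats κ).and (eventually_ge_atTop 4)))).exists
  set E := exp (κ * ((M₀ : ℝ) + 1) ^ 2) with hE
  have t3 : Tendsto (fun a : ℕ => E * (1 / 2 : ℝ) ^ (8 * a)) atTop (𝓝 0) := by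
    have h8 : Tendsto (fun a : ℕ => 8 * a) atTop atTop :=
      tendsto_atTop_atTop.2 fun b => ⟨b, fun n hn => by omega⟩
    have hr : Tendsto (fun a : ℕ => (1 / 2 : ℝ) ^ a) atTop (𝓝 0) :=
      tendsto_pow_atTop_nhds_zero_of_lt_one (by norm_num) (by norm_num)
    simpa using (hr.comp h8).const_mul E
  obtain ⟨a, ha1, ha2⟩ :=
    ((t3.eventually_le_const hε'0).and (eventually_ge_atTop ((M₀ + 1) ^ 2))).exists
  refine ⟨M₀, a, h4, ha2, ?_⟩
  have b2 : E * (1 / 2 : ℝ) ^ (p * (M₀ + 1) ^ 2) ≤ ε' := by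
    rw [hE, pow_mul, show exp (κ * ((M₀ : ℝ) + 1) ^ 2) = exp κ ^ ((M₀ + 1) ^ 2) by
      rw [← Real.exp_nat_mul]; push_cast; ring_nf, ← mul_pow]
    exact (pow_le_pow_left₀ (by positivity) hp _).trans h1
  have b3 : E * ((39 / 40 : ℝ) ^ (M₀ / 2) * exp (-((3 / 2 : ℝ) ^ (M₀ / 4) / 2))) ≤ ε' := by
    rw [mul_left_comm, hE, ← Real.exp_add]
    exact (mul_le_of_le_one_right (by positivity) (Real.exp_le_one_iff.2 (by linarith))).trans h2
  set S := (1 / 2 : ℝ) ^ (8 * a) + (1 / 2) ^ (p * (M₀ + 1) ^ 2) +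
    (39 / 40) ^ (M₀ / 2) * exp (-((3 / 2 : ℝ) ^ (M₀ / 4) / 2)) with hS
  have hS0 : 0 ≤ E * S := by positivity
  have hES : E * S ≤ 3 * ε' := by simp only [hS, mul_add]; linarith
  calc E * (C * S) = C * (E * S) := by ring
    _ ≤ (|C| + 1) * (3 * ε') := mul_le_mul (by linarith [le_abs_self C]) hES hS0 (by positivity)
    _ = ε := by rw [hε']; field_simp

/-- Along a subsequence of parameters increasing to the critical one the schemes are stable. -/
theorem exists_stable (hT : RTree G d) (θs : ℕ → ℝ)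
    (hθ : ∀ i, 0 ≤ θs i ∧ ((d : ℝ) - 1) * θs i ^ 2 < 1) {θc : ℝ}
    (hlim : Tendsto θs atTop (𝓝 θc)) (hc : ((d : ℝ) - 1) * θc ^ 2 = 1) :
    ∃ φ : ℕ → ℕ, StrictMono φ ∧ Stable G (fun i => θs (φ i)) := by
  obtain ⟨φ, hφ, hstr⟩ := exists_strength_limit hT θs
    fun i => ⟨(hθ i).1, sub_lt_one hT (hθ i).1 (hθ i).2⟩
  refine ⟨φ, hφ, fun T η hη => ?_⟩
  set θ := fun i => θs (φ i) with hθdef
  have hlim' : Tendsto θ atTop (𝓝 θc) := hlim.comp hφ.tendsto_atTop
  obtain ⟨o⟩ := hT.conn.nonempty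
  rcases Nat.eq_zero_or_pos T with rfl | hTpos
  · refine ⟨0, fun i i' _ _ => Eventually.of_forall fun R => Eventually.of_forall fun j c => ?_⟩
    have h : ∀ (i : ℕ) z, mc G (θs (φ i)) R j 0 c z = 0 := fun i z =>
      Recenter.mag_at_zero hT (hθ _).1 (sub_lt_one hT (hθ _).1 (hθ _).2) (conn_ball hT c R)
        (self_mem_ball hT c R)
    simp [gap, steps, hθdef, h, hη.le]
  obtain ⟨K, hK, hgap⟩ := gap_bound hT
  obtain ⟨p, hp⟩ := exists_pow_lt_of_lt_one
    (show (0 : ℝ) < 1 / (2 * exp (K * ((T : ℝ) + 3))) by positivity) (show (1 / 2 : ℝ) < 1 by norm_num)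
  have hp' : exp (K * ((T : ℝ) + 3)) * (1 / 2) ^ p ≤ 1 / 2 := by
    refine (mul_le_mul_of_nonneg_left hp.le (exp_pos _).le).trans (le_of_eq ?_)
    field_simp
  obtain ⟨C, hC, hgap⟩ := hgap p
  obtain ⟨M₀, a, hM₀, hba, hmain⟩ :=
    exists_radius (C := C * ((T : ℝ) + 3)) hp' (half_pos hη)
  obtain ⟨W, L, hW, hgap⟩ := hgap T M₀ a hM₀ hba
  set E := exp (K * ((T : ℝ) + 3) * ((M₀ : ℝ) + 1) ^ 2) with hE
  set δ := η / (14 * (E * W) + 2) with hδ
  have hEW : 0 ≤ E * W := mul_nonneg (exp_pos _).le hW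
  have hδ0 : 0 < δ := div_pos hη (by linarith)
  set Q := ((d - 1 : ℕ) : ℝ) with hQdef
  have hQ : Q = (d : ℝ) - 1 := natQ hT
  have hQpos : 0 < Q := by
    have : (3 : ℝ) ≤ d := by exact_mod_cast hT.three
    linarith
  have hθc : 1 / Q - θc ^ 2 = 0 := by
    rw [hQ] at *; field_simp; linarith
  obtain ⟨i₁, hi₁⟩ := hstr T δ hδ0
  have e1 : ∀ᶠ i in atTop, 1 / Q - θ i ^ 2 ≤ δ := by
    have := ((hlim'.pow 2).const_sub (1 / Q))
    rw [hθc] at this
    exact this.eventually_le_const hδ0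
  have hQt : Tendsto (fun i => Q * θ i ^ 2) atTop (𝓝 1) := by
    have := (hlim'.pow 2).const_mul Q
    rwa [show Q * θc ^ 2 = 1 by rw [hQ]; exact hc] at this
  have e2 : ∀ᶠ i in atTop, 1 / 2 ≤ Q * θ i ^ 2 := hQt.eventually_const_le (by norm_num)
  have e3 : ∀ᶠ i in atTop, (1 - Q * θ i ^ 2) ^ 2 ≤ (1 / 2) ^ (16 * a) := by
    have := (hQt.const_sub 1).pow 2
    norm_num at this
    exact this.eventually_le_const (by positivity)
  have e4 : ∀ᶠ i in atTop, |θ i - θc| ≤ √δ / 2 := by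
    have := (hlim'.sub_const θc).abs
    rw [sub_self, abs_zero] at this
    exact this.eventually_le_const (by positivity)
  obtain ⟨i₀, hi₀⟩ := eventually_atTop.1
    (e1.and (e2.and (e3.and (e4.and (eventually_ge_atTop i₁)))))
  refine ⟨i₀, fun i i' hi hi' => ?_⟩
  obtain ⟨a1, a2, a3, a4, a5⟩ := hi₀ i hi
  obtain ⟨b1, b2, b3, b4, b5⟩ := hi₀ i' hi'
  have hsub := (hθ (φ i)).2
  have hsub' := (hθ (φ i')).2
  obtain ⟨M₁, hM₁⟩ := far_small hT (hθ (φ i)).1 hsub (hθ (φ i')).1 hsub' hδ0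
  set M := M₁ + 1 with hM
  set η' := min (δ / ((M : ℝ) + 1) ^ 4) 1 with hη'
  have hη'0 : 0 < η' := lt_min (by positivity) one_pos
  obtain ⟨R₁, hR₁⟩ := recenter hT (hθ (φ i)).1 hsub M T hη'0
  obtain ⟨R₂, hR₂⟩ := recenter hT (hθ (φ i')).1 hsub' M T hη'0
  filter_upwards [hi₁ i i' a5 b5, eventually_ge_atTop R₁, eventually_ge_atTop R₂,
    eventually_ge_atTop (M + L + 1)] with R hRs hR1 hR2 hR3
  obtain ⟨KR, hKR, hstep⟩ := gap_step hT (hθ (φ i)).1 (sub_lt_one hT (hθ (φ i)).1 hsub)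
    (hθ (φ i')).1 (sub_lt_one hT (hθ (φ i')).1 hsub') o R
  have hω : Tendsto (fun j => KR * √(dt j)) atTop (𝓝 0) := by
    simpa using tendsto_sqrt_dt.const_mul KR
  filter_upwards [hRs, hR₁ R hR1, hR₂ R hR2, eventually_small (ball G o R) T,
    (tendsto_err (ball G o R) T).eventually_le_const hη'0, hω.eventually_le_const hδ0,
    eventually_ge_atTop (16 * a)] with j hj1 hj2 hj3 hj4 hj5 hj6 hj7
  intro c
  have hcard : ∀ c, (ball G c R).card = (ball G o R).card := fun c => Recenter.card_ball_eq hT o c R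
  have herr : ∀ c, err (ball G c R) T j = err (ball G o R) T j := fun c => by
    simp only [err, hcard c]
  have near : ∀ (i : ℕ), ((d : ℝ) - 1) * θs (φ i) ^ 2 < 1 →
      (∀ k, k ≤ steps T j → ∀ c x, G.dist c x ≤ M → ∫ z, |mag G (θs (φ i)) (ball G c R)
        (hs G (θs (φ i)) R j k c z) x - mc G (θs (φ i)) R j k x z| ∂gN (ℕ × V) ≤ η') →
      ∀ k, k ≤ steps T j → Near G d (θs (φ i)) R M T j k η' := fun i hsb hr k hk =>
    { nn := (hθ _).1
      crit := by rw [natQ hT]; exact hsb.le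
      one_le := by omega
      M_le := by omega
      k_le := hk
      small := fun c => by rw [hcard c]; exact hj4
      err_le := fun c => by rw [herr c]; exact hj5
      eta := min_le_right _ _
      close := hr k hk }
  have hS : Setting G d o (θ i) (θ i') R M T j L a η' δ δ δ :=
    { lev := hj7
      hT1 := hTpos
      nearl := near i hsub hj2
      nearr := near i' hsub' hj3
      depth := by omega
      far := fun k => hM₁ M (by omega) R j k o
      str := hj1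
      stepErr := fun k _ => (hstep j k).trans (by
        gcongr
        · exact (dt_pos j).le)
      om := hδ0.le }
  rw [gap_eq_centre hT R j (steps T j) o c]
  refine (hgap (θ i) (θ i') η' δ δ δ R M j o hS a2 b2 a3 b3 hδ0.le hδ0.le).trans ?_
  have hsm : smalls d (θ i) (θ i') η' δ δ δ M ≤ 7 * δ := by
    have s1 : (θ i - θ i') ^ 2 ≤ δ := by
      have h : |θ i - θ i'| ≤ √δ := by
        have := abs_sub_le (θ i) θc (θ i')
        rw [abs_sub_comm θc] at this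
        linarith
      rw [← sq_abs]
      exact (pow_le_pow_left₀ (abs_nonneg _) h 2).trans_eq (Real.sq_sqrt hδ0.le)
    have s2 : ((M : ℝ) + 1) ^ 4 * η' ≤ δ := by
      rw [mul_comm, ← le_div_iff₀ (by positivity)]; exact min_le_left _ _
    simp only [smalls, ← hQdef]
    linarith
  have h2 : E * (W * (7 * δ)) ≤ η / 2 := by
    have h14 : 14 * (E * W) / (14 * (E * W) + 2) ≤ 1 := (div_le_one (by linarith)).2 (by linarith)
    calc E * (W * (7 * δ)) = η / 2 * (14 * (E * W) / (14 * (E * W) + 2)) := by rw [hδ]; ring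
      _ ≤ η / 2 * 1 := mul_le_mul_of_nonneg_left h14 (by linarith)
      _ = η / 2 := mul_one _
  have h1 := mul_le_mul_of_nonneg_left (mul_le_mul_of_nonneg_left hsm hW) (exp_pos
    (K * ((T : ℝ) + 3) * ((M₀ : ℝ) + 1) ^ 2)).le
  rw [mul_add]
  linarith

/-- At the critical parameter there is a factor of IID with the law of the free Ising model. -/
theorem exists_fiid_critical (hT : RTree G d) {θc : ℝ} (h0 : 0 ≤ θc)
    (hc : ((d : ℝ) - 1) * θc ^ 2 = 1) : ∃ ν, IsFreeIsing G θc ν ∧ IsFIID G ν := by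
  have hd : (3 : ℝ) ≤ d := by exact_mod_cast hT.three
  set θs := fun i : ℕ => θc * (1 - 1 / ((i : ℝ) + 2)) with hθs
  have hθ : ∀ i, 0 ≤ θs i ∧ ((d : ℝ) - 1) * θs i ^ 2 < 1 := fun i => by
    have hi : (2 : ℝ) ≤ (i : ℝ) + 2 := by linarith [Nat.cast_nonneg (α := ℝ) i]
    have h2 : 0 < 1 / ((i : ℝ) + 2) := by positivity
    have h3 : 1 / ((i : ℝ) + 2) ≤ 1 / 2 := one_div_le_one_div_of_le two_pos hi
    refine ⟨mul_nonneg h0 (by linarith), ?_⟩
    simp only [hθs, mul_pow]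
    rw [← mul_assoc, hc, one_mul]
    exact pow_lt_one₀ (by linarith) (by linarith) two_ne_zero
  have hlim : Tendsto θs atTop (𝓝 θc) := by
    have h1 : Tendsto (fun i : ℕ => 1 / ((i : ℝ) + 2)) atTop (𝓝 0) := by
      simp only [one_div]
      exact tendsto_inv_atTop_zero.comp (tendsto_atTop_add_const_right _ _ tendsto_natCast_atTop_atTop)
    simpa [hθs] using (h1.const_sub 1).const_mul θc
  obtain ⟨φ, hφ, hst⟩ := exists_stable hT θs hθ hlim hc
  exact fiid_of_stable hT (fun i => θs (φ i)) (fun i => hθ _) (hlim.comp hφ.tendsto_atTop) hst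

end Vale.Agent.P161
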