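import Vale.Agent.P161.Crit.PathIso
import Vale.Agent.P161.Converse
import Vale.Agent.P161.Crit.Branch

/-!
# Decay of correlations of invariant edge variables

The covariance of invariant edge variables of finite range on a `d`-regular tree decays
geometrically in the distance of the edges, at a rate that does not depend on the range.
-/

open MeasureTheory Finset Real Filter Topology
open scoped Classical

noncomputable section

namespace Vale.Agent.P161

variable {V : Type*} {G : SimpleGraph V} {d : ℕ}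

namespace Decor

/-! ## Pairs of edges -/

/-- `q` is `m` steps ahead of `p` on a common geodesic. -/
def Aligned (G : SimpleGraph V) (m : ℕ) (p q : V × V) : Prop :=
  G.dist p.1 q.2 = m + 1 ∧ G.dist p.2 q.1 + 1 = m ∧ G.dist p.1 q.1 = m ∧ G.dist p.2 q.2 = m

/-- The sum of the four distances between the ends of two edges. -/
def ed (G : SimpleGraph V) (p q : V × V) : ℕ :=
  G.dist p.1 q.1 + G.dist p.1 q.2 + G.dist p.2 q.1 + G.dist p.2 q.2

theorem ed_comm (p q : V × V) : ed G p q = ed G q p := by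
  unfold ed
  rw [SimpleGraph.dist_comm (u := p.1) (v := q.1), SimpleGraph.dist_comm (u := p.1) (v := q.2),
    SimpleGraph.dist_comm (u := p.2) (v := q.1), SimpleGraph.dist_comm (u := p.2) (v := q.2)]
  omega

theorem ed_swap_left (p q : V × V) : ed G p.swap q = ed G p q := by
  simp only [ed, Prod.fst_swap, Prod.snd_swap]; omega

theorem ed_swap_right (p q : V × V) : ed G p q.swap = ed G p q := by
  simp only [ed, Prod.fst_swap, Prod.snd_swap]; omega

theorem ed_map (hT : RTree G d) (g : G ≃g G) (p q : V × V) :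
    ed G (p.map g g) (q.map g g) = ed G p q := by
  simp [ed, iso_dist hT]

theorem ed_aligned {m : ℕ} {p q : V × V} (h : Aligned G m p q) : ed G p q = 4 * m := by
  obtain ⟨h1, h2, h3, h4⟩ := h
  unfold ed; omega

/-- Two edges are equal or aligned, up to orientation. -/
theorem edge_cases (hT : RTree G d) {p q : V × V} (hp : G.Adj p.1 p.2) (hq : G.Adj q.1 q.2) :
    ∃ p' q', (p' = p ∨ p' = p.swap) ∧ (q' = q ∨ q' = q.swap) ∧
      (p' = q' ∨ ∃ m, 1 ≤ m ∧ Aligned G m p' q') := by
  -- orient `p` towards `q.1`, then `q` away from `p`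
  obtain ⟨p', hpp, hp', h1⟩ : ∃ p' : V × V, (p' = p ∨ p' = p.swap) ∧ G.Adj p'.1 p'.2 ∧
      G.dist p'.1 q.1 = G.dist p'.2 q.1 + 1 := by
    rcases dist_adj_cases hT hp q.1 with h | h
    · exact ⟨p, Or.inl rfl, hp, h⟩
    · exact ⟨p.swap, Or.inr rfl, hp.symm, h⟩
  rcases dist_adj_cases hT hp' q.2 with h2 | h2
  · rcases dist_adj_cases hT hq p'.2 with h3 | h3
    · refine ⟨p', q.swap, hpp, Or.inr rfl, Or.inr ⟨G.dist p'.2 q.2 + 1, by omega, ?_⟩⟩
      simp only [Aligned, Prod.fst_swap, Prod.snd_swap]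
      rw [SimpleGraph.dist_comm (u := q.1), SimpleGraph.dist_comm (u := q.2)] at h3
      refine ⟨?_, ?_, ?_, ?_⟩ <;> first | trivial | omega
    · refine ⟨p', q, hpp, Or.inl rfl, Or.inr ⟨G.dist p'.2 q.1 + 1, by omega, ?_⟩⟩
      simp only [Aligned]
      rw [SimpleGraph.dist_comm (u := q.1), SimpleGraph.dist_comm (u := q.2)] at h3
      refine ⟨?_, ?_, ?_, ?_⟩ <;> first | trivial | omega
  · -- the two ends of `q` lie on different sides of `p'`
    have key := dist_through hT hp' h2 h1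
    rw [SimpleGraph.dist_eq_one_iff_adj.2 hq.symm] at key
    have e1 : q.2 = p'.1 := hT.conn.dist_eq_zero_iff.1 (by omega)
    have e2 : p'.2 = q.1 := hT.conn.dist_eq_zero_iff.1 (by omega)
    exact ⟨p', q.swap, hpp, Or.inr rfl, Or.inl (Prod.ext e1.symm e2)⟩

theorem exists_aligned_iso (hT : RTree G d) {m : ℕ} {p q p' q' : V × V} (hp : G.Adj p.1 p.2)
    (hq : G.Adj q.1 q.2) (hp' : G.Adj p'.1 p'.2) (hq' : G.Adj q'.1 q'.2)
    (h : Aligned G m p q) (h' : Aligned G m p' q') :
    ∃ g : G ≃g G, p.map g g = p' ∧ q.map g g = q' := by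
  obtain ⟨a1, a2, a3, a4⟩ := h
  obtain ⟨b1, b2, b3, b4⟩ := h'
  obtain ⟨g, hg1, hg2⟩ := exists_pair_iso hT (a := p.1) (b := q.2) (a' := p'.1) (b' := q'.2)
    (by omega)
  have one : ∀ {u v : V}, G.Adj u v → G.dist u v = 1 := fun h => SimpleGraph.dist_eq_one_iff_adj.2 h
  have e1 : g p.2 = p'.2 := by
    have i1 : G.dist p'.1 (g p.2) = 1 := by rw [← hg1, iso_dist hT, one hp]
    have i2 : G.dist (g p.2) q'.2 = m := by rw [← hg2, iso_dist hT, a4]
    exact geo_unique hT (a := p'.1) (b := q'.2) (by omega) (by rw [one hp', b4, b1]; omega)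
      (by rw [i1, one hp'])
  have e2 : g q.1 = q'.1 := by
    have i1 : G.dist p'.1 (g q.1) = m := by rw [← hg1, iso_dist hT, a3]
    have i2 : G.dist (g q.1) q'.2 = 1 := by rw [← hg2, iso_dist hT, one hq]
    exact geo_unique hT (a := p'.1) (b := q'.2) (by omega) (by rw [one hq', b3, b1])
      (by rw [i1, b3])
  exact ⟨g, Prod.ext hg1 e1, Prod.ext e2 hg2⟩

/-! ## The class of edges `m` steps away -/

/-- The oriented edges `m` steps away from `p`. -/
def kset (G : SimpleGraph V) (m : ℕ) (p : V × V) : Finset (V × V) :=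
  ((ball G p.1 (4 * m)).biUnion fun u => (nbr G u).image fun v => (u, v)).filter
    fun q => ed G p q = 4 * m

theorem mem_kset (hT : RTree G d) {m : ℕ} {p q : V × V} :
    q ∈ kset G m p ↔ G.Adj q.1 q.2 ∧ ed G p q = 4 * m := by
  simp only [kset, Finset.mem_filter, Finset.mem_biUnion, Finset.mem_image]
  constructor
  · rintro ⟨⟨u, -, v, hv, rfl⟩, h⟩
    exact ⟨(mem_nbr hT).1 hv, h⟩
  · rintro ⟨h1, h2⟩
    refine ⟨⟨q.1, (mem_ball hT).2 ?_, q.2, (mem_nbr hT).2 h1, rfl⟩, h2⟩
    unfold ed at h2; omega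

theorem kset_swap (hT : RTree G d) (m : ℕ) (p : V × V) : kset G m p.swap = kset G m p := by
  ext q; rw [mem_kset hT, mem_kset hT, ed_swap_left]

/-- The edges `l` steps ahead of `p`. -/
def fwd (G : SimpleGraph V) : ℕ → V × V → Finset (V × V)
  | 0, p => {p}
  | l + 1, p => (fwd G l p).biUnion fun q => (kids G q.1 q.2).image fun v => (q.2, v)

theorem fwd_spec (hT : RTree G d) {p : V × V} (hp : G.Adj p.1 p.2) : ∀ (l : ℕ) (q : V × V),
    q ∈ fwd G l p → G.Adj q.1 q.2 ∧ G.dist p.1 q.1 = l ∧ G.dist p.1 q.2 = l + 1 ∧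
      G.dist p.2 q.2 = l ∧ (l = 0 → q = p) ∧ (1 ≤ l → G.dist p.2 q.1 + 1 = l) := by
  intro l
  induction l with
  | zero =>
    intro q hq
    rw [fwd, Finset.mem_singleton] at hq
    subst hq
    refine ⟨hp, by simp, ?_, by simp, fun _ => rfl, fun h => absurd h (by omega)⟩
    rw [SimpleGraph.dist_eq_one_iff_adj.2 hp]
  | succ l ih =>
    intro q hq
    simp only [fwd, Finset.mem_biUnion, Finset.mem_image] at hq
    obtain ⟨r, hr, v, hv, rfl⟩ := hq
    obtain ⟨hadj, h1, h2, h3, h4, h5⟩ := ih r hr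
    rw [kids, Finset.mem_erase, mem_nbr hT] at hv
    have away : G.dist p.1 v = l + 2 := by
      rcases dist_adj_cases hT hv.2 p.1 with h | h
      · rw [SimpleGraph.dist_comm (u := r.2), SimpleGraph.dist_comm (u := v)] at h
        exact absurd (closer_unique hT (o := p.1) hv.2 hadj.symm h (by omega)) hv.1
      · rw [SimpleGraph.dist_comm (u := r.2), SimpleGraph.dist_comm (u := v)] at h
        omega
    have t1 := hT.conn.dist_triangle (u := p.1) (v := p.2) (w := v)
    rw [SimpleGraph.dist_eq_one_iff_adj.2 hp] at t1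
    have t2 := hT.conn.dist_triangle (u := p.2) (v := r.2) (w := v)
    rw [SimpleGraph.dist_eq_one_iff_adj.2 hv.2] at t2
    refine ⟨hv.2, h2, away, show G.dist p.2 v = l + 1 by omega, fun h => absurd h (by omega), fun _ => ?_⟩
    show G.dist p.2 r.2 + 1 = l + 1
    rw [h3]

theorem card_fwd (hT : RTree G d) {p : V × V} (hp : G.Adj p.1 p.2) (l : ℕ) :
    (fwd G l p).card = (d - 1) ^ l := by
  induction l with
  | zero => simp [fwd]
  | succ l ih =>
    rw [fwd, Finset.card_biUnion, Finset.sum_congr rfl (g := fun _ => d - 1) ?_,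
      Finset.sum_const, ih, smul_eq_mul, pow_succ]
    · intro q hq
      rw [Finset.card_image_of_injective _ (fun v v' h => (Prod.ext_iff.1 h).2), kids,
        Finset.card_erase_of_mem ((mem_nbr hT).2 (fwd_spec hT hp l q hq).1.symm), card_nbr hT]
    · intro q hq r hr hne
      rw [Function.onFun, Finset.disjoint_left]
      intro x hx hx'
      simp only [Finset.mem_image] at hx hx'
      obtain ⟨v, -, rfl⟩ := hx
      obtain ⟨v', -, he⟩ := hx'
      have e : r.2 = q.2 := (Prod.ext_iff.1 he).1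
      obtain ⟨hq1, hq2, hq3, -⟩ := fwd_spec hT hp l q hq
      obtain ⟨hr1, hr2, hr3, -⟩ := fwd_spec hT hp l r hr
      refine hne (Prod.ext ?_ e.symm)
      exact closer_unique hT (o := p.1) (u := q.2) hq1.symm (e ▸ hr1.symm) (by omega) (by omega)

theorem card_kset_ge (hT : RTree G d) {p : V × V} (hp : G.Adj p.1 p.2) {m : ℕ} (hm : 1 ≤ m) :
    (d - 1) ^ m ≤ (kset G m p).card := by
  rw [← card_fwd hT hp m]
  refine Finset.card_le_card fun q hq => ?_
  obtain ⟨h0, h1, h2, h3, -, h4⟩ := fwd_spec hT hp m q hq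
  exact (mem_kset hT).2 ⟨h0, ed_aligned ⟨h2, h4 hm, h1, h3⟩⟩

/-- The `M`-th power of the operator summing over the edges `m` steps away. -/
def kpow (G : SimpleGraph V) (m : ℕ) (φ : V × V → ℝ) : ℕ → V × V → ℝ
  | 0, p => φ p
  | M + 1, p => ∑ q ∈ kset G m p, kpow G m φ M q

theorem dist_le_of_kset (hT : RTree G d) {m : ℕ} {p q : V × V} (hp : G.Adj p.1 p.2)
    (hq : q ∈ kset G m p) : G.dist q.1 p.1 ≤ m + 1 := by
  obtain ⟨hadj, he⟩ := (mem_kset hT).1 hq
  have s1 := SimpleGraph.dist_eq_one_iff_adj.2 hp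
  have s2 := SimpleGraph.dist_eq_one_iff_adj.2 hadj.symm
  have t1 := hT.conn.dist_triangle (u := p.1) (v := q.2) (w := q.1)
  have t2 := hT.conn.dist_triangle (u := p.1) (v := p.2) (w := q.1)
  have t3 := hT.conn.dist_triangle (u := p.2) (v := q.2) (w := q.1)
  rw [SimpleGraph.dist_comm]
  unfold ed at he
  omega

/-- The weight bound: the operator has norm at most `Λ` on geometric weights. -/
theorem sum_kset_le (hT : RTree G d) {a b : ℝ} (hb : 0 < b) (hba : b < a) (hb1 : b ≤ 1)
    (hab : ((d : ℝ) - 1) * (a * b) < 1) (o : V) {m : ℕ} {p : V × V} (hp : G.Adj p.1 p.2) :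
    ∑ q ∈ kset G m p, a ^ G.dist o q.1 ≤
      d * (2 / (1 - ((d : ℝ) - 1) * (a * b)) * a / (a - b)) / b ^ (m + 1) * a ^ G.dist o p.1 := by
  have ha : 0 ≤ a := by linarith
  have hbm : 0 < b ^ (m + 1) := pow_pos hb _
  set S := ball G p.1 (4 * m) with hS
  set F : V → ℝ := fun u => a ^ G.dist o u * b ^ G.dist u p.1 with hF
  have hF0 : ∀ u, 0 ≤ F u := fun u => mul_nonneg (pow_nonneg ha _) (pow_nonneg hb.le _)
  have key : (∑ q ∈ kset G m p, a ^ G.dist o q.1) * b ^ (m + 1) ≤
      d * (2 / (1 - ((d : ℝ) - 1) * (a * b)) * a / (a - b) * a ^ G.dist o p.1) := by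
    calc (∑ q ∈ kset G m p, a ^ G.dist o q.1) * b ^ (m + 1)
        ≤ ∑ q ∈ kset G m p, F q.1 := by
          rw [Finset.sum_mul]
          exact Finset.sum_le_sum fun q hq => mul_le_mul_of_nonneg_left
            (pow_le_pow_of_le_one hb.le hb1 (dist_le_of_kset hT hp hq)) (pow_nonneg ha _)
      _ ≤ ∑ q ∈ S.biUnion fun u => (nbr G u).image fun v => (u, v), F q.1 :=
          Finset.sum_le_sum_of_subset_of_nonneg (Finset.filter_subset _ _) fun q _ _ => hF0 _
      _ = ∑ u ∈ S, ∑ q ∈ (nbr G u).image (fun v => (u, v)), F q.1 :=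
          Finset.sum_biUnion fun u _ w _ hne => by
            rw [Function.onFun, Finset.disjoint_left]
            intro x hx hx'
            simp only [Finset.mem_image] at hx hx'
            obtain ⟨v, -, rfl⟩ := hx
            obtain ⟨v', -, he⟩ := hx'
            exact hne (Prod.ext_iff.1 he).1.symm
      _ = ∑ u ∈ S, (d : ℝ) * F u := by
          refine Finset.sum_congr rfl fun u _ => ?_
          rw [Finset.sum_image fun v _ v' _ h => (Prod.ext_iff.1 h).2,
            Finset.sum_congr rfl (g := fun _ => F u) (fun v _ => rfl), Finset.sum_const,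
            card_nbr hT, nsmul_eq_mul]
      _ ≤ _ := by
          rw [← Finset.mul_sum]
          exact mul_le_mul_of_nonneg_left (sum_conv_le hT hb.le hba hab S o p.1) (Nat.cast_nonneg d)
  rw [div_mul_eq_mul_div, le_div_iff₀ hbm, mul_assoc (d : ℝ)]
  exact key

/-! ## Invariant edge variables -/

variable {Ω : Type*} [MeasurableSpace Ω]

/-- The hypotheses on the edge variables. -/
structure Inv (G : SimpleGraph V) (P : Measure Ω) (W : V → V → Ω → ℝ) (B : ℝ) (r : ℕ) : Prop where
  prob : IsProbabilityMeasure P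
  meas : ∀ a b, G.Adj a b → Measurable (W a b)
  bdd : ∀ a b ω, G.Adj a b → |W a b ω| ≤ B
  symm : ∀ a b, G.Adj a b → W a b = W b a
  inv : ∀ (g : G ≃g G) (a b a' b' : V), G.Adj a b → G.Adj a' b' →
    ∫ ω, W (g a) (g b) ω * W (g a') (g b') ω ∂P = ∫ ω, W a b ω * W a' b' ω ∂P
  range : ∀ a b a' b', G.Adj a b → G.Adj a' b' → r < G.dist a a' →
    ∫ ω, W a b ω * W a' b' ω ∂P = 0

/-- The covariance of two edge variables. -/
def cc (P : Measure Ω) (W : V → V → Ω → ℝ) (p q : V × V) : ℝ :=
  ∫ ω, W p.1 p.2 ω * W q.1 q.2 ω ∂P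

/-- The operator powers applied to the covariance with `q`. -/
def cpow (G : SimpleGraph V) (m : ℕ) (P : Measure Ω) (W : V → V → Ω → ℝ) (M : ℕ)
    (p q : V × V) : ℝ :=
  kpow G m (fun f => cc P W f q) M p

variable {P : Measure Ω} {W : V → V → Ω → ℝ} {B : ℝ} {r m : ℕ}

theorem kpow_bdd (hT : RTree G d) (φ : V × V → Ω → ℝ) {B : ℝ}
    (hm : ∀ f : V × V, G.Adj f.1 f.2 → Measurable (φ f))
    (hb : ∀ (f : V × V) ω, G.Adj f.1 f.2 → |φ f ω| ≤ B) :
    ∀ (M : ℕ) (p : V × V), G.Adj p.1 p.2 → Measurable (fun ω => kpow G m (fun f => φ f ω) M p) ∧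
      ∃ K, ∀ ω, |kpow G m (fun f => φ f ω) M p| ≤ K := by
  intro M
  induction M with
  | zero => exact fun p hp => ⟨hm p hp, B, fun ω => hb p ω hp⟩
  | succ M ih =>
    intro p hp
    have h : ∀ q : V × V, ∃ K, q ∈ kset G m p → ∀ ω, |kpow G m (fun f => φ f ω) M q| ≤ K := by
      intro q
      by_cases hq : q ∈ kset G m p
      · obtain ⟨K, hK⟩ := (ih q ((mem_kset hT).1 hq).1).2
        exact ⟨K, fun _ => hK⟩
      · exact ⟨0, fun h => absurd h hq⟩
    choose K hK using h
    refine ⟨Finset.measurable_sum _ fun q hq => (ih q ((mem_kset hT).1 hq).1).1,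
      ∑ q ∈ kset G m p, K q, fun ω => ?_⟩
    exact (Finset.abs_sum_le_sum_abs _ _).trans (Finset.sum_le_sum fun q hq => hK q hq ω)

namespace Inv

variable (hW : Inv G P W B r)
include hW

omit hW in
theorem cc_comm (p q : V × V) : cc P W p q = cc P W q p := by
  simp only [cc, mul_comm]

theorem cc_swap_left {p : V × V} (hp : G.Adj p.1 p.2) (q : V × V) :
    cc P W p.swap q = cc P W p q := by
  simp only [cc, Prod.fst_swap, Prod.snd_swap, hW.symm _ _ hp]

theorem cc_swap_right (p : V × V) {q : V × V} (hq : G.Adj q.1 q.2) :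
    cc P W p q.swap = cc P W p q := by
  simp only [cc, Prod.fst_swap, Prod.snd_swap, hW.symm _ _ hq]

theorem cc_map (g : G ≃g G) {p q : V × V} (hp : G.Adj p.1 p.2) (hq : G.Adj q.1 q.2) :
    cc P W (p.map g g) (q.map g g) = cc P W p q :=
  hW.inv g _ _ _ _ hp hq

theorem cc_self (hT : RTree G d) {p q : V × V} (hp : G.Adj p.1 p.2) (hq : G.Adj q.1 q.2) :
    cc P W p p = cc P W q q := by
  obtain ⟨g, hg1, hg2⟩ := exists_pair_iso hT (a := p.1) (b := p.2) (a' := q.1) (b' := q.2)
    (by rw [SimpleGraph.dist_eq_one_iff_adj.2 hp, SimpleGraph.dist_eq_one_iff_adj.2 hq])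
  rw [← hW.cc_map g hp hp, show p.map g g = q from Prod.ext hg1 hg2]

theorem cls_const (hT : RTree G d) (hm : 1 ≤ m) {p q p₀ q₀ : V × V} (hp : G.Adj p.1 p.2)
    (hq : G.Adj q.1 q.2) (hp₀ : G.Adj p₀.1 p₀.2) (hq₀ : G.Adj q₀.1 q₀.2)
    (he : ed G p q = 4 * m) (h₀ : Aligned G m p₀ q₀) : cc P W p q = cc P W p₀ q₀ := by
  obtain ⟨p', q', hpp, hqq, hcase⟩ := edge_cases hT hp hq
  have hp' : G.Adj p'.1 p'.2 := by rcases hpp with rfl | rfl <;> [exact hp; exact hp.symm]
  have hq' : G.Adj q'.1 q'.2 := by rcases hqq with rfl | rfl <;> [exact hq; exact hq.symm]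
  have hc : cc P W p' q' = cc P W p q := by
    rcases hpp with rfl | rfl <;> rcases hqq with rfl | rfl <;>
      simp [hW.cc_swap_left hp, hW.cc_swap_right _ hq]
  have he' : ed G p' q' = 4 * m := by
    rcases hpp with rfl | rfl <;> rcases hqq with rfl | rfl <;>
      simp [ed_swap_left, ed_swap_right, he]
  rcases hcase with rfl | ⟨m', hm', hal⟩
  · simp only [ed, SimpleGraph.dist_self, SimpleGraph.dist_eq_one_iff_adj.2 hp',
      SimpleGraph.dist_eq_one_iff_adj.2 hp'.symm] at he'
    omega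
  · obtain rfl : m' = m := by rw [ed_aligned hal] at he'; omega
    obtain ⟨g, hg1, hg2⟩ := exists_aligned_iso hT hp' hq' hp₀ hq₀ hal h₀
    rw [← hc, ← hW.cc_map g hp' hq', hg1, hg2]

theorem cpow_map (hT : RTree G d) (g : G ≃g G) {q : V × V} (hq : G.Adj q.1 q.2) :
    ∀ (M : ℕ) (p : V × V), G.Adj p.1 p.2 →
      cpow G m P W M (p.map g g) (q.map g g) = cpow G m P W M p q := by
  intro M
  induction M with
  | zero => exact fun p hp => hW.cc_map g hp hq
  | succ M ih =>
    intro p hp
    simp only [cpow, kpow]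
    symm
    refine Finset.sum_nbij' (fun f => f.map g g) (fun f => f.map g.symm g.symm) ?_ ?_ ?_ ?_ ?_
    · intro f hf
      obtain ⟨h1, h2⟩ := (mem_kset hT).1 hf
      exact (mem_kset hT).2 ⟨g.map_rel_iff.2 h1, by rw [ed_map hT, h2]⟩
    · intro f hf
      obtain ⟨h1, h2⟩ := (mem_kset hT).1 hf
      refine (mem_kset hT).2 ⟨g.symm.map_rel_iff.2 h1, ?_⟩
      rw [← ed_map hT g, ← h2]
      congr 1
      exact Prod.ext (g.apply_symm_apply _) (g.apply_symm_apply _)
    · intro f _; exact Prod.ext (g.symm_apply_apply _) (g.symm_apply_apply _)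
    · intro f _; exact Prod.ext (g.apply_symm_apply _) (g.apply_symm_apply _)
    · intro f hf
      exact (ih f ((mem_kset hT).1 hf).1).symm

theorem cpow_swap_left (hT : RTree G d) {p : V × V} (hp : G.Adj p.1 p.2) (q : V × V) (M : ℕ) :
    cpow G m P W M p.swap q = cpow G m P W M p q := by
  cases M with
  | zero => exact hW.cc_swap_left hp q
  | succ M => simp only [cpow, kpow, kset_swap hT]

theorem cpow_swap_right (p : V × V) {q : V × V} (hq : G.Adj q.1 q.2) (M : ℕ) :
    cpow G m P W M p q.swap = cpow G m P W M p q := by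
  simp only [cpow, hW.cc_swap_right _ hq]

theorem cpow_comm (hT : RTree G d) {p q : V × V} (hp : G.Adj p.1 p.2) (hq : G.Adj q.1 q.2)
    (M : ℕ) : cpow G m P W M p q = cpow G m P W M q p := by
  obtain ⟨p', q', hpp, hqq, hcase⟩ := edge_cases hT hp hq
  have hp' : G.Adj p'.1 p'.2 := by rcases hpp with rfl | rfl <;> [exact hp; exact hp.symm]
  have hq' : G.Adj q'.1 q'.2 := by rcases hqq with rfl | rfl <;> [exact hq; exact hq.symm]
  have h1 : cpow G m P W M p' q' = cpow G m P W M p q := by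
    rcases hpp with rfl | rfl <;> rcases hqq with rfl | rfl <;>
      simp [hW.cpow_swap_left hT hp, hW.cpow_swap_right _ hq]
  have h2 : cpow G m P W M q' p' = cpow G m P W M q p := by
    rcases hpp with rfl | rfl <;> rcases hqq with rfl | rfl <;>
      simp [hW.cpow_swap_left hT hq, hW.cpow_swap_right _ hp]
  rw [← h1, ← h2]
  rcases hcase with rfl | ⟨k, hk, hal⟩
  · rfl
  · -- the reflection of the common geodesic exchanges the two edges
    have hal' : Aligned G k q'.swap p'.swap := by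
      obtain ⟨a1, a2, a3, a4⟩ := hal
      refine ⟨?_, ?_, ?_, ?_⟩ <;>
        simp only [Prod.fst_swap, Prod.snd_swap] <;> rw [SimpleGraph.dist_comm] <;> assumption
    obtain ⟨g, hg1, hg2⟩ := exists_aligned_iso hT hp' hq' hq'.symm hp'.symm hal hal'
    rw [← hW.cpow_map hT g hq' M p' hp', hg1, hg2, hW.cpow_swap_right _ hp',
      hW.cpow_swap_left hT hq']

theorem integrable_prod_kpow (hT : RTree G d) {p q : V × V} (hp : G.Adj p.1 p.2)
    (hq : G.Adj q.1 q.2) (M N : ℕ) :
    Integrable (fun ω => kpow G m (fun f => W f.1 f.2 ω) M p *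
      kpow G m (fun f => W f.1 f.2 ω) N q) P := by
  have := hW.prob
  obtain ⟨h1, K, hK⟩ := kpow_bdd (m := m) hT (fun f => W f.1 f.2) (fun f => hW.meas _ _)
    (fun f ω => hW.bdd _ _ ω) M p hp
  obtain ⟨h2, L, hL⟩ := kpow_bdd (m := m) hT (fun f => W f.1 f.2) (fun f => hW.meas _ _)
    (fun f ω => hW.bdd _ _ ω) N q hq
  refine Integrable.of_bound (h1.mul h2).aestronglyMeasurable (K * L) (ae_of_all _ fun ω => ?_)
  rw [Real.norm_eq_abs, abs_mul]
  exact mul_le_mul (hK ω) (hL ω) (abs_nonneg _) ((abs_nonneg _).trans (hK ω))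

theorem integral_kpow (hT : RTree G d) : ∀ (N M : ℕ) (p q : V × V), G.Adj p.1 p.2 →
    G.Adj q.1 q.2 → ∫ ω, kpow G m (fun f => W f.1 f.2 ω) M p *
      kpow G m (fun f => W f.1 f.2 ω) N q ∂P = cpow G m P W (M + N) p q := by
  intro N
  induction N with
  | zero =>
    intro M
    induction M with
    | zero => intro p q _ _; rfl
    | succ M ih =>
      intro p q hp hq
      simp only [cpow, kpow, Finset.sum_mul]
      rw [integral_finsetSum]
      · refine Finset.sum_congr rfl fun f hf => ?_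
        exact ih f q ((mem_kset hT).1 hf).1 hq
      · intro f hf
        exact hW.integrable_prod_kpow hT ((mem_kset hT).1 hf).1 hq M 0
  | succ N ih =>
    intro M p q hp hq
    simp only [kpow, Finset.mul_sum]
    rw [integral_finsetSum _ fun f hf => hW.integrable_prod_kpow hT hp ((mem_kset hT).1 hf).1 M N,
      hW.cpow_comm hT hp hq, ← Nat.add_assoc]
    show _ = ∑ f ∈ kset G m q, cpow G m P W (M + N) f p
    refine Finset.sum_congr rfl fun f hf => ?_
    rw [ih M p f hp ((mem_kset hT).1 hf).1, hW.cpow_comm hT hp ((mem_kset hT).1 hf).1]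

/-- One doubling step: Cauchy-Schwarz. -/
theorem cpow_sq_le (hT : RTree G d) {e : V × V} (he : G.Adj e.1 e.2) {c : ℝ}
    (hc : cc P W e e ≤ c) (hc0 : 0 < c) (M : ℕ) :
    cpow G m P W M e e ^ 2 ≤ c * cpow G m P W (M + M) e e := by
  have := hW.prob
  set X : Ω → ℝ := fun ω => kpow G m (fun f => W f.1 f.2 ω) M e with hX
  set Y : Ω → ℝ := fun ω => kpow G m (fun f => W f.1 f.2 ω) 0 e with hY
  have hXX : ∫ ω, X ω * X ω ∂P = cpow G m P W (M + M) e e := hW.integral_kpow hT M M e e he he
  have hXY : ∫ ω, X ω * Y ω ∂P = cpow G m P W M e e := hW.integral_kpow hT 0 M e e he he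
  have hYY : ∫ ω, Y ω * Y ω ∂P ≤ c := hc
  have i1 : Integrable (fun ω => X ω * X ω) P := hW.integrable_prod_kpow hT he he M M
  have i2 : Integrable (fun ω => X ω * Y ω) P := hW.integrable_prod_kpow hT he he M 0
  have i3 : Integrable (fun ω => Y ω * Y ω) P := hW.integrable_prod_kpow hT he he 0 0
  set s := cpow G m P W M e e with hs
  have h0 : 0 ≤ ∫ ω, (c ^ 2 * (X ω * X ω) - 2 * c * s * (X ω * Y ω)) + s ^ 2 * (Y ω * Y ω) ∂P := by
    refine integral_nonneg fun ω => ?_
    show 0 ≤ (c ^ 2 * (X ω * X ω) - 2 * c * s * (X ω * Y ω)) + s ^ 2 * (Y ω * Y ω)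
    have := sq_nonneg (c * X ω - s * Y ω)
    linarith
  have i12 : Integrable (fun ω => c ^ 2 * (X ω * X ω) - 2 * c * s * (X ω * Y ω)) P :=
    (i1.const_mul (c ^ 2)).sub (i2.const_mul (2 * c * s))
  rw [integral_add i12 (i3.const_mul (s ^ 2)),
    integral_sub (i1.const_mul (c ^ 2)) (i2.const_mul (2 * c * s)),
    integral_const_mul, integral_const_mul, integral_const_mul, hXX, hXY] at h0
  have h1 : s ^ 2 * ∫ ω, Y ω * Y ω ∂P ≤ s ^ 2 * c :=
    mul_le_mul_of_nonneg_left hYY (sq_nonneg s)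
  have h2 : c * (s ^ 2) ≤ c * (c * cpow G m P W (M + M) e e) := by linarith
  exact le_of_mul_le_mul_left h2 hc0

/-- The spectral bound on one class sum. -/
theorem cpow_one_le (hT : RTree G d) {a b : ℝ} (hb : 0 < b) (hba : b < a) (ha1 : a ≤ 1)
    (hab : ((d : ℝ) - 1) * (a * b) < 1) {e : V × V} (he : G.Adj e.1 e.2) :
    |cpow G m P W 1 e e| ≤ cc P W e e *
      (d * (2 / (1 - ((d : ℝ) - 1) * (a * b)) * a / (a - b)) / b ^ (m + 1)) := by
  set L : ℝ := d * (2 / (1 - ((d : ℝ) - 1) * (a * b)) * a / (a - b)) / b ^ (m + 1) with hL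
  have ha : 0 < a := hb.trans hba
  have hd : (3 : ℝ) ≤ d := by exact_mod_cast hT.three
  have hL0 : 0 < L := by
    rw [hL]
    have : 0 < 1 - ((d : ℝ) - 1) * (a * b) := by linarith
    have : 0 < a - b := by linarith
    positivity
  set K0 : ℝ := |B| * |B| / a ^ r with hK0
  have hK0' : 0 ≤ K0 := by positivity
  -- growth of the iterates
  have grow : ∀ (M : ℕ) (p : V × V), G.Adj p.1 p.2 →
      |cpow G m P W M p e| ≤ K0 * L ^ M * a ^ G.dist e.1 p.1 := by
    intro M
    induction M with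
    | zero =>
      intro p hp
      have := hW.prob
      simp only [cpow, kpow, pow_zero, mul_one]
      by_cases h : r < G.dist p.1 e.1
      · rw [show cc P W p e = 0 from hW.range _ _ _ _ hp he h, abs_zero]
        positivity
      · have h1 : |cc P W p e| ≤ |B| * |B| := by
          have := norm_integral_le_of_norm_le_const (μ := P)
            (f := fun ω => W p.1 p.2 ω * W e.1 e.2 ω) (C := |B| * |B|) (ae_of_all _ fun ω => by
              rw [Real.norm_eq_abs, abs_mul]
              exact mul_le_mul ((hW.bdd _ _ ω hp).trans (le_abs_self B))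
                ((hW.bdd _ _ ω he).trans (le_abs_self B)) (abs_nonneg _) (abs_nonneg _))
          simpa [cc] using this
        refine h1.trans ?_
        rw [hK0, div_mul_eq_mul_div, le_div_iff₀ (pow_pos ha r)]
        refine mul_le_mul_of_nonneg_left (pow_le_pow_of_le_one ha.le ha1 ?_) (by positivity)
        rw [SimpleGraph.dist_comm]; omega
    | succ M ih =>
      intro p hp
      simp only [cpow, kpow]
      refine (Finset.abs_sum_le_sum_abs _ _).trans ?_
      refine (Finset.sum_le_sum fun q hq => ih q ((mem_kset hT).1 hq).1).trans ?_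
      rw [← Finset.mul_sum]
      refine (mul_le_mul_of_nonneg_left (sum_kset_le hT hb hba (hba.le.trans ha1) hab e.1 hp)
        (by positivity)).trans (le_of_eq ?_)
      rw [← hL, pow_succ]
      ring
  refine le_of_forall_pos_le_add fun ε hε => ?_
  set c := cc P W e e + ε / L with hc
  have hnn : 0 ≤ cc P W e e := integral_nonneg fun ω => mul_self_nonneg _
  have hc0 : 0 < c := by rw [hc]; positivity
  have step : ∀ i : ℕ,
      |cpow G m P W 1 e e| ^ (2 ^ i) * c ≤ c ^ (2 ^ i) * |cpow G m P W (2 ^ i) e e| := by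
    intro i
    induction i with
    | zero => simp [mul_comm]
    | succ i ih =>
      have hh := hW.cpow_sq_le hT he (c := c) (by rw [hc]; linarith [div_pos hε hL0]) hc0 (2 ^ i)
        (m := m)
      rw [← two_mul, ← pow_succ'] at hh
      have h2 := pow_le_pow_left₀ (by positivity) ih 2
      rw [mul_pow, mul_pow, ← pow_mul, ← pow_mul, ← pow_succ, sq_abs] at h2
      refine le_of_mul_le_mul_right ?_ hc0
      calc |cpow G m P W 1 e e| ^ (2 ^ (i + 1)) * c * c
          = |cpow G m P W 1 e e| ^ (2 ^ (i + 1)) * c ^ 2 := by ring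
        _ ≤ c ^ (2 ^ (i + 1)) * cpow G m P W (2 ^ i) e e ^ 2 := h2
        _ ≤ c ^ (2 ^ (i + 1)) * (c * |cpow G m P W (2 ^ (i + 1)) e e|) :=
            mul_le_mul_of_nonneg_left
              (hh.trans (mul_le_mul_of_nonneg_left (le_abs_self _) hc0.le)) (by positivity)
        _ = c ^ (2 ^ (i + 1)) * |cpow G m P W (2 ^ (i + 1)) e e| * c := by ring
  have main : |cpow G m P W 1 e e| ≤ c * L := by
    by_contra hlt
    rw [not_le] at hlt
    have hgt : 1 < |cpow G m P W 1 e e| / (c * L) := by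
      rw [one_lt_div (by positivity)]; exact hlt
    obtain ⟨i, hi⟩ := pow_unbounded_of_one_lt (K0 / c) hgt
    have h1 := step i
    have h2 : |cpow G m P W (2 ^ i) e e| ≤ K0 * L ^ (2 ^ i) := by
      simpa using grow (2 ^ i) e he
    have h3 : (|cpow G m P W 1 e e| / (c * L)) ^ (2 ^ i) ≤ K0 / c := by
      rw [div_pow, div_le_div_iff₀ (by positivity) hc0, mul_pow]
      calc |cpow G m P W 1 e e| ^ (2 ^ i) * c
          ≤ c ^ (2 ^ i) * (K0 * L ^ (2 ^ i)) :=
            h1.trans (mul_le_mul_of_nonneg_left h2 (by positivity))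
        _ = K0 * (c ^ (2 ^ i) * L ^ (2 ^ i)) := by ring
    exact absurd (hi.trans_le ((pow_le_pow_right₀ hgt.le Nat.lt_two_pow_self.le).trans h3))
      (lt_irrefl _)
  refine main.trans (le_of_eq ?_)
  rw [hc, add_mul, div_mul_cancel₀ _ hL0.ne']

end Inv

/-- Sums of a geometric sequence in the distance to a fixed index. -/
theorem sum_geom_dist_le {ρ : ℝ} (h0 : 0 ≤ ρ) (h1 : ρ < 1) (n i : ℕ) :
    ∑ j ∈ range n, ρ ^ ((i - j) + (j - i)) ≤ 2 / (1 - ρ) := by
  have side : ∀ (S : Finset ℕ) (f : ℕ → ℕ), Set.InjOn f S → ∑ j ∈ S, ρ ^ f j ≤ 1 / (1 - ρ) := by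
    intro S f hf
    rw [← Finset.sum_image hf, one_div, ← tsum_geometric_of_lt_one h0 h1]
    exact (summable_geometric_of_lt_one h0 h1).sum_le_tsum _ fun k _ => pow_nonneg h0 k
  rw [← Finset.sum_filter_add_sum_filter_not (range n) (fun j => j ≤ i),
    show (2 : ℝ) / (1 - ρ) = 1 / (1 - ρ) + 1 / (1 - ρ) by ring]
  refine add_le_add (side _ _ ?_) (side _ _ ?_) <;>
    intro x hx y hy (h : i - x + (x - i) = i - y + (y - i)) <;>
    simp only [Finset.coe_filter, Set.mem_ofPred_eq] at hx hy <;> omega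

/-- Along a geodesic, distances are index differences. -/
theorem path_dist (hT : RTree G d) {x : ℕ → V} {n : ℕ}
    (hadj : ∀ i, i < n → G.Adj (x i) (x (i + 1))) (hd : G.dist (x 0) (x n) = n) {i j : ℕ}
    (hij : i ≤ j) (hj : j ≤ n) : G.dist (x i) (x j) = j - i := by
  have up : ∀ i k, i + k ≤ n → G.dist (x i) (x (i + k)) ≤ k := by
    intro i k
    induction k with
    | zero => simp
    | succ k ih =>
      intro h
      have t := hT.conn.dist_triangle (u := x i) (v := x (i + k)) (w := x (i + (k + 1)))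
      have : G.dist (x (i + k)) (x (i + (k + 1))) = 1 :=
        SimpleGraph.dist_eq_one_iff_adj.2 (hadj (i + k) (by omega))
      have := ih (by omega)
      omega
  have h1 := up i (j - i) (by omega)
  rw [show i + (j - i) = j by omega] at h1
  have h2 := up 0 i (by omega)
  rw [Nat.zero_add] at h2
  have h3 := up j (n - j) (by omega)
  rw [show j + (n - j) = n by omega] at h3
  have t1 := hT.conn.dist_triangle (u := x 0) (v := x i) (w := x n)
  have t2 := hT.conn.dist_triangle (u := x i) (v := x j) (w := x n)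
  omega

end Decor

variable {Ω : Type*} [MeasurableSpace Ω]

/-- The second moment of a sum of invariant finite-range edge variables along a geodesic is at most
linear in its length, with a constant that does not depend on the range. -/
theorem path_sum_sq_le (hT : RTree G d) : ∃ C : ℝ, 0 ≤ C ∧ ∀ (P : Measure Ω),
    IsProbabilityMeasure P → ∀ (W : V → V → Ω → ℝ) (B : ℝ) (r : ℕ),
    (∀ a b, G.Adj a b → Measurable (W a b)) →
    (∀ a b ω, G.Adj a b → |W a b ω| ≤ B) →
    (∀ a b, G.Adj a b → W a b = W b a) →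
    (∀ (g : G ≃g G) (a b a' b' : V), G.Adj a b → G.Adj a' b' →
      ∫ ω, W (g a) (g b) ω * W (g a') (g b') ω ∂P = ∫ ω, W a b ω * W a' b' ω ∂P) →
    (∀ a b a' b', G.Adj a b → G.Adj a' b' → r < G.dist a a' →
      ∫ ω, W a b ω * W a' b' ω ∂P = 0) →
    ∀ (x : ℕ → V) (n : ℕ), (∀ i, i < n → G.Adj (x i) (x (i + 1))) → G.dist (x 0) (x n) = n →
      ∀ a b, G.Adj a b →
        ∫ ω, (∑ i ∈ range n, W (x i) (x (i + 1)) ω) ^ 2 ∂P ≤ C * n * ∫ ω, W a b ω ^ 2 ∂P := by
  have hd : (3 : ℝ) ≤ d := by exact_mod_cast hT.three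
  set Q : ℝ := (d : ℝ) - 1 with hQ
  have hQ2 : 2 ≤ Q := by linarith
  set a : ℝ := 1 / √Q with ha
  set b : ℝ := (1 / Q + a) / 2 with hb
  have hs0 : 0 < √Q := Real.sqrt_pos.2 (by linarith)
  have hs : √Q * √Q = Q := Real.mul_self_sqrt (by linarith)
  have hs1 : 1 < √Q := by
    rw [Real.lt_sqrt (by norm_num)]; linarith
  have ha0 : 0 < a := by positivity
  have ha1 : a ≤ 1 := by rw [ha, div_le_one hs0]; exact hs1.le
  have hQa : Q * a = √Q := by
    rw [ha, mul_one_div, div_eq_iff hs0.ne', hs]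
  have hia : 1 / Q < a := by
    rw [div_lt_iff₀ (by linarith), mul_comm, hQa]; exact hs1
  have hb0 : 0 < b := by
    have : 0 < 1 / Q := by positivity
    rw [hb]; linarith
  have hba : b < a := by rw [hb]; linarith
  have hQb : 1 < Q * b := by
    have : Q * (1 / Q) = 1 := by field_simp
    rw [hb, mul_div_assoc', mul_add, this, hQa]
    linarith
  have hab : ((d : ℝ) - 1) * (a * b) < 1 := by
    rw [← hQ, ← mul_assoc, hQa]
    calc √Q * b < √Q * a := mul_lt_mul_of_pos_left hba hs0
      _ = 1 := by rw [ha]; field_simp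
  set C1 : ℝ := d * (2 / (1 - ((d : ℝ) - 1) * (a * b)) * a / (a - b)) with hC1
  have hC1' : 0 ≤ C1 := by
    have : 0 < 1 - ((d : ℝ) - 1) * (a * b) := by linarith
    have : 0 < a - b := by linarith
    rw [hC1]
    positivity
  set ρ : ℝ := 1 / (Q * b) with hρ
  have hρ0 : 0 ≤ ρ := by positivity
  have hρ1 : ρ < 1 := by rw [hρ, div_lt_one (by linarith)]; exact hQb
  set K : ℝ := max 1 (C1 / b) with hK
  have hK0 : 0 ≤ K := zero_le_one.trans (le_max_left _ _)
  refine ⟨K * (2 / (1 - ρ)), mul_nonneg hK0 (div_nonneg (by norm_num) (by linarith)), ?_⟩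
  intro P hP W B r hmeas hbdd hsymm hinv hrange x n hadj hdist u v huv
  have hW : Decor.Inv G P W B r := ⟨hP, hmeas, hbdd, hsymm, hinv, hrange⟩
  set c0 := Decor.cc P W (u, v) (u, v) with hc0
  have hc0' : ∫ ω, W u v ω ^ 2 ∂P = c0 := by simp only [hc0, Decor.cc, sq]
  have hnn : 0 ≤ c0 := integral_nonneg fun ω => mul_self_nonneg _
  have pd := @Decor.path_dist _ _ _ hT x n hadj hdist
  -- decay along the path
  have decay : ∀ i j, i < j → j < n →
      |Decor.cc P W (x i, x (i + 1)) (x j, x (j + 1))| ≤ c0 * K * ρ ^ (j - i) := by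
    intro i j hij hj
    set m := j - i with hm
    set e := (x i, x (i + 1)) with he
    have hadje : G.Adj e.1 e.2 := hadj i (by omega)
    have hal : Decor.Aligned G m e (x j, x (j + 1)) := by
      refine ⟨?_, ?_, ?_, ?_⟩ <;> simp only [he]
      · rw [pd (i := i) (j := j + 1) (by omega) (by omega)]; omega
      · rw [pd (i := i + 1) (j := j) (by omega) (by omega)]; omega
      · rw [pd (i := i) (j := j) (by omega) (by omega)]
      · rw [pd (i := i + 1) (j := j + 1) (by omega) (by omega)]; omega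
    set cm := Decor.cc P W e (x j, x (j + 1)) with hcm
    have hsum : Decor.cpow G m P W 1 e e = ((Decor.kset G m e).card : ℝ) * cm := by
      simp only [Decor.cpow, Decor.kpow]
      rw [Finset.sum_congr rfl (g := fun _ => cm), Finset.sum_const, nsmul_eq_mul]
      intro q hq
      obtain ⟨h1, h2⟩ := (Decor.mem_kset hT).1 hq
      rw [Decor.Inv.cc_comm]
      exact hW.cls_const hT (by omega) hadje h1 hadje (hadj j hj) h2 hal
    have h1 := hW.cpow_one_le hT hb0 hba ha1 hab hadje (m := m)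
    rw [hsum, hW.cc_self hT hadje (show G.Adj (u, v).1 (u, v).2 from huv), ← hc0, ← hC1,
      abs_mul, Nat.abs_cast] at h1
    have hcard : Q ^ m ≤ ((Decor.kset G m e).card : ℝ) := by
      have h := Decor.card_kset_ge hT hadje (m := m) (by omega)
      have h' : (((d - 1) ^ m : ℕ) : ℝ) ≤ ((Decor.kset G m e).card : ℝ) := by exact_mod_cast h
      rwa [Nat.cast_pow, Nat.cast_sub (by have := hT.three; omega), Nat.cast_one] at h'
    have h2 : Q ^ m * |cm| ≤ c0 * (C1 / b ^ (m + 1)) :=
      (mul_le_mul_of_nonneg_right hcard (abs_nonneg _)).trans h1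
    have hQm : 0 < Q ^ m := pow_pos (by linarith) m
    calc |cm| ≤ c0 * (C1 / b ^ (m + 1)) / Q ^ m := by rw [le_div_iff₀ hQm, mul_comm]; exact h2
      _ = c0 * (C1 / b) * ρ ^ m := by
          have hbm : (b ^ m) ≠ 0 := (pow_pos hb0 m).ne'
          have hb1 : b ≠ 0 := hb0.ne'
          clear_value b
          rw [hρ, one_div_pow, mul_pow, pow_succ]
          field_simp
      _ ≤ c0 * K * ρ ^ m := by
          gcongr
          exact le_max_right _ _
  have all : ∀ i ∈ range n, ∀ j ∈ range n, Decor.cc P W (x i, x (i + 1)) (x j, x (j + 1)) ≤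
      c0 * K * ρ ^ ((i - j) + (j - i)) := by
    intro i hi j hj
    rw [Finset.mem_range] at hi hj
    rcases lt_trichotomy i j with h | rfl | h
    · rw [show (i - j) + (j - i) = j - i by omega]
      exact (le_abs_self _).trans (decay i j h hj)
    · rw [show (i - i) + (i - i) = 0 by omega, pow_zero, mul_one, hc0,
        hW.cc_self hT (show G.Adj (x i, x (i + 1)).1 (x i, x (i + 1)).2 from hadj i hi)
          (show G.Adj (u, v).1 (u, v).2 from huv), ← hc0]
      exact le_mul_of_one_le_right hnn (le_max_left _ _)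
    · rw [show (i - j) + (j - i) = i - j by omega, Decor.Inv.cc_comm]
      exact (le_abs_self _).trans (decay j i h hi)
  have hint : ∀ i ∈ range n, ∀ j ∈ range n,
      Integrable (fun ω => W (x i) (x (i + 1)) ω * W (x j) (x (j + 1)) ω) P := fun i hi j hj =>
    hW.integrable_prod_kpow hT (m := 1) (p := (x i, x (i + 1))) (q := (x j, x (j + 1)))
      (hadj i (Finset.mem_range.1 hi)) (hadj j (Finset.mem_range.1 hj)) 0 0
  calc ∫ ω, (∑ i ∈ range n, W (x i) (x (i + 1)) ω) ^ 2 ∂P
      = ∑ i ∈ range n, ∑ j ∈ range n, Decor.cc P W (x i, x (i + 1)) (x j, x (j + 1)) := by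
        simp only [sq, Finset.sum_mul_sum, Decor.cc]
        rw [integral_finsetSum _ fun i hi => integrable_finsetSum _ fun j hj => hint i hi j hj]
        exact Finset.sum_congr rfl fun i hi => integral_finsetSum _ fun j hj => hint i hi j hj
    _ ≤ ∑ i ∈ range n, ∑ j ∈ range n, c0 * K * ρ ^ ((i - j) + (j - i)) :=
        Finset.sum_le_sum fun i hi => Finset.sum_le_sum fun j hj => all i hi j hj
    _ ≤ ∑ _i ∈ range n, c0 * K * (2 / (1 - ρ)) := by
        refine Finset.sum_le_sum fun i _ => ?_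
        rw [← Finset.mul_sum]
        exact mul_le_mul_of_nonneg_left (Decor.sum_geom_dist_le hρ0 hρ1 n i)
          (mul_nonneg hnn hK0)
    _ = K * (2 / (1 - ρ)) * n * ∫ ω, W u v ω ^ 2 ∂P := by
        rw [hc0', Finset.sum_const, Finset.card_range, nsmul_eq_mul]
        ring

end Vale.Agent.P161
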