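import Vale.Agent.P161.Crit.Obs

/-!
# Comparing observables centred at different vertices
-/

open MeasureTheory Finset Real
open scoped Classical

noncomputable section

namespace Vale.Agent.P161

variable {V : Type*} {G : SimpleGraph V} {d : ℕ} {θ θ' η : ℝ} {R M T j k : ℕ}

/-- The magnetization of `x` in the ball around `c`. -/
def Mg (G : SimpleGraph V) (θ : ℝ) (R j k : ℕ) (c x : V) (z : ℕ × V → ℝ) : ℝ :=
  mag G θ (ball G c R) (hs G θ R j k c z) x

/-- The message of an edge in the ball around `c`. -/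
def Mu (G : SimpleGraph V) (θ : ℝ) (R j k : ℕ) (c a b : V) (z : ℕ × V → ℝ) : ℝ :=
  mu G θ (ball G c R) (hs G θ R j k c z) a b

theorem mc_eq_Mg (c : V) (z : ℕ × V → ℝ) : mc G θ R j k c z = Mg G θ R j k c c z := rfl

theorem muc_eq_Mu (a b : V) (z : ℕ × V → ℝ) : muc G θ R j k a b z = Mu G θ R j k b a b z := rfl

/-- Radius and level are large for the time `k` at the parameter `θ`. -/
structure Near (G : SimpleGraph V) (d : ℕ) (θ : ℝ) (R M T j k : ℕ) (η : ℝ) : Prop where
  nn : 0 ≤ θ
  crit : ((d - 1 : ℕ) : ℝ) * θ ^ 2 ≤ 1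
  one_le : 1 ≤ M
  M_le : M < R
  k_le : k ≤ steps T j
  small : ∀ c : V, 4 * ((ball G c R).card : ℝ) * dt j ≤ 1 ∧
    16 * ((ball G c R).card : ℝ) ^ 2 * T * dt j ≤ 1
  err_le : ∀ c : V, err (ball G c R) T j ≤ η
  eta : η ≤ 1
  close : ∀ c x : V, G.dist c x ≤ M →
    ∫ z, |Mg G θ R j k c x z - mc G θ R j k x z| ∂gN (ℕ × V) ≤ η

theorem Near.le34 (hN : Near G d θ R M T j k η) (hT : RTree G d) : θ ≤ 3 / 4 :=
  theta_le (Q_two hT) hN.nn hN.crit

theorem Near.lt1 (hN : Near G d θ R M T j k η) (hT : RTree G d) : θ < 1 := by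
  linarith [hN.le34 hT]

theorem Near.eta_nn (hN : Near G d θ R M T j k η) (c : V) : 0 ≤ η :=
  (err_nonneg _ T j).trans (hN.err_le c)

theorem measurable_Mg (c x : V) : Measurable (Mg G θ R j k c x) :=
  (measurable_mag _ x).comp (measurable_hs R j k c)

theorem measurable_Mu (c a b : V) : Measurable (Mu G θ R j k c a b) :=
  (measurable_mu (G := G) (θ := θ) _ a b).comp (measurable_hs R j k c)

theorem Near.abs_Mg (hN : Near G d θ R M T j k η) (hT : RTree G d) (c x : V) (z : ℕ × V → ℝ) :
    |Mg G θ R j k c x z| ≤ 1 :=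
  abs_mag_le hN.nn (hN.lt1 hT) _ _ _

theorem Near.abs_Mu (hN : Near G d θ R M T j k η) (hT : RTree G d) (c a b : V) (z : ℕ × V → ℝ) :
    |Mu G θ R j k c a b z| ≤ 1 :=
  abs_mu_le hN.nn (hN.lt1 hT) _ _ _ _

theorem Near.mem (hN : Near G d θ R M T j k η) (hT : RTree G d) {c x : V} {e : ℕ}
    (h : G.dist c x ≤ M + e) (he : e ≤ 1) : x ∈ ball G c R :=
  (mem_ball hT).2 (by have := hN.M_le; omega)

theorem integral_const_le {α : Type*} [MeasurableSpace α] {μ : Measure α} [IsProbabilityMeasure μ]
    {f : α → ℝ} {B : ℝ} (hi : Integrable f μ) (hB : ∀ x, f x ≤ B) : ∫ x, f x ∂μ ≤ B :=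
  (integral_mono hi (integrable_const B) hB).trans (by simp)

/-- The mean square difference of two systems at a vertex of one ball. -/
theorem mag_gap (hT : RTree G d) (hN : Near G d θ R M T j k η) (hN' : Near G d θ' R M T j k η)
    {c x : V} (hx : G.dist c x ≤ M) (o : V) :
    ∫ z, (Mg G θ R j k c x z - Mg G θ' R j k c x z) ^ 2 ∂gN (ℕ × V) ≤
      3 * gap G θ θ' R j k o + 12 * η := by
  rw [← gap_eq_centre hT R j k o x, gap]
  set u := fun z => Mg G θ R j k c x z - mc G θ R j k x z with hu
  set u' := fun z => Mg G θ' R j k c x z - mc G θ' R j k x z with hu'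
  set w := fun z => mc G θ R j k x z - mc G θ' R j k x z with hw
  have bu : ∀ z, |u z| ≤ 2 := fun z =>
    (abs_sub _ _).trans (by
      linarith [hN.abs_Mg hT c x z, abs_mc_le (G := G) hN.nn (hN.lt1 hT) R j k x z])
  have bu' : ∀ z, |u' z| ≤ 2 := fun z =>
    (abs_sub _ _).trans (by
      linarith [hN'.abs_Mg hT c x z, abs_mc_le (G := G) hN'.nn (hN'.lt1 hT) R j k x z])
  have bw : ∀ z, |w z| ≤ 2 := fun z =>
    (abs_sub _ _).trans (by
      linarith [abs_mc_le (G := G) hN.nn (hN.lt1 hT) R j k x z,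
        abs_mc_le (G := G) hN'.nn (hN'.lt1 hT) R j k x z])
  have mu' : Measurable u := (measurable_Mg c x).sub (measurable_mc R j k x)
  have mu'' : Measurable u' := (measurable_Mg c x).sub (measurable_mc R j k x)
  have mw : Measurable w := (measurable_mc R j k x).sub (measurable_mc R j k x)
  have iu : Integrable (fun z => |u z|) (gN (ℕ × V)) := (integrable_of_bdd mu' bu).abs
  have iu' : Integrable (fun z => |u' z|) (gN (ℕ × V)) := (integrable_of_bdd mu'' bu').abs
  have iw : Integrable (fun z => w z ^ 2) (gN (ℕ × V)) :=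
    integrable_of_bdd (mw.pow_const 2) (B := 4) fun z => by
      rw [abs_pow]; nlinarith [bw z, abs_nonneg (w z)]
  have i12 : Integrable (fun z => 6 * |u z| + 6 * |u' z|) (gN (ℕ × V)) :=
    (iu.const_mul 6).add (iu'.const_mul 6)
  calc ∫ z, (Mg G θ R j k c x z - Mg G θ' R j k c x z) ^ 2 ∂gN (ℕ × V)
      ≤ ∫ z, (3 * w z ^ 2 + (6 * |u z| + 6 * |u' z|)) ∂gN (ℕ × V) := by
        refine integral_mono ?_ ((iw.const_mul 3).add ((iu.const_mul 6).add (iu'.const_mul 6)))
          fun z => ?_
        · refine integrable_of_bdd (((measurable_Mg c x).sub (measurable_Mg c x)).pow_const 2)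
            (B := 4) fun z => ?_
          rw [abs_pow]
          have e1 := hN.abs_Mg hT c x z
          have e2 := hN'.abs_Mg hT c x z
          have e3 : |Mg G θ R j k c x z - Mg G θ' R j k c x z| ≤ 2 := (abs_sub _ _).trans (by linarith)
          nlinarith [abs_nonneg (Mg G θ R j k c x z - Mg G θ' R j k c x z)]
        · show _ ≤ 3 * w z ^ 2 + (6 * |u z| + 6 * |u' z|)
          have e : Mg G θ R j k c x z - Mg G θ' R j k c x z = w z + u z - u' z := by
            simp only [hu, hu', hw]; ring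
          rw [e]
          have a1 : u z ^ 2 ≤ 2 * |u z| := by
            rw [← sq_abs]; nlinarith [bu z, abs_nonneg (u z)]
          have a2 : u' z ^ 2 ≤ 2 * |u' z| := by
            rw [← sq_abs]; nlinarith [bu' z, abs_nonneg (u' z)]
          nlinarith [sq_nonneg (w z - u z), sq_nonneg (w z + u' z), sq_nonneg (u z + u' z)]
    _ ≤ _ := by
        rw [integral_add (iw.const_mul 3) i12,
          integral_add (iu.const_mul 6) (iu'.const_mul 6), integral_const_mul, integral_const_mul,
          integral_const_mul]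
        have e1 : ∫ z, |u z| ∂gN (ℕ × V) ≤ η := hN.close c x hx
        have e2 : ∫ z, |u' z| ∂gN (ℕ × V) ≤ η := hN'.close c x hx
        show 3 * (∫ z, w z ^ 2 ∂gN (ℕ × V)) + _ ≤ _
        linarith

/-- Magnetizations of a vertex in two balls. -/
theorem mag_shift (hT : RTree G d) (hN : Near G d θ R M T j k η) {c c' x : V}
    (hx : G.dist c x ≤ M) (hx' : G.dist c' x ≤ M) :
    ∫ z, |Mg G θ R j k c x z - Mg G θ R j k c' x z| ∂gN (ℕ × V) ≤ 2 * η := by
  have hi : ∀ c, Integrable (fun z => |Mg G θ R j k c x z - mc G θ R j k x z|) (gN (ℕ × V)) :=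
    fun c => (integrable_of_bdd ((measurable_Mg c x).sub (measurable_mc R j k x)) (B := 2)
      fun z => (abs_sub _ _).trans (by
        linarith [hN.abs_Mg hT c x z, abs_mc_le (G := G) hN.nn (hN.lt1 hT) R j k x z])).abs
  calc ∫ z, |Mg G θ R j k c x z - Mg G θ R j k c' x z| ∂gN (ℕ × V)
      ≤ ∫ z, (|Mg G θ R j k c x z - mc G θ R j k x z| +
          |Mg G θ R j k c' x z - mc G θ R j k x z|) ∂gN (ℕ × V) := by
        refine integral_mono (integrable_of_bdd ((measurable_Mg c x).sub (measurable_Mg c' x)).abs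
          (B := 2) fun z => ?_) ((hi c).add (hi c')) fun z => ?_
        · rw [abs_abs]
          exact (abs_sub _ _).trans (by linarith [hN.abs_Mg hT c x z, hN.abs_Mg hT c' x z])
        · exact (abs_sub_le _ (mc G θ R j k x z) _).trans_eq (by
            rw [abs_sub_comm (mc G θ R j k x z)])
    _ ≤ _ := by
        rw [integral_add (hi c) (hi c')]
        linarith [hN.close c x hx, hN.close c' x hx']

/-- Messages of an edge in two balls. -/
theorem mu_shift (hT : RTree G d) (hN : Near G d θ R M T j k η) {c c' a b : V} (hab : G.Adj a b)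
    (ha : G.dist c a ≤ M) (hb : G.dist c b ≤ M) (ha' : G.dist c' a ≤ M) (hb' : G.dist c' b ≤ M) :
    ∫ z, |Mu G θ R j k c a b z - Mu G θ R j k c' a b z| ∂gN (ℕ × V) ≤ 96 * η := by
  have hm : ∀ x : V, Integrable (fun z => |Mg G θ R j k c x z - Mg G θ R j k c' x z|)
      (gN (ℕ × V)) := fun x =>
    (integrable_of_bdd ((measurable_Mg c x).sub (measurable_Mg c' x)) (B := 2) fun z =>
      (abs_sub _ _).trans (by linarith [hN.abs_Mg hT c x z, hN.abs_Mg hT c' x z])).abs
  calc ∫ z, |Mu G θ R j k c a b z - Mu G θ R j k c' a b z| ∂gN (ℕ × V)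
      ≤ ∫ z, (24 * |Mg G θ R j k c b z - Mg G θ R j k c' b z| +
          24 * |Mg G θ R j k c a z - Mg G θ R j k c' a z|) ∂gN (ℕ × V) := by
        refine integral_mono (integrable_of_bdd ((measurable_Mu c a b).sub (measurable_Mu c' a b)).abs
          (B := 2) fun z => ?_) (((hm b).const_mul 24).add ((hm a).const_mul 24)) fun z => ?_
        · rw [abs_abs]
          exact (abs_sub _ _).trans (by linarith [hN.abs_Mu hT c a b z, hN.abs_Mu hT c' a b z])
        · have := mu_close hT hN.nn (hN.le34 hT) hN.nn (hN.le34 hT) hab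
            (hN.mem hT (e := 0) ha (Nat.zero_le 1)) (hN.mem hT (e := 0) hb (Nat.zero_le 1))
            (hN.mem hT (e := 0) ha' (Nat.zero_le 1)) (hN.mem hT (e := 0) hb' (Nat.zero_le 1))
            (hs G θ R j k c z) (hs G θ R j k c' z)
          simp only [sub_self, abs_zero, mul_zero, add_zero, mul_add] at this
          exact this
    _ ≤ _ := by
        rw [integral_add ((hm b).const_mul 24) ((hm a).const_mul 24), integral_const_mul,
          integral_const_mul]
        linarith [mag_shift hT hN hb hb', mag_shift hT hN ha ha']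

/-- The mean square difference of two systems at an edge. -/
theorem mu_gap (hT : RTree G d) (hN : Near G d θ R M T j k η) (hN' : Near G d θ' R M T j k η)
    {c a b : V} (hab : G.Adj a b) (ha : G.dist c a ≤ M) (hb : G.dist c b ≤ M) (o : V) :
    ∫ z, (Mu G θ R j k c a b z - Mu G θ' R j k c a b z) ^ 2 ∂gN (ℕ × V) ≤
      K0 * (2 * (3 * gap G θ θ' R j k o + 12 * η) + (θ - θ') ^ 2) := by
  set u := fun (x : V) z => Mg G θ R j k c x z - Mg G θ' R j k c x z with hu
  have hi : ∀ x, Integrable (fun z => u x z ^ 2) (gN (ℕ × V)) := fun x =>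
    integrable_of_bdd (((measurable_Mg c x).sub (measurable_Mg c x)).pow_const 2) (B := 4)
      fun z => by
        rw [abs_pow]
        have : |u x z| ≤ 2 := (abs_sub _ _).trans (by linarith [hN.abs_Mg hT c x z, hN'.abs_Mg hT c x z])
        nlinarith [abs_nonneg (u x z)]
  calc ∫ z, (Mu G θ R j k c a b z - Mu G θ' R j k c a b z) ^ 2 ∂gN (ℕ × V)
      ≤ ∫ z, K0 * ((u b z ^ 2 + u a z ^ 2) + (θ - θ') ^ 2) ∂gN (ℕ × V) := by
        refine integral_mono (integrable_of_bdd
          (((measurable_Mu c a b).sub (measurable_Mu c a b)).pow_const 2) (B := 4) fun z => ?_)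
          ((((hi b).add (hi a)).add (integrable_const _)).const_mul _) fun z => ?_
        · rw [abs_pow]
          have : |Mu G θ R j k c a b z - Mu G θ' R j k c a b z| ≤ 2 :=
            (abs_sub _ _).trans (by linarith [hN.abs_Mu hT c a b z, hN'.abs_Mu hT c a b z])
          nlinarith [abs_nonneg (Mu G θ R j k c a b z - Mu G θ' R j k c a b z)]
        · have h := mu_close hT hN.nn (hN.le34 hT) hN'.nn (hN'.le34 hT) hab
            (hN.mem hT (e := 0) ha (Nat.zero_le 1)) (hN.mem hT (e := 0) hb (Nat.zero_le 1))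
            (hN.mem hT (e := 0) ha (Nat.zero_le 1)) (hN.mem hT (e := 0) hb (Nat.zero_le 1))
            (hs G θ R j k c z) (hs G θ' R j k c z)
          change |Mu G θ R j k c a b z - Mu G θ' R j k c a b z| ≤
            24 * (|u b z| + |u a z| + 32 * |θ - θ'|) at h
          show _ ≤ K0 * ((u b z ^ 2 + u a z ^ 2) + (θ - θ') ^ 2)
          have h2 := pow_le_pow_left₀ (abs_nonneg _) h 2
          rw [sq_abs] at h2
          refine h2.trans ?_
          have := sq_abs (u b z); have := sq_abs (u a z); have := sq_abs (θ - θ')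
          unfold K0
          nlinarith [sq_nonneg (|u b z| - |u a z|), sq_nonneg (|u b z| - 32 * |θ - θ'|),
            sq_nonneg (|u a z| - 32 * |θ - θ'|), sq_nonneg (u b z), sq_nonneg (u a z)]
    _ ≤ _ := by
        have iba : Integrable (fun z => u b z ^ 2 + u a z ^ 2) (gN (ℕ × V)) := (hi b).add (hi a)
        rw [integral_const_mul, integral_add iba (integrable_const _),
          integral_add (hi b) (hi a), integral_const, probReal_univ, one_smul]
        refine mul_le_mul_of_nonneg_left ?_ (by unfold K0; norm_num)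
        linarith [mag_gap hT hN hN' hb o, mag_gap hT hN hN' ha o]

end Vale.Agent.P161
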