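import Vale.Agent.P161.Crit.GBase
import Vale.Agent.P161.Crit.Bridge

/-!
# Summing products of retentions over a sphere
-/

open MeasureTheory Finset Real
open scoped Classical

noncomputable section

namespace Vale.Agent.P161

variable {V : Type*} {G : SimpleGraph V} {d : ℕ} {θ θ' η β : ℝ} {R M T j k L : ℕ}

/-- The product of the retentions from `u` to `w`, in the ball around `u`. -/
def armW (G : SimpleGraph V) (Q : ℕ) (θ : ℝ) (R j k : ℕ) (u w : V) (z : ℕ × V → ℝ) : ℝ :=
  ∏ i ∈ range (G.dist u w), rc Q (Mu G θ R j k u (geo G u w i) (geo G u w (i + 1)) z)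

/-- Retention at the time `t` is at most `β` from the depth `L` on. -/
def Ret (Q : ℕ) (θ t β : ℝ) (L : ℕ) : Prop :=
  ∀ R, L ≤ R → ∀ (x : ℝ) (n : ℕ),
    ∫ y, rc Q (tanh (x + y)) ∂sumLaw (WLaw Q θ t R) (n + 1) ≤ β

theorem measurable_armW (Q : ℕ) (u w : V) : Measurable (armW G Q θ R j k u w) :=
  Finset.measurable_prod _ fun _ _ => measurable_rc.comp (measurable_Mu u _ _)

theorem armW_mem (hT : RTree G d) (h0 : 0 ≤ θ) (h1 : θ < 1) (u w : V) (z : ℕ × V → ℝ) :
    0 ≤ armW G (d - 1) θ R j k u w z ∧ armW G (d - 1) θ R j k u w z ≤ 1 := by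
  have h : ∀ i, 0 ≤ rc (d - 1) (Mu G θ R j k u (geo G u w i) (geo G u w (i + 1)) z) ∧
      rc (d - 1) (Mu G θ R j k u (geo G u w i) (geo G u w (i + 1)) z) ≤ 1 := fun i => by
    have e := rc_mem (Q_two hT) (μ := Mu G θ R j k u (geo G u w i) (geo G u w (i + 1)) z)
      (abs_mu_le h0 h1 _ _ _ _)
    exact ⟨e.1, e.2.trans (by
      linarith [sq_nonneg (Mu G θ R j k u (geo G u w i) (geo G u w (i + 1)) z)])⟩
  exact ⟨Finset.prod_nonneg fun i _ => (h i).1,
    Finset.prod_le_one (fun i _ => (h i).1) fun i _ => (h i).2⟩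

theorem Mu_map (hT : RTree G d) (g : G ≃g G) (c a b : V) (z : ℕ × V → ℝ) :
    Mu G θ R j k (g c) (g a) (g b) z = Mu G θ R j k c a b (rl g z) := by
  rw [Mu, Mu, mu, mu, ball_map hT, branch_map hT, mag_map]
  exact mag_congr (fun u _ => hs_map hT g R j k c z u) b

theorem armW_map (hT : RTree G d) (g : G ≃g G) (Q : ℕ) (u w : V) (z : ℕ × V → ℝ) :
    armW G Q θ R j k (g u) (g w) z = armW G Q θ R j k u w (rl g z) := by
  rw [armW, armW, iso_dist hT]
  refine Finset.prod_congr rfl fun i hi => ?_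
  rw [Finset.mem_range] at hi
  rw [geo_map hT g (by omega), geo_map hT g (by omega), Mu_map hT]

theorem geo_prefix (hT : RTree G d) {o w : V} {p i : ℕ} (hi : i ≤ p) (hp : p ≤ G.dist o w) :
    geo G o (geo G o w p) i = geo G o w i := by
  refine geo_eq hT (geo_spec hT (hi.trans hp)).1 ?_
  rw [geo_dist hT hi hp, (geo_spec hT hp).1]
  omega

/-! ## The partition of a sphere -/

theorem ahead_snd_inj (hT : RTree G d) {a b : V} (hab : G.Adj a b) (l : ℕ) :
    Set.InjOn Prod.snd (ahead G l a b : Set (V × V)) := by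
  rintro ⟨x, y⟩ hx ⟨x', y'⟩ hx' (rfl : y = y')
  rw [Finset.mem_coe, mem_ahead hT hab] at hx hx'
  have := closer_unique hT (o := a) hx.1.symm hx'.1.symm (by omega) (by omega)
  rw [this]

theorem sphere_fibre (hT : RTree G d) {o u : V} {q l : ℕ} (hq : 1 ≤ q) (hu : G.dist o u = q) :
    ((sphere G o (q + l)).filter fun w => geo G o w q = u) =
      (ahead G l (geo G o u (q - 1)) u).image Prod.snd := by
  set a := geo G o u (q - 1) with ha
  have hadj : G.Adj a u := by
    have := geo_adj hT (a := o) (b := u) (i := q - 1) (by omega)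
    rwa [show q - 1 + 1 = G.dist o u by omega, geo_end hT] at this
  have hoa : G.dist o a = q - 1 := (geo_spec hT (by omega)).1
  ext w
  simp only [Finset.mem_filter, mem_sphere hT, Finset.mem_image, Prod.exists, exists_eq_right]
  constructor
  · rintro ⟨hw, hgu⟩
    set n := q + l
    refine ⟨geo G o w (n - 1), (mem_ahead hT hadj l).2 ?_⟩
    have e1 : a = geo G o w (q - 1) := by rw [ha, ← hgu, geo_prefix hT (by omega) (by omega)]
    have hend : geo G o w n = w := by rw [← hw, geo_end hT]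
    refine ⟨?_, ?_, ?_, ?_⟩
    · have := geo_adj hT (a := o) (b := w) (i := n - 1) (by omega)
      rwa [show n - 1 + 1 = n by omega, hend] at this
    · rw [← hgu, (geo_spec hT (by omega)).2]; omega
    · rw [e1, (geo_spec hT (by omega)).2]; omega
    · rw [e1, geo_dist hT (by omega) (by omega)]; omega
  · rintro ⟨x, hx⟩
    rw [mem_ahead hT hadj] at hx
    obtain ⟨-, h1, h2, -⟩ := hx
    have hd : G.dist w o = G.dist w u + 1 + G.dist a o :=
      dist_through hT hadj.symm (by omega) (by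
        rw [SimpleGraph.dist_comm, hu, SimpleGraph.dist_comm, hoa]; omega)
    have hw : G.dist o w = q + l := by
      rw [SimpleGraph.dist_comm, hd, SimpleGraph.dist_comm, h1, SimpleGraph.dist_comm, hoa]
      omega
    exact ⟨hw, geo_eq hT hu (by rw [h1, hw])⟩

theorem kids_mem (hT : RTree G d) {a b c : V} (hc : c ∈ kids G a b) : G.Adj b c :=
  (mem_nbr hT).1 (Finset.mem_of_mem_erase hc)

theorem armVal_mem (hT : RTree G d) (h0 : 0 ≤ θ) (h1 : θ < 1) (D : Finset V) (h : V → ℝ) :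
    ∀ (l : ℕ) {a b : V}, G.Adj a b →
      0 ≤ armVal G (d - 1) θ D h l a b ∧ armVal G (d - 1) θ D h l a b ≤ 1
  | 0, _, _, _ => by simp [armVal]
  | l + 1, a, b, hab => by
    have hQ : (0 : ℝ) < (d - 1 : ℕ) := by
      exact_mod_cast (show 0 < d - 1 by have := Q_two hT; omega)
    have ht : ∀ c ∈ kids G a b, 0 ≤ rc (d - 1) (mu G θ D h b c) * armVal G (d - 1) θ D h l b c ∧
        rc (d - 1) (mu G θ D h b c) * armVal G (d - 1) θ D h l b c ≤ 1 := fun c hc => by
      have e1 := rc_mem (Q_two hT) (μ := mu G θ D h b c) (abs_mu_le h0 h1 _ _ _ _)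
      have e2 := armVal_mem hT h0 h1 D h l (kids_mem hT hc)
      exact ⟨mul_nonneg e1.1 e2.1,
        mul_le_one₀ (e1.2.trans (by linarith [sq_nonneg (mu G θ D h b c)])) e2.1 e2.2⟩
    refine ⟨div_nonneg (Finset.sum_nonneg fun c hc => (ht c hc).1) hQ.le, ?_⟩
    rw [armVal, div_le_one hQ]
    refine (Finset.sum_le_card_nsmul _ _ 1 fun c hc => (ht c hc).2).trans ?_
    rw [nsmul_eq_mul, mul_one, card_kids hT hab]

theorem sum_ahead_prod (hT : RTree G d) (D : Finset V) (h : V → ℝ) :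
    ∀ (l : ℕ) {a b : V}, G.Adj a b →
      ∑ p ∈ ahead G l a b,
          ∏ i ∈ range l, rc (d - 1) (mu G θ D h (geo G b p.2 i) (geo G b p.2 (i + 1))) =
        ((d - 1 : ℕ) : ℝ) ^ l * armVal G (d - 1) θ D h l a b
  | 0, a, b, _ => by simp [ahead, armVal]
  | l + 1, a, b, hab => by
    have hQ : ((d - 1 : ℕ) : ℝ) ≠ 0 := by
      exact_mod_cast (show d - 1 ≠ 0 by have := Q_two hT; omega)
    have hd : ∀ c ∈ kids G a b, ∀ p ∈ ahead G l b c,
        G.dist c p.2 = l ∧ G.dist b p.2 = l + 1 := fun c hc p hp => by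
      have := (mem_ahead hT (kids_mem hT hc) l).1 hp
      exact ⟨this.2.1, this.2.2.1⟩
    have hdisj : (kids G a b : Set V).PairwiseDisjoint fun c => ahead G l b c := by
      intro c hc c' hc' hne
      rw [Function.onFun, Finset.disjoint_left]
      intro p hp hp'
      refine hne (closer_unique hT (o := p.2) (u := b) (kids_mem hT hc) (kids_mem hT hc') ?_ ?_) <;>
        rw [SimpleGraph.dist_comm, SimpleGraph.dist_comm (u := p.2)]
      · rw [(hd c hc p hp).1, (hd c hc p hp).2]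
      · rw [(hd c' hc' p hp').1, (hd c' hc' p hp').2]
    rw [ahead, Finset.sum_biUnion hdisj, armVal, pow_succ, mul_assoc,
      mul_div_cancel₀ _ hQ, Finset.mul_sum]
    refine Finset.sum_congr rfl fun c hc => ?_
    have step : ∀ p ∈ ahead G l b c,
        ∏ i ∈ range (l + 1), rc (d - 1) (mu G θ D h (geo G b p.2 i) (geo G b p.2 (i + 1))) =
          rc (d - 1) (mu G θ D h b c) *
            ∏ i ∈ range l, rc (d - 1) (mu G θ D h (geo G c p.2 i) (geo G c p.2 (i + 1))) := by
      intro p hp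
      have e := hd c hc p hp
      have hc1 : geo G b p.2 1 = c := geo_eq hT
        (SimpleGraph.dist_eq_one_iff_adj.2 (kids_mem hT hc)) (by omega)
      rw [Finset.prod_range_succ', geo_zero hT, hc1, mul_comm]
      refine congrArg _ (Finset.prod_congr rfl fun i hi => ?_)
      rw [Finset.mem_range] at hi
      rw [← hc1, geo_sub hT (by omega), geo_sub hT (by omega), Nat.add_comm 1 i,
        Nat.add_comm 1 (i + 1)]
    rw [Finset.sum_congr rfl step, ← Finset.mul_sum, sum_ahead_prod hT D h l (kids_mem hT hc)]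
    ring

theorem card_sphere_le' (hT : RTree G d) (o : V) (n : ℕ) :
    ((sphere G o n).card : ℝ) ≤ 2 * ((d - 1 : ℕ) : ℝ) ^ n := by
  rw [Nat.cast_sub (by have := hT.three; omega), Nat.cast_one]
  exact card_sphere_le hT o n

/-! ## The grouped bound -/

theorem arm_excess (hT : RTree G d) (hN : Near G d θ R M T j k η)
    (hret : Ret (d - 1) θ (k * dt j) β L) (hβ : 3 / 4 ≤ β) {a u : V} (hadj : G.Adj a u) {l : ℕ}
    (hl : 2 ≤ l) (hR : l + L < R) :
    ∫ z, max (armVal G (d - 1) θ (ball G u R) (hs G θ R j k u z) l a u - 3 * β ^ (l / 2 - 1)) 0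
        ∂gN (ℕ × V) ≤ exp (-((3 / 2 : ℝ) ^ (l / 2))) + η := by
  have hQ2 := Q_two hT
  have h0 := hN.nn
  have h1 := hN.lt1 hT
  have hδ : 0 ≤ dt j := (dt_pos j).le
  set p := β ^ (l / 2 - 1) with hp
  have hp0 : 0 ≤ p := by positivity
  set f := fun x : ℝ => min (max (x - 3 * p) 0) 1 with hf
  have hfm : Measurable f := by fun_prop
  have hfB : ∀ x, |f x| ≤ 1 := fun x => by
    simp only [hf]
    rw [abs_of_nonneg (le_min (le_max_right _ _) zero_le_one)]
    exact min_le_right _ _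
  set D := ball G u R with hD
  set A := fun h : V → ℝ => armVal G (d - 1) θ D h l a u with hA
  have hAm : Measurable A := measurable_armVal (d - 1) D l a u
  have e0 : ∀ z, max (A (hs G θ R j k u z) - 3 * p) 0 =
      f (A (fieldOf D (dt j) (xmap G θ D (dt j) k z) k)) := fun z => by
    rw [show fieldOf D (dt j) (xmap G θ D (dt j) k z) k = hs G θ R j k u z from
      (scheme_eq hδ D z le_rfl).symm]
    simp only [hf]
    rw [min_eq_left (max_le (by linarith [(armVal_mem hT h0 h1 D (hs G θ R j k u z) l hadj).2])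
      zero_le_one)]
  show ∫ z, max (A (hs G θ R j k u z) - 3 * p) 0 ∂gN (ℕ × V) ≤ _
  simp only [e0]
  have e1 := (abs_le.1 (transfer_le hT h0 h1 (conn_ball hT u R) hN.k_le (hN.small u)
    (F := fun x => f (A (fieldOf D (dt j) x k)))
    (hfm.comp (hAm.comp (measurable_fieldOf D (dt j) k))) (fun x => hfB _))).2
  have e2 := bridge_arm hT h0 h1 hδ hadj R k l (by omega) hfm hfB
  simp only [← hD] at e2
  simp only [hA, ← hD, one_mul] at e1 ⊢
  simp only [mul_comm (f _) (lDens G θ D (dt j) k _)] at e1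
  rw [e2] at e1
  have hmean : ∫ ω, armF θ (k * dt j) (l / 2) (R - (l - l / 2)) ω ∂lblLaw (d - 1) ≤ p := by
    have := armF_mean hQ2 (by linarith : 0 ≤ β) hret (l / 2 - 1) (R - (l - l / 2) - 1) (by omega)
    rwa [show l / 2 - 1 + 1 = l / 2 by omega,
      show R - (l - l / 2) - 1 + 1 = R - (l - l / 2) by omega] at this
  have hex := armF_excess hQ2 (l / 2) (R - (l - l / 2)) (l - l / 2) hmean
  rw [show l - l / 2 + l / 2 = l by omega,
    show R - (l - l / 2) + (l - l / 2) = R by omega] at hex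
  have hle : ∫ ω, f (armF θ (k * dt j) l R ω) ∂lblLaw (d - 1) ≤
      ∫ ω, max (armF θ (k * dt j) l R ω - 3 * p) 0 ∂lblLaw (d - 1) := by
    refine integral_mono (integrable_of_bdd (hfm.comp (measurable_armF l R)) fun ω => hfB _)
      (integrable_of_bdd (((measurable_armF l R).sub_const _).max measurable_const) (B := 1)
        fun ω => ?_) fun ω => min_le_left _ _
    have := (armF_mem (θ := θ) (t := (k : ℝ) * dt j) hQ2 l R ω).2
    rw [abs_of_nonneg (le_max_right _ _)]
    exact max_le (by linarith) zero_le_one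
  have hpQ : (3 / 2 : ℝ) ^ (l / 2) ≤ p * ((d - 1 : ℕ) : ℝ) ^ (l - l / 2) := by
    have hQ : (2 : ℝ) ≤ (d - 1 : ℕ) := by exact_mod_cast hQ2
    calc (3 / 2 : ℝ) ^ (l / 2) ≤ (3 / 4 : ℝ) ^ (l / 2 - 1) * 2 ^ (l / 2) := by
          rw [show (3 / 2 : ℝ) = 3 / 4 * 2 by norm_num, mul_pow]
          exact mul_le_mul_of_nonneg_right
            (pow_le_pow_of_le_one (by norm_num) (by norm_num) (Nat.sub_le _ _)) (by positivity)
      _ ≤ p * ((d - 1 : ℕ) : ℝ) ^ (l - l / 2) := by
          refine mul_le_mul (pow_le_pow_left₀ (by norm_num) hβ _) ?_ (by positivity) hp0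
          exact (pow_le_pow_right₀ (by norm_num) (by omega)).trans
            (pow_le_pow_left₀ (by norm_num) hQ _)
  have := hN.err_le u
  have hexp := Real.exp_le_exp.2 (neg_le_neg hpQ)
  linarith

theorem mul_armVal_le (hT : RTree G d) (hN : Near G d θ R M T j k η)
    (hret : Ret (d - 1) θ (k * dt j) β L) (hβ : 3 / 4 ≤ β) {a u : V} (hadj : G.Adj a u) {l : ℕ}
    (hl : 2 ≤ l) (hR : l + L < R) {φ : (ℕ × V → ℝ) → ℝ} (hm : Measurable φ) {B : ℝ}
    (hφ : ∀ z, 0 ≤ φ z ∧ φ z ≤ B) :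
    ∫ z, φ z * armVal G (d - 1) θ (ball G u R) (hs G θ R j k u z) l a u ∂gN (ℕ × V) ≤
      3 * β ^ (l / 2 - 1) * ∫ z, φ z ∂gN (ℕ × V) +
        B * (exp (-((3 / 2 : ℝ) ^ (l / 2))) + η) := by
  set A := fun z => armVal G (d - 1) θ (ball G u R) (hs G θ R j k u z) l a u with hA
  set c := 3 * β ^ (l / 2 - 1) with hc
  have hc0 : 0 ≤ c := mul_nonneg (by norm_num) (pow_nonneg (by linarith) _)
  have hAm : Measurable A := (measurable_armVal (d - 1) _ l a u).comp (measurable_hs R j k u)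
  have hAb : ∀ z, 0 ≤ A z ∧ A z ≤ 1 := fun z => armVal_mem hT hN.nn (hN.lt1 hT) _ _ l hadj
  have hB0 : 0 ≤ B := (hφ (fun _ => 0)).1.trans (hφ (fun _ => 0)).2
  have iΦ : Integrable φ (gN (ℕ × V)) := integrable_of_bdd hm (B := B) fun z => by
    rw [abs_of_nonneg (hφ z).1]; exact (hφ z).2
  have iE : Integrable (fun z => max (A z - c) 0) (gN (ℕ × V)) :=
    integrable_of_bdd ((hAm.sub_const c).max measurable_const) (B := 1) fun z => by
      rw [abs_of_nonneg (le_max_right _ _)]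
      exact max_le (by linarith [(hAb z).2]) zero_le_one
  have hpt : ∀ z, φ z * A z ≤ c * φ z + B * max (A z - c) 0 := fun z => by
    have e1 := mul_le_mul_of_nonneg_left
      (show A z ≤ c + max (A z - c) 0 by linarith [le_max_left (A z - c) 0]) (hφ z).1
    have e2 := mul_le_mul_of_nonneg_right (hφ z).2 (le_max_right (A z - c) 0)
    linarith
  have iL : Integrable (fun z => φ z * A z) (gN (ℕ × V)) :=
    integrable_of_bdd (hm.mul hAm) (B := B) fun z => by
      rw [abs_of_nonneg (mul_nonneg (hφ z).1 (hAb z).1)]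
      exact (mul_le_of_le_one_right (hφ z).1 (hAb z).2).trans (hφ z).2
  refine (integral_mono iL ((iΦ.const_mul c).add (iE.const_mul B)) hpt).trans ?_
  rw [integral_add' (iΦ.const_mul c) (iE.const_mul B), integral_const_mul, integral_const_mul]
  exact add_le_add le_rfl
    (mul_le_mul_of_nonneg_left (arm_excess hT hN hret hβ hadj hl hR) hB0)

/-- The grouped bound over a sphere. -/
theorem grp (hT : RTree G d) (hN : Near G d θ R M T j k η)
    (hret : Ret (d - 1) θ (k * dt j) β L) (hβ : 3 / 4 ≤ β) (o : V) {q l : ℕ} (hq : 1 ≤ q)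
    (hl : 2 ≤ l) (hR : l + L < R) {Φ : V → (ℕ × V → ℝ) → ℝ} (hΦm : ∀ u, Measurable (Φ u))
    {B : ℝ} (hΦ : ∀ u ∈ sphere G o q, ∀ z, 0 ≤ Φ u z ∧ Φ u z ≤ B) :
    ∑ w ∈ sphere G o (q + l),
        ∫ z, Φ (geo G o w q) z * armW G (d - 1) θ R j k (geo G o w q) w z ∂gN (ℕ × V) ≤
      ((d - 1 : ℕ) : ℝ) ^ l * ∑ u ∈ sphere G o q, (3 * β ^ (l / 2 - 1) * ∫ z, Φ u z ∂gN (ℕ × V) +
        B * (exp (-((3 / 2 : ℝ) ^ (l / 2))) + η)) := by
  have h0 := hN.nn
  have h1 := hN.lt1 hT
  rw [← Finset.sum_fiberwise_of_maps_to (g := fun w => geo G o w q) (t := sphere G o q)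
    (fun w hw => (mem_sphere hT).2 (geo_spec hT (by rw [(mem_sphere hT).1 hw]; omega)).1),
    Finset.mul_sum]
  refine Finset.sum_le_sum fun u hu' => ?_
  have hu := (mem_sphere hT).1 hu'
  set a := geo G o u (q - 1) with ha
  have hadj : G.Adj a u := by
    have := geo_adj hT (a := o) (b := u) (i := q - 1) (by omega)
    rwa [show q - 1 + 1 = G.dist o u by omega, geo_end hT] at this
  rw [sphere_fibre hT hq hu, Finset.sum_image (ahead_snd_inj hT hadj l)]
  have hd : ∀ p ∈ ahead G l a u, G.dist u p.2 = l ∧ geo G o p.2 q = u := fun p hp => by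
    have hm : p.2 ∈ (sphere G o (q + l)).filter fun w => geo G o w q = u := by
      rw [sphere_fibre hT hq hu]; exact Finset.mem_image_of_mem _ hp
    exact ⟨((mem_ahead hT hadj l).1 hp).2.1, (Finset.mem_filter.1 hm).2⟩
  have hb : ∀ w, ∀ z, |Φ u z * armW G (d - 1) θ R j k u w z| ≤ B := fun w z => by
    have e1 := hΦ u hu' z
    have e2 := armW_mem (R := R) (j := j) (k := k) hT h0 h1 u w z
    rw [abs_of_nonneg (mul_nonneg e1.1 e2.1)]
    exact (mul_le_of_le_one_right e1.1 e2.2).trans e1.2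
  have e : ∑ p ∈ ahead G l a u,
      ∫ z, Φ (geo G o p.2 q) z * armW G (d - 1) θ R j k (geo G o p.2 q) p.2 z ∂gN (ℕ × V) =
      ∑ p ∈ ahead G l a u, ∫ z, Φ u z * armW G (d - 1) θ R j k u p.2 z ∂gN (ℕ × V) :=
    Finset.sum_congr rfl fun p hp => by simp only [(hd p hp).2]
  have hi : ∀ p ∈ ahead G l a u,
      Integrable (fun z => Φ u z * armW G (d - 1) θ R j k u p.2 z) (gN (ℕ × V)) := fun p _ =>
    integrable_of_bdd ((hΦm u).mul (measurable_armW _ u _)) (hb p.2)
  rw [e, ← integral_finsetSum _ hi]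
  set A := fun z => armVal G (d - 1) θ (ball G u R) (hs G θ R j k u z) l a u with hA
  have hsum : ∀ z, ∑ p ∈ ahead G l a u, Φ u z * armW G (d - 1) θ R j k u p.2 z =
      ((d - 1 : ℕ) : ℝ) ^ l * (Φ u z * A z) := fun z => by
    have := sum_ahead_prod (θ := θ) hT (ball G u R) (hs G θ R j k u z) l hadj
    rw [← Finset.mul_sum]
    rw [show ∑ p ∈ ahead G l a u, armW G (d - 1) θ R j k u p.2 z =
        ((d - 1 : ℕ) : ℝ) ^ l * A z from by
      rw [← this]
      refine Finset.sum_congr rfl fun p hp => ?_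
      simp only [armW, Mu, (hd p hp).1]]
    ring
  simp only [hsum]
  rw [integral_const_mul]
  refine mul_le_mul_of_nonneg_left ?_ (by positivity)
  exact mul_armVal_le hT hN hret hβ hadj hl hR (hΦm u) (hΦ u hu')

/-! ## Laws -/

theorem integral_msg (hT : RTree G d) (h0 : 0 ≤ θ) (h1 : θ < 1) {D : Finset V} (hD : Conn G D)
    {a b : V} (hab : G.Adj a b) {r : ℕ} (hbr : branch G D a b = branch G (ball G b r) a b)
    {T j k : ℕ} (hk : k ≤ steps T j)
    (hs' : 4 * (D.card : ℝ) * dt j ≤ 1 ∧ 16 * (D.card : ℝ) ^ 2 * T * dt j ≤ 1)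
    {f : ℝ → ℝ} (hf : Measurable f) (heven : ∀ x, f (-x) = f x) {B : ℝ} (hB : ∀ x, |f x| ≤ B) :
    |∫ z, f (mu G θ D (scheme G θ D (dt j) z k) a b) ∂gN (ℕ × V) -
      ∫ x, f (tanh x) ∂XLaw (d - 1) θ (k * dt j) r| ≤ B * err D T j := by
  have hδ : 0 ≤ dt j := (dt_pos j).le
  have e1 := transfer_le hT h0 h1 hD hk hs'
    (F := fun x => f (mu G θ D (fieldOf D (dt j) x k) a b))
    (hf.comp ((measurable_mu (G := G) (θ := θ) D a b).comp (measurable_fieldOf D (dt j) k)))
    (fun x => hB _)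
  have e2 : ∀ z, scheme G θ D (dt j) z k = fieldOf D (dt j) (xmap G θ D (dt j) k z) k :=
    fun z => scheme_eq hδ D z le_rfl
  simp only [e2]
  rw [← bridge_msg hT h0 h1 hδ hD hab hbr k hf heven hB]
  simpa only [mul_comm (f _) (lDens G θ D (dt j) k _)] using e1

end Vale.Agent.P161
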