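import Vale.Agent.P161.Crit.GSphere
import Vale.Agent.P161.Crit.Decor

/-!
# The bound for spheres of moderate radius at small times
-/

open MeasureTheory Finset Real
open scoped Classical

noncomputable section

namespace Vale.Agent.P161

variable {V : Type*} {G : SimpleGraph V} {d : ℕ} {θ θ' η : ℝ} {R M T j k q : ℕ} {μq lam : ℝ}

/-- The `q`th moments of all messages are at most `μq`. -/
def Mom (Q : ℕ) (θ t : ℝ) (q : ℕ) (μq : ℝ) : Prop :=
  0 ≤ μq ∧ ∀ r, ∫ x, |tanh x| ^ q ∂XLaw Q θ t r ≤ μq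

/-- The part of the bound carried by large values. -/
def Bg (lam : ℝ) (q : ℕ) (μq η : ℝ) : ℝ := (16 / lam) ^ q * (μq + η)

theorem Near.nonneg_Bg (hN : Near G d θ R M T j k η) (o : V) (hlam : 0 < lam) (hμ : 0 ≤ μq) :
    0 ≤ Bg lam q μq η := by
  have := hN.eta_nn o
  unfold Bg; positivity

theorem branch_ball_pred (hT : RTree G d) {a b : V} (hab : G.Adj a b) (hR : 1 ≤ R) :
    branch G (ball G a R) a b = branch G (ball G b (R - 1)) a b := by
  ext u
  rw [mem_branch hT hab, mem_branch hT hab, mem_ball hT, mem_ball hT]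
  constructor <;> rintro ⟨h1, h2⟩ <;> exact ⟨by omega, h2⟩

theorem moment_msg (hT : RTree G d) (hN : Near G d θ R M T j k η)
    (hm : Mom (d - 1) θ (k * dt j) q μq) {c a b : V} (hab : G.Adj a b) {r : ℕ}
    (hbr : branch G (ball G c R) a b = branch G (ball G b r) a b) :
    ∫ z, |Mu G θ R j k c a b z| ^ q ∂gN (ℕ × V) ≤ μq + η := by
  set f := fun x : ℝ => min |x| 1 ^ q with hf
  have hfm : Measurable f := by fun_prop
  have hfB : ∀ x, |f x| ≤ 1 := fun x => by
    simp only [hf, abs_pow]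
    refine pow_le_one₀ (abs_nonneg _) ?_
    rw [abs_of_nonneg (le_min (abs_nonneg _) zero_le_one)]
    exact min_le_right _ _
  have h := (abs_le.1 (integral_msg hT hN.nn (hN.lt1 hT) (conn_ball hT c R) hab hbr hN.k_le
    (hN.small c) hfm (fun x => by simp [hf]) hfB)).2
  have e1 : ∀ z, f (mu G θ (ball G c R) (scheme G θ (ball G c R) (dt j) z k) a b) =
      |Mu G θ R j k c a b z| ^ q := fun z => by
    show min |Mu G θ R j k c a b z| 1 ^ q = _
    rw [min_eq_left (hN.abs_Mu hT c a b z)]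
  have e2 : ∀ x, f (tanh x) = |tanh x| ^ q := fun x => by
    simp only [hf, min_eq_left (abs_tanh_le x)]
  simp only [e1, e2, one_mul] at h
  linarith [hm.2 r, hN.err_le c]

theorem moment_mc (hT : RTree G d) (hN : Near G d θ R M T j k η)
    (hm : Mom (d - 1) θ (k * dt j) q μq) (x : V) :
    ∫ z, |mc G θ R j k x z| ^ q ∂gN (ℕ × V) ≤ 8 ^ q * (2 * (μq + η)) := by
  obtain ⟨y, hy⟩ : (nbr G x).Nonempty := Finset.card_pos.1 (by
    rw [card_nbr hT]; have := hT.three; omega)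
  have hxy : G.Adj x y := (mem_nbr hT).1 hy
  have hR : 1 ≤ R := by have := hN.M_le; have := hN.one_le; omega
  have hmx : x ∈ ball G x R := self_mem_ball hT x R
  have hmy : y ∈ ball G x R := (mem_ball hT).2 (by
    rw [SimpleGraph.dist_eq_one_iff_adj.2 hxy]; exact hR)
  set A := fun z => Mu G θ R j k x y x z with hA
  set B := fun z => Mu G θ R j k x x y z with hB
  have hi : ∀ a b, Integrable (fun z => |Mu G θ R j k x a b z| ^ q) (gN (ℕ × V)) := fun a b =>
    integrable_of_bdd (((measurable_Mu x a b).abs).pow_const q) (B := 1) fun z => by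
      rw [abs_pow, abs_abs]; exact pow_le_one₀ (abs_nonneg _) (hN.abs_Mu hT x a b z)
  have hpt : ∀ z, |mc G θ R j k x z| ^ q ≤ 8 ^ q * (|A z| ^ q + |B z| ^ q) := by
    intro z
    have h1 : |mc G θ R j k x z| ≤ 4 * (|A z| + |B z|) := by
      rw [mc, mag_eq_eMag hT hN.nn (hN.lt1 hT) hxy.symm hmy hmx]
      exact abs_eMag_le hN.nn (hN.le34 hT) (hN.abs_Mu hT x y x z) (hN.abs_Mu hT x x y z)
    have h2 : |mc G θ R j k x z| ≤ 8 * max |A z| |B z| :=
      h1.trans (by linarith [le_max_left |A z| |B z|, le_max_right |A z| |B z|])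
    refine (pow_le_pow_left₀ (abs_nonneg _) h2 q).trans ?_
    rw [mul_pow]
    refine mul_le_mul_of_nonneg_left ?_ (by positivity)
    rcases max_choice |A z| |B z| with e | e <;> rw [e]
    · exact le_add_of_nonneg_right (by positivity)
    · exact le_add_of_nonneg_left (by positivity)
  refine (integral_mono (integrable_of_bdd ((measurable_mc R j k x).abs.pow_const q) (B := 1)
    fun z => ?_) (((hi y x).add (hi x y)).const_mul _) hpt).trans ?_
  · rw [abs_pow, abs_abs]; exact pow_le_one₀ (abs_nonneg _) (abs_mc_le hN.nn (hN.lt1 hT) _ _ _ _ z)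
  · show _ ≤ _
    rw [integral_const_mul, integral_add' (hi y x) (hi x y)]
    have e1 := moment_msg hT hN hm (c := x) hxy.symm (r := R) rfl
    have e2 := moment_msg hT hN hm (c := x) hxy (branch_ball_pred hT hxy hR)
    exact mul_le_mul_of_nonneg_left (by linarith) (by positivity)

/-- Moving the moments to another ball. -/
theorem moment_shift {a b : (ℕ × V → ℝ) → ℝ} (ha : Measurable a) (hb : Measurable b)
    (ha1 : ∀ z, |a z| ≤ 1) (hb1 : ∀ z, |b z| ≤ 1) (hlam : 0 < lam) (hq : 1 ≤ q) {E D : ℝ}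
    (hE : ∫ z, |b z| ^ q ∂gN (ℕ × V) ≤ E) (hD : ∫ z, |a z - b z| ∂gN (ℕ × V) ≤ D) :
    ∫ z, (|a z| / lam) ^ q ∂gN (ℕ × V) ≤ (1 / lam) ^ q * (2 ^ q * E + 4 ^ q * D) := by
  have hd2 : ∀ z, |a z - b z| ≤ 2 := fun z => (abs_sub _ _).trans (by linarith [ha1 z, hb1 z])
  have i1 : Integrable (fun z => |b z| ^ q) (gN (ℕ × V)) :=
    integrable_of_bdd (hb.abs.pow_const q) (B := 1) fun z => by
      rw [abs_pow, abs_abs]; exact pow_le_one₀ (abs_nonneg _) (hb1 z)
  have i2 : Integrable (fun z => |a z - b z|) (gN (ℕ × V)) := (integrable_of_bdd (ha.sub hb) hd2).abs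
  have i12 : Integrable (fun z => 2 ^ q * |b z| ^ q + 4 ^ q * |a z - b z|) (gN (ℕ × V)) :=
    (i1.const_mul _).add (i2.const_mul _)
  have hpt : ∀ z, (|a z| / lam) ^ q ≤ (1 / lam) ^ q * (2 ^ q * |b z| ^ q + 4 ^ q * |a z - b z|) := by
    intro z
    rw [div_eq_mul_one_div, mul_pow, mul_comm]
    refine mul_le_mul_of_nonneg_left ?_ (by positivity)
    have h1 : |a z| ≤ 2 * max |b z| |a z - b z| := by
      have := abs_sub_abs_le_abs_sub (a z) (b z)
      linarith [le_max_left |b z| |a z - b z|, le_max_right |b z| |a z - b z|]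
    refine (pow_le_pow_left₀ (abs_nonneg _) h1 q).trans ?_
    rw [mul_pow]
    rcases max_choice |b z| |a z - b z| with e | e <;> rw [e]
    · exact le_add_of_nonneg_right (by positivity)
    · refine le_add_of_nonneg_of_le (by positivity) ?_
      rw [show (4 : ℝ) = 2 * 2 by norm_num, mul_pow, mul_assoc]
      refine mul_le_mul_of_nonneg_left ?_ (by positivity)
      obtain ⟨m, rfl⟩ := Nat.exists_eq_add_of_le' hq
      rw [pow_succ, pow_succ, mul_assoc]
      refine mul_le_mul (pow_le_pow_left₀ (abs_nonneg _) (hd2 z) m) ?_ (abs_nonneg _) (by positivity)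
      linarith [abs_nonneg (a z - b z)]
  refine (integral_mono (integrable_of_bdd ((ha.abs.div_const lam).pow_const q) (B := (1 / lam) ^ q)
    fun z => ?_) (i12.const_mul _) hpt).trans ?_
  · rw [abs_pow, abs_div, abs_abs, abs_of_pos hlam]
    exact pow_le_pow_left₀ (by positivity) (div_le_div_of_nonneg_right (ha1 z) hlam.le) q
  · rw [integral_const_mul, integral_add (i1.const_mul _) (i2.const_mul _), integral_const_mul,
      integral_const_mul]
    gcongr

theorem big_mag (hT : RTree G d) (hN : Near G d θ R M T j k η)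
    (hm : Mom (d - 1) θ (k * dt j) q μq) (hlam : 0 < lam) (hq : 1 ≤ q) {c x : V}
    (hx : G.dist c x ≤ M) :
    ∫ z, (|Mg G θ R j k c x z| / lam) ^ q ∂gN (ℕ × V) ≤ 3 * Bg lam q μq η := by
  refine (moment_shift (measurable_Mg c x) (measurable_mc R j k x) (hN.abs_Mg hT c x)
    (abs_mc_le hN.nn (hN.lt1 hT) R j k x) hlam hq (moment_mc hT hN hm x) (hN.close c x hx)).trans ?_
  have hη := hN.eta_nn c
  have h4 : (4 : ℝ) ^ q ≤ 16 ^ q := pow_le_pow_left₀ (by norm_num) (by norm_num) q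
  rw [Bg, div_eq_mul_one_div (16 : ℝ), mul_pow (16 : ℝ)]
  have e : (2 : ℝ) ^ q * (8 ^ q * (2 * (μq + η))) = 16 ^ q * (2 * (μq + η)) := by
    rw [← mul_assoc, ← mul_pow]; norm_num
  rw [e]
  have h5 : 4 ^ q * η ≤ 16 ^ q * (μq + η) :=
    mul_le_mul h4 (by linarith [hm.1]) hη (by positivity)
  have h6 := mul_le_mul_of_nonneg_left h5 (by positivity : (0 : ℝ) ≤ (1 / lam) ^ q)
  linarith

theorem big_mu (hT : RTree G d) (hN : Near G d θ R M T j k η)
    (hm : Mom (d - 1) θ (k * dt j) q μq) (hlam : 0 < lam) (hq : 1 ≤ q) {c a b : V}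
    (hab : G.Adj a b) (ha : G.dist c a ≤ M) (hb : G.dist c b ≤ M) :
    ∫ z, (|Mu G θ R j k c a b z| / lam) ^ q ∂gN (ℕ × V) ≤ 97 * Bg lam q μq η := by
  have h1 : G.dist b a ≤ M := by
    rw [SimpleGraph.dist_eq_one_iff_adj.2 hab.symm]; exact hN.one_le
  refine (moment_shift (measurable_Mu c a b) (measurable_Mu b a b) (hN.abs_Mu hT c a b)
    (hN.abs_Mu hT b a b) hlam hq (moment_msg hT hN hm hab rfl)
    (mu_shift hT hN hab ha hb h1 (by simp))).trans ?_
  have hη := hN.eta_nn c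
  have h4 : (4 : ℝ) ^ q ≤ 16 ^ q := pow_le_pow_left₀ (by norm_num) (by norm_num) q
  have h2 : (2 : ℝ) ^ q ≤ 16 ^ q := pow_le_pow_left₀ (by norm_num) (by norm_num) q
  rw [Bg, div_eq_mul_one_div (16 : ℝ), mul_pow (16 : ℝ)]
  have h5 : 4 ^ q * (96 * η) ≤ 16 ^ q * (96 * (μq + η)) :=
    mul_le_mul h4 (by linarith [hm.1]) (by positivity) (by positivity)
  have h7 : 2 ^ q * (μq + η) ≤ 16 ^ q * (μq + η) :=
    mul_le_mul_of_nonneg_right h2 (by linarith [hm.1])
  have h6 := mul_le_mul_of_nonneg_left (add_le_add h7 h5) (by positivity : (0 : ℝ) ≤ (1 / lam) ^ q)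
  linarith

theorem sq_sq_diff_le (hlam : 0 < lam) (q : ℕ) {x y : ℝ} (hx : |x| ≤ 1) (hy : |y| ≤ 1) :
    (x ^ 2 - y ^ 2) ^ 2 ≤ 4 * lam ^ 2 * (x - y) ^ 2 + big lam q x y := by
  by_cases h : lam < |x| ∨ lam < |y|
  · have h1 := one_le_big hlam q h
    have h2 := sq_sub_le_one (sq_nonneg x) (sq_le_one' hx) (sq_nonneg y) (sq_le_one' hy)
    linarith [mul_nonneg (mul_nonneg (by norm_num : (0 : ℝ) ≤ 4) (sq_nonneg lam)) (sq_nonneg (x - y))]
  · push Not at h
    have e : (x ^ 2 - y ^ 2) ^ 2 = (x + y) ^ 2 * (x - y) ^ 2 := by ring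
    have h3 : (x + y) ^ 2 ≤ 4 * lam ^ 2 := by
      have := (abs_add_le x y).trans (add_le_add h.1 h.2)
      nlinarith [sq_abs (x + y), abs_nonneg (x + y)]
    rw [e]
    linarith [mul_le_mul_of_nonneg_right h3 (sq_nonneg (x - y)), big_nonneg hlam.le q x y]

theorem msg_strength (hT : RTree G d) (hN : Near G d θ R M T j k η) (ht : 0 < (k : ℝ) * dt j)
    {a b : V} (hab : G.Adj a b) :
    |∫ z, muc G θ R j k a b z ^ 2 ∂gN (ℕ × V) - strength (d - 1) θ (k * dt j) R| ≤ η := by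
  set f := fun x : ℝ => min (x ^ 2) 1 with hf
  have hfm : Measurable f := by fun_prop
  have hfB : ∀ x, |f x| ≤ 1 := fun x => by
    simp only [hf]
    rw [abs_of_nonneg (le_min (sq_nonneg x) zero_le_one)]
    exact min_le_right _ _
  have h := integral_msg hT hN.nn (hN.lt1 hT) (conn_ball hT b R) hab (r := R) rfl hN.k_le
    (hN.small b) hfm (fun x => by simp [hf]) hfB
  have e1 : ∀ z, f (mu G θ (ball G b R) (scheme G θ (ball G b R) (dt j) z k) a b) =
      muc G θ R j k a b z ^ 2 := fun z => by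
    simp only [hf]
    exact min_eq_left (sq_le_one' (abs_muc_le (G := G) hN.nn (hN.lt1 hT) R j k a b z))
  have e2 : ∀ x, f (tanh x) = tanh x ^ 2 := fun x => by
    simp only [hf]
    exact min_eq_left (sq_le_one' (abs_tanh_le x))
  simp only [e1, e2, one_mul] at h
  rw [← (nish_XLaw hN.nn (hN.lt1 hT) ht R).tanh_sq] at h
  exact h.trans (hN.err_le b)

theorem integrable_pow_div (hT : RTree G d) (hN : Near G d θ R M T j k η) (hlam : 0 < lam)
    (c a b : V) :
    Integrable (fun z => (|Mu G θ R j k c a b z| / lam) ^ q) (gN (ℕ × V)) :=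
  integrable_of_bdd (((measurable_Mu c a b).abs.div_const lam).pow_const q) (B := (1 / lam) ^ q)
    fun z => by
      rw [abs_pow, abs_div, abs_abs, abs_of_pos hlam]
      exact pow_le_pow_left₀ (by positivity)
        (div_le_div_of_nonneg_right (hN.abs_Mu hT c a b z) hlam.le) q

theorem integrable_pow_div' (hT : RTree G d) (hN : Near G d θ R M T j k η) (hlam : 0 < lam)
    (c x : V) :
    Integrable (fun z => (|Mg G θ R j k c x z| / lam) ^ q) (gN (ℕ × V)) :=
  integrable_of_bdd (((measurable_Mg c x).abs.div_const lam).pow_const q) (B := (1 / lam) ^ q)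
    fun z => by
      rw [abs_pow, abs_div, abs_abs, abs_of_pos hlam]
      exact pow_le_pow_left₀ (by positivity)
        (div_le_div_of_nonneg_right (hN.abs_Mg hT c x z) hlam.le) q

theorem edgeW_sq (hT : RTree G d) (hN : Near G d θ R M T j k η) (hN' : Near G d θ' R M T j k η)
    (hm : Mom (d - 1) θ (k * dt j) q μq) (hm' : Mom (d - 1) θ' (k * dt j) q μq) (hlam : 0 < lam)
    (hq : 1 ≤ q) (o : V) {a b : V} (hab : G.Adj a b) :
    ∫ z, edgeW G θ θ' R j k a b z ^ 2 ∂gN (ℕ × V) ≤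
      16 * lam ^ 2 * (K0 * (6 * gap G θ θ' R j k o + 24 * η + (θ - θ') ^ 2)) +
        776 * Bg lam q μq η := by
  set F := fun z => edgeSq G θ R j k a b z - edgeSq G θ' R j k a b z with hF
  have hFm : Measurable F := (measurable_edgeSq R j k a b).sub (measurable_edgeSq R j k a b)
  have hFb : ∀ z, |F z| ≤ 2 := fun z => by
    have e1 := edgeSq_mem (G := G) hN.nn (hN.lt1 hT) R j k a b z
    have e2 := edgeSq_mem (G := G) hN'.nn (hN'.lt1 hT) R j k a b z
    simp only [hF]; rw [abs_le]; constructor <;> linarith [e1.1, e1.2, e2.1, e2.2]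
  have iF : Integrable F (gN (ℕ × V)) := integrable_of_bdd hFm hFb
  have iF2 : Integrable (fun z => F z ^ 2) (gN (ℕ × V)) :=
    integrable_of_bdd (hFm.pow_const 2) (B := 4) fun z => by
      rw [abs_pow]; nlinarith [hFb z, abs_nonneg (F z)]
  set m := ∫ z, F z ∂gN (ℕ × V) with hmdef
  have hvar : ∫ z, edgeW G θ θ' R j k a b z ^ 2 ∂gN (ℕ × V) ≤ ∫ z, F z ^ 2 ∂gN (ℕ × V) := by
    have e : ∀ z, edgeW G θ θ' R j k a b z ^ 2 = F z ^ 2 - 2 * m * F z + m ^ 2 := fun z => by
      simp only [edgeW, hF, hmdef]; ring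
    simp only [e]
    have i1 : Integrable (fun z => F z ^ 2 - 2 * m * F z) (gN (ℕ × V)) :=
      iF2.sub (iF.const_mul _)
    rw [integral_add i1 (integrable_const _), integral_sub iF2 (iF.const_mul _), integral_const_mul,
      integral_const, probReal_univ, one_smul, ← hmdef]
    nlinarith [sq_nonneg m]
  refine hvar.trans ?_
  have h1 : ∀ {a b : V}, G.Adj a b →
      ∫ z, (muc G θ R j k a b z ^ 2 - muc G θ' R j k a b z ^ 2) ^ 2 ∂gN (ℕ × V) ≤
        4 * lam ^ 2 * (K0 * (6 * gap G θ θ' R j k o + 24 * η + (θ - θ') ^ 2)) +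
          194 * Bg lam q μq η := by
    intro a b hab
    have hd : G.dist b a ≤ M := by
      rw [SimpleGraph.dist_eq_one_iff_adj.2 hab.symm]; exact hN.one_le
    have hd0 : G.dist b b ≤ M := by simp
    set u := fun z => Mu G θ R j k b a b z - Mu G θ' R j k b a b z with hu
    have iu : Integrable (fun z => u z ^ 2) (gN (ℕ × V)) :=
      integrable_of_bdd (((measurable_Mu b a b).sub (measurable_Mu b a b)).pow_const 2) (B := 4)
        fun z => by
          have := sq_diff_le_four (hN.abs_Mu hT b a b z) (hN'.abs_Mu hT b a b z)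
          rw [abs_of_nonneg this.1]; exact this.2
    have ib : Integrable (fun z => big lam q (Mu G θ R j k b a b z) (Mu G θ' R j k b a b z))
        (gN (ℕ × V)) :=
      (integrable_pow_div hT hN hlam b a b).add (integrable_pow_div hT hN' hlam b a b)
    refine (integral_mono (integrable_of_bdd
      ((((measurable_muc R j k a b).pow_const 2).sub ((measurable_muc R j k a b).pow_const 2)).pow_const 2)
      (B := 1) fun z => ?_) ((iu.const_mul (4 * lam ^ 2)).add ib)
      (fun z => sq_sq_diff_le hlam q (hN.abs_Mu hT b a b z) (hN'.abs_Mu hT b a b z))).trans ?_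
    · rw [abs_of_nonneg (sq_nonneg _)]
      exact sq_sub_le_one (sq_nonneg _) (sq_le_one' (hN.abs_Mu hT b a b z)) (sq_nonneg _)
        (sq_le_one' (hN'.abs_Mu hT b a b z))
    · rw [integral_add' (iu.const_mul _) ib, integral_const_mul]
      have e1 := mu_gap hT hN hN' (c := b) hab hd hd0 o
      have e2 := big_mu hT hN hm hlam hq (c := b) hab hd hd0
      have e3 := big_mu hT hN' hm' hlam hq (c := b) hab hd hd0
      have e4 : ∫ z, big lam q (Mu G θ R j k b a b z) (Mu G θ' R j k b a b z) ∂gN (ℕ × V) ≤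
          194 * Bg lam q μq η := by
        simp only [big]
        rw [integral_add (integrable_pow_div hT hN hlam b a b)
          (integrable_pow_div hT hN' hlam b a b)]
        linarith
      refine add_le_add (mul_le_mul_of_nonneg_left ?_ (by positivity)) e4
      exact e1.trans (le_of_eq (by ring))
  have hi : ∀ a b : V, Integrable
      (fun z => (muc G θ R j k a b z ^ 2 - muc G θ' R j k a b z ^ 2) ^ 2) (gN (ℕ × V)) := fun a b =>
    integrable_of_bdd
      ((((measurable_muc R j k a b).pow_const 2).sub ((measurable_muc R j k a b).pow_const 2)).pow_const 2)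
      (B := 1) fun z => by
        rw [abs_of_nonneg (sq_nonneg _)]
        exact sq_sub_le_one (sq_nonneg _) (sq_le_one' (hN.abs_Mu hT b a b z)) (sq_nonneg _)
          (sq_le_one' (hN'.abs_Mu hT b a b z))
  have hpt : ∀ z, F z ^ 2 ≤ 2 * ((muc G θ R j k a b z ^ 2 - muc G θ' R j k a b z ^ 2) ^ 2 +
      (muc G θ R j k b a z ^ 2 - muc G θ' R j k b a z ^ 2) ^ 2) := fun z => by
    simp only [hF, edgeSq]
    nlinarith [sq_nonneg ((muc G θ R j k a b z ^ 2 - muc G θ' R j k a b z ^ 2) -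
      (muc G θ R j k b a z ^ 2 - muc G θ' R j k b a z ^ 2))]
  refine (integral_mono iF2 (((hi a b).add (hi b a)).const_mul 2) hpt).trans ?_
  rw [integral_const_mul, integral_add' (hi a b) (hi b a)]
  linarith [h1 hab, h1 hab.symm]

theorem edge_mean (hT : RTree G d) (hN : Near G d θ R M T j k η) (hN' : Near G d θ' R M T j k η)
    (ht : 0 < (k : ℝ) * dt j) {a b : V} (hab : G.Adj a b) :
    (∫ z, (edgeSq G θ R j k a b z - edgeSq G θ' R j k a b z) ∂gN (ℕ × V)) ^ 2 ≤
      8 * (strength (d - 1) θ (k * dt j) R - strength (d - 1) θ' (k * dt j) R) ^ 2 + 32 * η := by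
  have hi : ∀ {θ₀ : ℝ}, Near G d θ₀ R M T j k η → ∀ a b : V,
      Integrable (fun z => muc G θ₀ R j k a b z ^ 2) (gN (ℕ × V)) := fun {θ₀} h a b =>
    integrable_of_bdd ((measurable_muc R j k a b).pow_const 2) (B := 1) fun z => by
      rw [abs_of_nonneg (sq_nonneg _)]; exact sq_le_one' (h.abs_Mu hT b a b z)
  have i1 : Integrable (fun z => edgeSq G θ R j k a b z) (gN (ℕ × V)) := (hi hN a b).add (hi hN b a)
  have i2 : Integrable (fun z => edgeSq G θ' R j k a b z) (gN (ℕ × V)) :=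
    (hi hN' a b).add (hi hN' b a)
  rw [integral_sub i1 i2]
  simp only [edgeSq]
  rw [integral_add (hi hN a b) (hi hN b a), integral_add (hi hN' a b) (hi hN' b a)]
  have e1 := abs_le.1 (msg_strength hT hN ht hab)
  have e2 := abs_le.1 (msg_strength hT hN ht hab.symm)
  have e3 := abs_le.1 (msg_strength hT hN' ht hab)
  have e4 := abs_le.1 (msg_strength hT hN' ht hab.symm)
  set u := (∫ z, muc G θ R j k a b z ^ 2 ∂gN (ℕ × V)) + (∫ z, muc G θ R j k b a z ^ 2 ∂gN (ℕ × V)) -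
    ((∫ z, muc G θ' R j k a b z ^ 2 ∂gN (ℕ × V)) + ∫ z, muc G θ' R j k b a z ^ 2 ∂gN (ℕ × V)) with hu
  set s := strength (d - 1) θ (k * dt j) R - strength (d - 1) θ' (k * dt j) R with hsdef
  have hη := hN.eta_nn a
  have hη1 := hN.eta
  have h : (u - 2 * s) ^ 2 ≤ 16 * η := by
    have h1 : -(4 * η) ≤ u - 2 * s := by simp only [hu, hsdef]; linarith [e1.1, e2.1, e3.2, e4.2]
    have h2 : u - 2 * s ≤ 4 * η := by simp only [hu, hsdef]; linarith [e1.2, e2.2, e3.1, e4.1]
    nlinarith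
  nlinarith [sq_nonneg (u - 4 * s)]

/-- The sum of squared messages of an edge in the ball around `o`. -/
def edgeAt (G : SimpleGraph V) (θ : ℝ) (R j k : ℕ) (o a b : V) (z : ℕ × V → ℝ) : ℝ :=
  Mu G θ R j k o a b z ^ 2 + Mu G θ R j k o b a z ^ 2

theorem measurable_edgeAt (o a b : V) : Measurable (edgeAt G θ R j k o a b) :=
  ((measurable_Mu o a b).pow_const 2).add ((measurable_Mu o b a).pow_const 2)

theorem edgeAt_shift (hT : RTree G d) (hN : Near G d θ R M T j k η) {o a b : V} (hab : G.Adj a b)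
    (ha : G.dist o a ≤ M) (hb : G.dist o b ≤ M) :
    (∀ z, |edgeAt G θ R j k o a b z - edgeSq G θ R j k a b z| ≤ 2) ∧
      Integrable (fun z => |edgeAt G θ R j k o a b z - edgeSq G θ R j k a b z|) (gN (ℕ × V)) ∧
      ∫ z, |edgeAt G θ R j k o a b z - edgeSq G θ R j k a b z| ∂gN (ℕ × V) ≤ 384 * η := by
  have hbd : ∀ z, |edgeAt G θ R j k o a b z - edgeSq G θ R j k a b z| ≤ 2 := fun z => by
    have e1 := edgeSq_mem (G := G) hN.nn (hN.lt1 hT) R j k a b z
    have a1 := sq_le_one' (hN.abs_Mu hT o a b z)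
    have a2 := sq_le_one' (hN.abs_Mu hT o b a z)
    have a3 := sq_nonneg (Mu G θ R j k o a b z)
    have a4 := sq_nonneg (Mu G θ R j k o b a z)
    unfold edgeAt
    rw [abs_le]; constructor <;> linarith [e1.1, e1.2]
  have hm : Measurable (fun z => edgeAt G θ R j k o a b z - edgeSq G θ R j k a b z) :=
    (measurable_edgeAt o a b).sub (measurable_edgeSq R j k a b)
  refine ⟨hbd, (integrable_of_bdd hm hbd).abs, ?_⟩
  have hi : ∀ c a b, Integrable (fun z => |Mu G θ R j k o a b z - Mu G θ R j k c a b z|)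
      (gN (ℕ × V)) := fun c a b =>
    (integrable_of_bdd ((measurable_Mu o a b).sub (measurable_Mu c a b)) (B := 2) fun z =>
      (abs_sub _ _).trans (by linarith [hN.abs_Mu hT o a b z, hN.abs_Mu hT c a b z])).abs
  have hpt : ∀ z, |edgeAt G θ R j k o a b z - edgeSq G θ R j k a b z| ≤
      2 * (|Mu G θ R j k o a b z - Mu G θ R j k b a b z| +
        |Mu G θ R j k o b a z - Mu G θ R j k a b a z|) := fun z => by
    have h : ∀ x y : ℝ, |x| ≤ 1 → |y| ≤ 1 → |x ^ 2 - y ^ 2| ≤ 2 * |x - y| := fun x y hx hy =>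
      (abs_sq_sub_le x y).trans (mul_le_mul_of_nonneg_right (by linarith) (abs_nonneg _))
    have h1 := h _ _ (hN.abs_Mu hT o a b z) (hN.abs_Mu hT b a b z)
    have h2 := h _ _ (hN.abs_Mu hT o b a z) (hN.abs_Mu hT a b a z)
    have e : edgeAt G θ R j k o a b z - edgeSq G θ R j k a b z =
        (Mu G θ R j k o a b z ^ 2 - Mu G θ R j k b a b z ^ 2) +
          (Mu G θ R j k o b a z ^ 2 - Mu G θ R j k a b a z ^ 2) := by
      simp only [edgeAt, edgeSq, muc_eq_Mu]; ring
    rw [e]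
    exact (abs_add_le _ _).trans (by linarith)
  have h1 : G.dist a b ≤ M := by
    rw [SimpleGraph.dist_eq_one_iff_adj.2 hab]; exact hN.one_le
  have h1' : G.dist b a ≤ M := by rw [SimpleGraph.dist_comm]; exact h1
  refine (integral_mono (integrable_of_bdd hm hbd).abs (((hi b a b).add (hi a b a)).const_mul 2)
    hpt).trans ?_
  rw [integral_const_mul, integral_add' (hi b a b) (hi a b a)]
  linarith [mu_shift hT hN hab ha hb h1' (by simp),
    mu_shift hT hN hab.symm hb ha h1 (by simp)]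

theorem sq_sum_three {ι : Type*} (S : Finset ι) (W m δ : ι → ℝ) (hδ : ∀ i ∈ S, |δ i| ≤ 4) :
    (∑ i ∈ S, (W i + m i + δ i)) ^ 2 ≤ 3 * (∑ i ∈ S, W i) ^ 2 +
      3 * (S.card * ∑ i ∈ S, m i ^ 2) + 3 * (4 * S.card * ∑ i ∈ S, |δ i|) := by
  rw [Finset.sum_add_distrib, Finset.sum_add_distrib]
  have h1 := sq_sum_le_card_mul_sum_sq (s := S) (f := m)
  have h2 : |∑ i ∈ S, δ i| ≤ ∑ i ∈ S, |δ i| := Finset.abs_sum_le_sum_abs _ _
  have h3 : ∑ i ∈ S, |δ i| ≤ 4 * S.card := by
    refine (Finset.sum_le_card_nsmul _ _ 4 hδ).trans_eq ?_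
    rw [nsmul_eq_mul, mul_comm]
  have h4 : (∑ i ∈ S, δ i) ^ 2 ≤ 4 * S.card * ∑ i ∈ S, |δ i| := by
    rw [← sq_abs, sq]
    exact mul_le_mul (h2.trans h3) h2 (abs_nonneg _) (by positivity)
  nlinarith [sq_nonneg ((∑ i ∈ S, W i) - ∑ i ∈ S, m i), sq_nonneg ((∑ i ∈ S, W i) - ∑ i ∈ S, δ i),
    sq_nonneg ((∑ i ∈ S, m i) - ∑ i ∈ S, δ i)]

theorem sumSq_gap (hT : RTree G d) : ∃ C : ℝ, 0 ≤ C ∧
    ∀ (θ θ' η : ℝ) (R M T j k q : ℕ) (μq lam : ℝ), Near G d θ R M T j k η →
      Near G d θ' R M T j k η → 0 < lam → 1 ≤ q → 0 < (k : ℝ) * dt j →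
      Mom (d - 1) θ (k * dt j) q μq → Mom (d - 1) θ' (k * dt j) q μq →
      ∀ o w : V, G.dist o w ≤ M →
        ∫ z, (sumSq G θ (ball G o R) (hs G θ R j k o z) o w -
            sumSq G θ' (ball G o R) (hs G θ' R j k o z) o w) ^ 2 ∂gN (ℕ × V) ≤
          3 * (C * G.dist o w * (16 * lam ^ 2 *
              (K0 * (6 * gap G θ θ' R j k o + 24 * η + (θ - θ') ^ 2)) + 776 * Bg lam q μq η)) +
            (G.dist o w : ℝ) ^ 2 *
              (24 * (strength (d - 1) θ (k * dt j) R - strength (d - 1) θ' (k * dt j) R) ^ 2 +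
                10000 * η) := by
  obtain ⟨C, hC, hdec⟩ := path_sum_sq_le (Ω := ℕ × V → ℝ) hT
  refine ⟨C, hC, fun θ θ' η R M T j k q μq lam hN hN' hlam hq ht hm hm' o w hw => ?_⟩
  set n := G.dist o w with hn
  set a := fun i => geo G o w i with ha
  have hadj : ∀ i, i < n → G.Adj (a i) (a (i + 1)) := fun i hi => geo_adj hT hi
  have hd : ∀ i, i ≤ n → G.dist o (a i) ≤ M := fun i hi => by
    simp only [ha]; rw [(geo_spec hT hi).1]; omega
  set W := fun i z => edgeW G θ θ' R j k (a i) (a (i + 1)) z with hW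
  set mn := fun i => ∫ y, (edgeSq G θ R j k (a i) (a (i + 1)) y -
    edgeSq G θ' R j k (a i) (a (i + 1)) y) ∂gN (ℕ × V) with hmn
  set δ := fun i z => (edgeAt G θ R j k o (a i) (a (i + 1)) z - edgeSq G θ R j k (a i) (a (i + 1)) z) -
    (edgeAt G θ' R j k o (a i) (a (i + 1)) z - edgeSq G θ' R j k (a i) (a (i + 1)) z) with hδ
  have hsum : ∀ z, sumSq G θ (ball G o R) (hs G θ R j k o z) o w -
      sumSq G θ' (ball G o R) (hs G θ' R j k o z) o w = ∑ i ∈ range n, (W i z + mn i + δ i z) :=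
    fun z => by
      simp only [sumSq, ← hn, ← Finset.sum_sub_distrib]
      refine Finset.sum_congr rfl fun i _ => ?_
      simp only [hW, hmn, hδ, edgeW, edgeAt, fwd, bwd, Mu, ha]
      ring
  have hδb : ∀ z, ∀ i ∈ range n, |δ i z| ≤ 4 := fun z i hi => by
    rw [Finset.mem_range] at hi
    refine (abs_sub _ _).trans ?_
    linarith [(edgeAt_shift hT hN (hadj i hi) (hd i hi.le) (hd _ hi)).1 z,
      (edgeAt_shift hT hN' (hadj i hi) (hd i hi.le) (hd _ hi)).1 z]
  simp only [hsum]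
  have hWb : ∀ (u v : V) z, G.Adj u v → |edgeW G θ θ' R j k u v z| ≤ 4 := fun u v z _ => by
    have hFb : ∀ z, |edgeSq G θ R j k u v z - edgeSq G θ' R j k u v z| ≤ 2 := fun z => by
      have e1 := edgeSq_mem (G := G) hN.nn (hN.lt1 hT) R j k u v z
      have e2 := edgeSq_mem (G := G) hN'.nn (hN'.lt1 hT) R j k u v z
      rw [abs_le]; constructor <;> linarith [e1.1, e1.2, e2.1, e2.2]
    refine (abs_sub _ _).trans ?_
    have h2 : |∫ y, (edgeSq G θ R j k u v y - edgeSq G θ' R j k u v y) ∂gN (ℕ × V)| ≤ 2 := by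
      refine abs_integral_le_integral_abs.trans (integral_const_le ?_ hFb)
      exact (integrable_of_bdd ((measurable_edgeSq R j k u v).sub (measurable_edgeSq R j k u v))
        hFb).abs
    linarith [hFb z]
  have hWm : ∀ u v : V, Measurable (edgeW G θ θ' R j k u v) := fun u v =>
    ((measurable_edgeSq R j k u v).sub (measurable_edgeSq R j k u v)).sub_const _
  have hsym : ∀ u v : V, edgeW G θ θ' R j k u v = edgeW G θ θ' R j k v u := fun u v => by
    funext z
    simp only [edgeW, edgeSq, add_comm (muc G _ R j k u v _ ^ 2)]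
  obtain ⟨y, hy⟩ : (nbr G o).Nonempty := Finset.card_pos.1 (by
    rw [card_nbr hT]; have := hT.three; omega)
  have hoy : G.Adj o y := (mem_nbr hT).1 hy
  have hdecor := hdec (gN (ℕ × V)) inferInstance (edgeW G θ θ' R j k) 4 (2 * R + 2)
    (fun u v _ => hWm u v) (fun u v z h => hWb u v z h) (fun u v _ => hsym u v)
    (fun g u v u' v' _ _ => by
      simp only [edgeW_map hT]
      exact integral_rl g (F := fun z => edgeW G θ θ' R j k u v z * edgeW G θ θ' R j k u' v' z)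
        ((hWm u v).mul (hWm u' v')))
    (fun u v u' v' h h' hdist => edgeW_indep hT hN.nn (hN.lt1 hT) hN'.nn (hN'.lt1 hT) R j k h h' hdist)
    a n hadj (by simp only [ha]; rw [geo_zero hT, hn, geo_end hT]) o y hoy
  have iS : Integrable (fun z => (∑ i ∈ range n, W i z) ^ 2) (gN (ℕ × V)) :=
    integrable_of_bdd ((Finset.measurable_sum _ fun i _ => hWm _ _).pow_const 2)
      (B := ((n : ℝ) * 4) ^ 2) fun z => by
      rw [abs_pow]
      refine pow_le_pow_left₀ (abs_nonneg _) ((Finset.abs_sum_le_sum_abs _ _).trans ?_) 2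
      refine (Finset.sum_le_card_nsmul _ _ 4 fun i hi =>
        hWb _ _ z (hadj i (Finset.mem_range.1 hi))).trans_eq ?_
      rw [Finset.card_range, nsmul_eq_mul]
  have iδ : ∀ i ∈ range n, Integrable (fun z => |δ i z|) (gN (ℕ × V)) := fun i hi =>
    (integrable_of_bdd (((measurable_edgeAt o _ _).sub (measurable_edgeSq R j k _ _)).sub
      ((measurable_edgeAt o _ _).sub (measurable_edgeSq R j k _ _))) (B := 4)
      fun z => hδb z i hi).abs
  have iD : Integrable (fun z => 3 * (4 * (n : ℝ) * ∑ i ∈ range n, |δ i z|)) (gN (ℕ × V)) :=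
    ((integrable_finsetSum _ iδ).const_mul _).const_mul 3
  have iR : Integrable (fun z => 3 * (∑ i ∈ range n, W i z) ^ 2 +
      3 * ((n : ℝ) * ∑ i ∈ range n, mn i ^ 2)) (gN (ℕ × V)) :=
    (iS.const_mul 3).add (integrable_const _)
  have hpt : ∀ z, (∑ i ∈ range n, (W i z + mn i + δ i z)) ^ 2 ≤
      3 * (∑ i ∈ range n, W i z) ^ 2 + 3 * ((n : ℝ) * ∑ i ∈ range n, mn i ^ 2) +
        3 * (4 * (n : ℝ) * ∑ i ∈ range n, |δ i z|) := fun z => by
    have := sq_sum_three (range n) (fun i => W i z) mn (fun i => δ i z) (hδb z)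
    rwa [Finset.card_range] at this
  have iL : Integrable (fun z => (∑ i ∈ range n, (W i z + mn i + δ i z)) ^ 2) (gN (ℕ × V)) := by
    refine (iR.add iD).mono' ?_ (ae_of_all _ fun z => ?_)
    · exact ((Finset.measurable_sum _ fun i _ => ((hWm _ _).add_const _).add
        (((measurable_edgeAt o _ _).sub (measurable_edgeSq R j k _ _)).sub
          ((measurable_edgeAt o _ _).sub (measurable_edgeSq R j k _ _)))).pow_const 2).aestronglyMeasurable
    · rw [Real.norm_eq_abs, abs_of_nonneg (sq_nonneg _)]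
      exact hpt z
  refine (integral_mono iL (iR.add iD) hpt).trans ?_
  rw [integral_add' iR iD, integral_add (iS.const_mul 3) (integrable_const _), integral_const_mul,
    integral_const, probReal_univ, one_smul, integral_const_mul, integral_const_mul,
    integral_finsetSum _ iδ]
  have b1 : ∑ i ∈ range n, ∫ z, |δ i z| ∂gN (ℕ × V) ≤ n * (768 * η) := by
    refine (Finset.sum_le_card_nsmul _ _ (768 * η) fun i hi => ?_).trans_eq (by
      rw [Finset.card_range, nsmul_eq_mul])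
    rw [Finset.mem_range] at hi
    obtain ⟨-, i1, e1⟩ := edgeAt_shift hT hN (hadj i hi) (hd i hi.le) (hd _ hi)
    obtain ⟨-, i2, e2⟩ := edgeAt_shift hT hN' (hadj i hi) (hd i hi.le) (hd _ hi)
    refine (integral_mono (iδ i (Finset.mem_range.2 hi)) (i1.add i2) fun z => abs_sub _ _).trans ?_
    rw [integral_add' i1 i2]
    linarith
  have b2 : ∑ i ∈ range n, mn i ^ 2 ≤ n * (8 *
      (strength (d - 1) θ (k * dt j) R - strength (d - 1) θ' (k * dt j) R) ^ 2 + 32 * η) :=
    (Finset.sum_le_card_nsmul _ _ _ fun i hi =>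
      edge_mean hT hN hN' ht (hadj i (Finset.mem_range.1 hi))).trans_eq (by
        rw [Finset.card_range, nsmul_eq_mul])
  have b3 : ∫ z, (∑ i ∈ range n, W i z) ^ 2 ∂gN (ℕ × V) ≤ C * n * (16 * lam ^ 2 *
      (K0 * (6 * gap G θ θ' R j k o + 24 * η + (θ - θ') ^ 2)) + 776 * Bg lam q μq η) :=
    hdecor.trans (mul_le_mul_of_nonneg_left (edgeW_sq hT hN hN' hm hm' hlam hq o hoy)
      (by positivity))
  have b4 := mul_le_mul_of_nonneg_left b1 (by positivity : (0 : ℝ) ≤ 4 * n)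
  have b5 := mul_le_mul_of_nonneg_left b2 (by positivity : (0 : ℝ) ≤ (n : ℝ))
  have hη := hN.eta_nn o
  nlinarith [mul_nonneg (sq_nonneg (n : ℝ)) hη]

theorem final_combine {C K n g η e B E S lam : ℝ} (hC : 0 ≤ C) (hK : 1 ≤ K) (hn : 0 ≤ n)
    (hg : 0 ≤ g) (hη : 0 ≤ η) (he : 0 ≤ e) (hB : 0 ≤ B) (hE : 0 ≤ E) (hS : 0 ≤ S) (hl : 0 ≤ lam)
    (hl1 : lam ≤ 1) :
    3 * g + 12 * η + 6 * B + (3 * g + 12 * η + 6 * B) +
        (3 * (C * n * (16 * lam ^ 2 * (K * (6 * g + 24 * η + e)) + 776 * B)) +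
          n ^ 2 * (24 * S + 10000 * η)) +
        n * (n * (lam ^ 6 * (2 * (K * (6 * g + 24 * η + e))) + 388 * B)) + n ^ 2 * (E + e) ≤
      20000 * (C + 1) * K * ((1 + n * lam ^ 2 + n ^ 2 * lam ^ 6) * g +
        (n + 1) ^ 2 * (B + η + e + E + S)) := by
  set A := 20000 * (C + 1) * K with hA
  have hl2 : lam ^ 2 ≤ 1 := pow_le_one₀ hl hl1
  have hl6 : lam ^ 6 ≤ 1 := pow_le_one₀ hl hl1
  have a1 : (6 + 288 * C * K + 12 * K + 12) ≤ A := by rw [hA]; nlinarith [mul_nonneg hC (sub_nonneg.2 hK)]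
  have a2 : (24 + 1200 * C * K + 10100 * K + 12) ≤ 2 * A := by
    rw [hA]; nlinarith [mul_nonneg hC (sub_nonneg.2 hK)]
  have a3 : 12 + 2400 * C + 400 ≤ A := by rw [hA]; nlinarith [mul_nonneg hC (sub_nonneg.2 hK)]
  have u : 0 ≤ n + n ^ 2 := by positivity
  have q1 : n * lam ^ 2 ≤ n := mul_le_of_le_one_right hn hl2
  have q2 : n ^ 2 * lam ^ 6 ≤ n ^ 2 := mul_le_of_le_one_right (sq_nonneg n) hl6
  have hK0 : 0 ≤ K := by linarith
  have hCK : 0 ≤ C * K := mul_nonneg hC hK0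
  have b1 : 6 + 288 * (C * K) * (n * lam ^ 2) + 12 * K * (n ^ 2 * lam ^ 6) ≤
      A * (1 + n * lam ^ 2 + n ^ 2 * lam ^ 6) := by
    have x1 : (6 : ℝ) ≤ A := by linarith
    have x2 : 288 * (C * K) ≤ A := by linarith
    have x3 : 12 * K ≤ A := by linarith
    linarith [mul_le_mul_of_nonneg_right x2 (by positivity : 0 ≤ n * lam ^ 2),
      mul_le_mul_of_nonneg_right x3 (by positivity : 0 ≤ n ^ 2 * lam ^ 6)]
  have b2 : 24 + 1152 * (C * K) * (n * lam ^ 2) + 10000 * n ^ 2 + 48 * K * (n ^ 2 * lam ^ 6) ≤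
      A * (n + 1) ^ 2 := by
    have x1 : (24 : ℝ) ≤ A := by linarith
    have x2 : 1152 * (C * K) ≤ 2 * A := by linarith
    have x3 : 10000 + 48 * K ≤ A := by
      rw [hA]; nlinarith [mul_nonneg hC hK0]
    linarith [mul_le_mul_of_nonneg_left q1 (by positivity : (0 : ℝ) ≤ 1152 * (C * K)),
      mul_le_mul_of_nonneg_left q2 (by positivity : (0 : ℝ) ≤ 48 * K),
      mul_le_mul_of_nonneg_right x2 hn, mul_le_mul_of_nonneg_right x3 (sq_nonneg n)]
  have b3 : 48 * (C * K) * (n * lam ^ 2) + 2 * K * (n ^ 2 * lam ^ 6) + n ^ 2 ≤ A * (n + 1) ^ 2 := by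
    have x2 : 48 * (C * K) ≤ 2 * A := by linarith
    have x3 : 2 * K + 1 ≤ A := by linarith
    linarith [mul_le_mul_of_nonneg_left q1 (by positivity : (0 : ℝ) ≤ 48 * (C * K)),
      mul_le_mul_of_nonneg_left q2 (by positivity : (0 : ℝ) ≤ 2 * K),
      mul_le_mul_of_nonneg_right x2 hn, mul_le_mul_of_nonneg_right x3 (sq_nonneg n),
      (by linarith : (0 : ℝ) ≤ A)]
  have b4 : 12 + 2328 * C * n + 388 * n ^ 2 ≤ A * (n + 1) ^ 2 := by
    have x2 : 2328 * C ≤ 2 * A := by linarith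
    have x3 : (388 : ℝ) ≤ A := by linarith
    linarith [mul_le_mul_of_nonneg_right x2 hn, mul_le_mul_of_nonneg_right x3 (sq_nonneg n)]
  have b5 : n ^ 2 ≤ A * (n + 1) ^ 2 := by
    linarith [mul_le_mul_of_nonneg_right (by linarith : (1 : ℝ) ≤ A) (sq_nonneg n),
      mul_nonneg (by linarith : (0 : ℝ) ≤ A) hn, (by linarith : (0 : ℝ) ≤ A)]
  have b6 : 24 * n ^ 2 ≤ A * (n + 1) ^ 2 := by
    linarith [mul_le_mul_of_nonneg_right (by linarith : (24 : ℝ) ≤ A) (sq_nonneg n),
      mul_nonneg (by linarith : (0 : ℝ) ≤ A) hn, (by linarith : (0 : ℝ) ≤ A)]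
  linarith [mul_le_mul_of_nonneg_right b1 hg, mul_le_mul_of_nonneg_right b2 hη,
    mul_le_mul_of_nonneg_right b3 he, mul_le_mul_of_nonneg_right b4 hB,
    mul_le_mul_of_nonneg_right b5 hE, mul_le_mul_of_nonneg_right b6 hS]

/-- One term at moderate radius. -/
theorem near_term (hT : RTree G d) : ∃ C : ℝ, 0 ≤ C ∧
    ∀ (θ θ' η : ℝ) (R M T j k q : ℕ) (μq lam : ℝ), Near G d θ R M T j k η →
      Near G d θ' R M T j k η → 0 < lam → lam ≤ 1 / 2 → 1 ≤ q → 0 < (k : ℝ) * dt j →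
      Mom (d - 1) θ (k * dt j) q μq → Mom (d - 1) θ' (k * dt j) q μq →
      ∀ o w : V, G.dist o w ≤ M →
        ∫ z, dC G θ θ' R j k o w z ^ 2 ∂gN (ℕ × V) ≤
          10 ^ 5 * ((d - 1 : ℕ) : ℝ) * (1 / ((d - 1 : ℕ) : ℝ)) ^ G.dist o w *
            (C * ((1 + G.dist o w * lam ^ 2 + (G.dist o w : ℝ) ^ 2 * lam ^ 6) *
                gap G θ θ' R j k o +
              ((G.dist o w : ℝ) + 1) ^ 2 * (Bg lam q μq η + η + (θ - θ') ^ 2 +
                (1 / ((d - 1 : ℕ) : ℝ) - θ ^ 2) + (1 / ((d - 1 : ℕ) : ℝ) - θ' ^ 2) +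
                (strength (d - 1) θ (k * dt j) R - strength (d - 1) θ' (k * dt j) R) ^ 2))) := by
  obtain ⟨C, hC, hS⟩ := sumSq_gap hT
  refine ⟨20000 * (C + 1) * K0, by unfold K0; positivity,
    fun θ θ' η R M T j k q μq lam hN hN' hlam hlam2 hq ht hm hm' o w hw => ?_⟩
  set n := G.dist o w with hn
  set g := gap G θ θ' R j k o
  set e := (θ - θ') ^ 2 with he
  set B := Bg lam q μq η with hB
  set S := (strength (d - 1) θ (k * dt j) R - strength (d - 1) θ' (k * dt j) R) ^ 2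
  set c := 10 ^ 5 * ((d - 1 : ℕ) : ℝ) * (1 / ((d - 1 : ℕ) : ℝ)) ^ n
  set E := (1 / ((d - 1 : ℕ) : ℝ) - θ ^ 2) + (1 / ((d - 1 : ℕ) : ℝ) - θ' ^ 2) with hE
  set x := fun i => geo G o w i with hx
  have hd : ∀ i, i ≤ n → G.dist o (x i) ≤ M := fun i hi => by
    simp only [hx]; rw [(geo_spec hT hi).1]; omega
  set P := fun i z => ((Mg G θ R j k o (x i) z - Mg G θ' R j k o (x i) z) ^ 2) +
    big lam q (Mg G θ R j k o (x i) z) (Mg G θ' R j k o (x i) z) with hP
  set U := fun i z => lam ^ 6 *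
      ((Mu G θ R j k o (x i) (x (i + 1)) z - Mu G θ' R j k o (x i) (x (i + 1)) z) ^ 2 +
        (Mu G θ R j k o (x (i + 1)) (x i) z - Mu G θ' R j k o (x (i + 1)) (x i) z) ^ 2) +
      big lam q (Mu G θ R j k o (x i) (x (i + 1)) z) (Mu G θ' R j k o (x i) (x (i + 1)) z) +
      big lam q (Mu G θ R j k o (x (i + 1)) (x i) z) (Mu G θ' R j k o (x (i + 1)) (x i) z) with hU
  set D := fun z => (sumSq G θ (ball G o R) (hs G θ R j k o z) o w -
    sumSq G θ' (ball G o R) (hs G θ' R j k o z) o w) ^ 2 with hD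
  have hon := onPath_ball (R := R) hT (o := o) (w := w) (hw.trans hN.M_le.le)
  have hpt : ∀ z, dC G θ θ' R j k o w z ^ 2 ≤
      c * (P 0 z + P n z + D z + (n : ℝ) * ∑ i ∈ range n, U i z + (n : ℝ) ^ 2 * (E + e)) := fun z =>
    delta_cv_sum hT hN.nn hN'.nn hN.crit hN'.crit (conn_ball hT o R) (conn_ball hT o R) hon hon
      (hs G θ R j k o z) (hs G θ' R j k o z) hlam hlam2 q
  have isq : ∀ u v, Integrable (fun z => (Mu G θ R j k o u v z - Mu G θ' R j k o u v z) ^ 2)
      (gN (ℕ × V)) := fun u v =>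
    integrable_of_bdd (((measurable_Mu o u v).sub (measurable_Mu o u v)).pow_const 2) (B := 4)
      fun z => by
        have := sq_diff_le_four (hN.abs_Mu hT o u v z) (hN'.abs_Mu hT o u v z)
        rw [abs_of_nonneg this.1]; exact this.2
  have ibg : ∀ u v, Integrable (fun z => big lam q (Mu G θ R j k o u v z) (Mu G θ' R j k o u v z))
      (gN (ℕ × V)) := fun u v =>
    (integrable_pow_div hT hN hlam o u v).add (integrable_pow_div hT hN' hlam o u v)
  have isqm : ∀ i, Integrable (fun z => (Mg G θ R j k o (x i) z - Mg G θ' R j k o (x i) z) ^ 2)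
      (gN (ℕ × V)) := fun i =>
    integrable_of_bdd (((measurable_Mg o (x i)).sub (measurable_Mg o (x i))).pow_const 2) (B := 4)
      fun z => by
        have := sq_diff_le_four (hN.abs_Mg hT o (x i) z) (hN'.abs_Mg hT o (x i) z)
        rw [abs_of_nonneg this.1]; exact this.2
  have iP : ∀ i, Integrable (P i) (gN (ℕ × V)) := fun i =>
    (isqm i).add ((integrable_pow_div' hT hN hlam o _).add (integrable_pow_div' hT hN' hlam o _))
  have iU : ∀ i ∈ range n, Integrable (U i) (gN (ℕ × V)) := fun i _ =>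
    ((((isq _ _).add (isq _ _)).const_mul _).add (ibg _ _)).add (ibg _ _)
  have hmu : ∀ (θ₀ : ℝ) (u v : V), Measurable (fun z => Mu G θ₀ R j k o u v z) :=
    fun θ₀ u v => measurable_Mu o u v
  have iD : Integrable D (gN (ℕ × V)) := by
    have hsm : ∀ θ₀ : ℝ, Measurable (fun z => sumSq G θ₀ (ball G o R) (hs G θ₀ R j k o z) o w) :=
      fun θ₀ => Finset.measurable_sum _ fun i _ =>
        ((hmu θ₀ _ _).pow_const 2).add ((hmu θ₀ _ _).pow_const 2)
    have hsb : ∀ θ₀ : ℝ, Near G d θ₀ R M T j k η → ∀ z,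
        |sumSq G θ₀ (ball G o R) (hs G θ₀ R j k o z) o w| ≤ 2 * n := fun θ₀ h z => by
      rw [sumSq, ← hn, abs_of_nonneg (Finset.sum_nonneg fun i _ => by positivity)]
      refine (Finset.sum_le_card_nsmul _ _ 2 fun i _ => ?_).trans_eq (by
        rw [Finset.card_range, nsmul_eq_mul, mul_comm])
      have a1 := sq_le_one' (h.abs_Mu hT o (x i) (x (i + 1)) z)
      have a2 := sq_le_one' (h.abs_Mu hT o (x (i + 1)) (x i) z)
      simp only [fwd, bwd, Mu, hx] at a1 a2 ⊢
      linarith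
    exact integrable_of_bdd (((hsm θ).sub (hsm θ')).pow_const 2) (B := (4 * (n : ℝ)) ^ 2) fun z => by
      rw [abs_pow]
      exact pow_le_pow_left₀ (abs_nonneg _) ((abs_sub _ _).trans (by
        linarith [hsb θ hN z, hsb θ' hN' z])) 2
  have eP : ∀ i, i ≤ n → ∫ z, P i z ∂gN (ℕ × V) ≤ 3 * g + 12 * η + 6 * B := fun i hi => by
    simp only [hP, big]
    have iq : Integrable (fun z => (|Mg G θ R j k o (x i) z| / lam) ^ q +
        (|Mg G θ' R j k o (x i) z| / lam) ^ q) (gN (ℕ × V)) :=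
      (integrable_pow_div' hT hN hlam o (x i)).add (integrable_pow_div' hT hN' hlam o (x i))
    rw [integral_add (isqm i) iq,
      integral_add (integrable_pow_div' hT hN hlam o _) (integrable_pow_div' hT hN' hlam o _)]
    linarith [mag_gap hT hN hN' (hd i hi) o, big_mag hT hN hm hlam hq (hd i hi),
      big_mag hT hN' hm' hlam hq (hd i hi)]
  have eU : ∀ i ∈ range n, ∫ z, U i z ∂gN (ℕ × V) ≤
      lam ^ 6 * (2 * (K0 * (6 * g + 24 * η + e))) + 388 * B := fun i hi => by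
    rw [Finset.mem_range] at hi
    have hab : G.Adj (x i) (x (i + 1)) := geo_adj hT hi
    have i1 : Integrable (fun z => lam ^ 6 *
        ((Mu G θ R j k o (x i) (x (i + 1)) z - Mu G θ' R j k o (x i) (x (i + 1)) z) ^ 2 +
          (Mu G θ R j k o (x (i + 1)) (x i) z - Mu G θ' R j k o (x (i + 1)) (x i) z) ^ 2))
        (gN (ℕ × V)) := ((isq _ _).add (isq _ _)).const_mul _
    have i2 : Integrable (fun z => lam ^ 6 *
        ((Mu G θ R j k o (x i) (x (i + 1)) z - Mu G θ' R j k o (x i) (x (i + 1)) z) ^ 2 +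
          (Mu G θ R j k o (x (i + 1)) (x i) z - Mu G θ' R j k o (x (i + 1)) (x i) z) ^ 2) +
        big lam q (Mu G θ R j k o (x i) (x (i + 1)) z) (Mu G θ' R j k o (x i) (x (i + 1)) z))
        (gN (ℕ × V)) := i1.add (ibg _ _)
    simp only [hU]
    rw [integral_add i2 (ibg _ _), integral_add i1 (ibg _ _), integral_const_mul,
      integral_add (isq _ _) (isq _ _)]
    have e1 := mu_gap hT hN hN' hab (hd i hi.le) (hd _ hi) o
    have e2 := mu_gap hT hN hN' hab.symm (hd _ hi) (hd i hi.le) o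
    have e12 := mul_le_mul_of_nonneg_left (add_le_add e1 e2) (by positivity : (0 : ℝ) ≤ lam ^ 6)
    simp only [big]
    rw [integral_add (integrable_pow_div hT hN hlam o _ _) (integrable_pow_div hT hN' hlam o _ _),
      integral_add (integrable_pow_div hT hN hlam o _ _) (integrable_pow_div hT hN' hlam o _ _)]
    linarith [big_mu hT hN hm hlam hq hab (hd i hi.le) (hd _ hi),
      big_mu hT hN' hm' hlam hq hab (hd i hi.le) (hd _ hi),
      big_mu hT hN hm hlam hq hab.symm (hd _ hi) (hd i hi.le),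
      big_mu hT hN' hm' hlam hq hab.symm (hd _ hi) (hd i hi.le)]
  have iS : Integrable (fun z => (n : ℝ) * ∑ i ∈ range n, U i z) (gN (ℕ × V)) :=
    (integrable_finsetSum _ iU).const_mul _
  have j1 : Integrable (fun z => P 0 z + P n z) (gN (ℕ × V)) := (iP 0).add (iP n)
  have j2 : Integrable (fun z => P 0 z + P n z + D z) (gN (ℕ × V)) := j1.add iD
  have j3 : Integrable (fun z => P 0 z + P n z + D z + (n : ℝ) * ∑ i ∈ range n, U i z)
      (gN (ℕ × V)) := j2.add iS
  refine (integral_mono (integrable_dC_sq hT hN hN' hw)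
    ((j3.add (integrable_const _)).const_mul c) hpt).trans ?_
  rw [integral_const_mul, integral_add' j3 (integrable_const _), integral_add j2 iS,
    integral_add j1 iD, integral_add (iP 0) (iP n), integral_const, probReal_univ, one_smul,
    integral_const_mul, integral_finsetSum _ iU]
  refine mul_le_mul_of_nonneg_left ?_ (by positivity)
  have hsq := hS θ θ' η R M T j k q μq lam hN hN' hlam hq ht hm hm' o w hw
  change ∫ z, D z ∂gN (ℕ × V) ≤ _ at hsq
  simp only [← hn] at hsq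
  have hUs : ∑ i ∈ range n, ∫ z, U i z ∂gN (ℕ × V) ≤
      n * (lam ^ 6 * (2 * (K0 * (6 * g + 24 * η + e))) + 388 * B) :=
    (Finset.sum_le_card_nsmul _ _ _ eU).trans_eq (by rw [Finset.card_range, nsmul_eq_mul])
  have hUn := mul_le_mul_of_nonneg_left hUs (Nat.cast_nonneg (α := ℝ) n)
  refine (add_le_add (add_le_add (add_le_add (add_le_add (eP 0 (Nat.zero_le n)) (eP n le_rfl)) hsq)
    hUn) (le_refl ((n : ℝ) ^ 2 * (E + e)))).trans ?_
  have hη := hN.eta_nn o
  have hB0 : 0 ≤ B := hN.nonneg_Bg o hlam hm.1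
  have g0 : 0 ≤ g := integral_nonneg fun z => sq_nonneg _
  have hE0 : 0 ≤ E := by
    have h1 := sq_le_inv (Q_two hT) hN.crit
    have h2 := sq_le_inv (Q_two hT) hN'.crit
    simp only [hE]; linarith
  refine final_combine hC (by unfold K0; norm_num) (Nat.cast_nonneg n) g0 hη (sq_nonneg _) hB0
    hE0 (sq_nonneg _) hlam.le (by linarith) |>.trans (le_of_eq ?_)
  simp only [hE]
  ring

theorem near_sphere (hT : RTree G d) : ∃ K : ℝ, 0 ≤ K ∧
    ∀ (θ θ' η : ℝ) (R M T j k q : ℕ) (μq lam : ℝ), Near G d θ R M T j k η →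
      Near G d θ' R M T j k η → 0 < lam → lam ≤ 1 / 2 → 1 ≤ q → 0 < (k : ℝ) * dt j →
      Mom (d - 1) θ (k * dt j) q μq → Mom (d - 1) θ' (k * dt j) q μq →
      ∀ (o : V) (n : ℕ), n ≤ M →
        ∑ w ∈ sphere G o n, ∫ z, dC G θ θ' R j k o w z ^ 2 ∂gN (ℕ × V) ≤
          K * ((1 + n * lam ^ 2 + (n : ℝ) ^ 2 * lam ^ 6) * gap G θ θ' R j k o +
            ((n : ℝ) + 1) ^ 2 * (Bg lam q μq η + η + (θ - θ') ^ 2 +
              (1 / ((d - 1 : ℕ) : ℝ) - θ ^ 2) + (1 / ((d - 1 : ℕ) : ℝ) - θ' ^ 2) +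
              (strength (d - 1) θ (k * dt j) R - strength (d - 1) θ' (k * dt j) R) ^ 2)) := by
  obtain ⟨C, hC, h⟩ := near_term hT
  refine ⟨2 * 10 ^ 5 * ((d - 1 : ℕ) : ℝ) * C, by positivity,
    fun θ θ' η R M T j k q μq lam hN hN' hlam hlam2 hq ht hm hm' o n hn => ?_⟩
  set X := (1 + n * lam ^ 2 + (n : ℝ) ^ 2 * lam ^ 6) * gap G θ θ' R j k o +
    ((n : ℝ) + 1) ^ 2 * (Bg lam q μq η + η + (θ - θ') ^ 2 +
      (1 / ((d - 1 : ℕ) : ℝ) - θ ^ 2) + (1 / ((d - 1 : ℕ) : ℝ) - θ' ^ 2) +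
      (strength (d - 1) θ (k * dt j) R - strength (d - 1) θ' (k * dt j) R) ^ 2) with hX
  have hX0 : 0 ≤ X := by
    have := hN.nonneg_Bg o (q := q) hlam hm.1
    have := hN.eta_nn o
    have := sq_le_inv (Q_two hT) hN.crit
    have := sq_le_inv (Q_two hT) hN'.crit
    have g0 : 0 ≤ gap G θ θ' R j k o := integral_nonneg fun z => sq_nonneg _
    rw [hX]
    refine add_nonneg (mul_nonneg (by positivity) g0) (mul_nonneg (sq_nonneg _) ?_)
    linarith [sq_nonneg (θ - θ'), sq_nonneg (strength (d - 1) θ (k * dt j) R -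
      strength (d - 1) θ' (k * dt j) R)]
  have term : ∀ w ∈ sphere G o n, ∫ z, dC G θ θ' R j k o w z ^ 2 ∂gN (ℕ × V) ≤
      10 ^ 5 * ((d - 1 : ℕ) : ℝ) * (1 / ((d - 1 : ℕ) : ℝ)) ^ n * (C * X) := fun w hw => by
    have hw' := (mem_sphere hT).1 hw
    have := h θ θ' η R M T j k q μq lam hN hN' hlam hlam2 hq ht hm hm' o w (by omega)
    rw [hw'] at this
    exact this
  refine (Finset.sum_le_card_nsmul _ _ _ term).trans ?_
  rw [nsmul_eq_mul]
  refine (mul_le_mul_of_nonneg_right (card_sphere_le' hT o n) (by positivity)).trans (le_of_eq ?_)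
  rw [show 2 * ((d - 1 : ℕ) : ℝ) ^ n * (10 ^ 5 * ((d - 1 : ℕ) : ℝ) *
      (1 / ((d - 1 : ℕ) : ℝ)) ^ n * (C * X)) = 2 * 10 ^ 5 * ((d - 1 : ℕ) : ℝ) * C *
      (((1 / ((d - 1 : ℕ) : ℝ)) ^ n * ((d - 1 : ℕ) : ℝ) ^ n) * X) by ring,
    inv_pow_mul_pow hT, one_mul]

end Vale.Agent.P161
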