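import Vale.Agent.P161.Crit.GTail

/-!
# The bounds for a whole sphere
-/

open MeasureTheory Finset Real
open scoped Classical

noncomputable section

namespace Vale.Agent.P161

variable {V : Type*} {G : SimpleGraph V} {d : ℕ} {θ θ' η β : ℝ} {R M T j k L : ℕ}

theorem inv_pow_mul_pow (hT : RTree G d) (n : ℕ) :
    (1 / ((d - 1 : ℕ) : ℝ)) ^ n * ((d - 1 : ℕ) : ℝ) ^ n = 1 := by
  rw [← mul_pow, one_div_mul_cancel, one_pow]
  exact_mod_cast (show d - 1 ≠ 0 by have := Q_two hT; omega)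

theorem crude_sphere (hT : RTree G d) (hN : Near G d θ R M T j k η)
    (hN' : Near G d θ' R M T j k η) (o : V) {n : ℕ} (hn : n ≤ M) :
    ∑ w ∈ sphere G o n, ∫ z, dC G θ θ' R j k o w z ^ 2 ∂gN (ℕ × V) ≤
      10 ^ 13 * ((d - 1 : ℕ) : ℝ) *
        (((n : ℝ) + 1) * gap G θ θ' R j k o + ((n : ℝ) + 1) ^ 2 * ((θ - θ') ^ 2 + η)) := by
  set Q := ((d - 1 : ℕ) : ℝ) with hQ
  set g := gap G θ θ' R j k o
  set N : ℝ := (n : ℝ) + 1 with hNdef
  have hη := hN.eta_nn o
  have g0 : 0 ≤ g := integral_nonneg fun z => sq_nonneg _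
  have hN1 : 1 ≤ N := by linarith [Nat.cast_nonneg (α := ℝ) n]
  have term : ∀ w ∈ sphere G o n, ∫ z, dC G θ θ' R j k o w z ^ 2 ∂gN (ℕ × V) ≤
      10 ^ 11 * Q * (1 / Q) ^ n * (2 * N * (3 * g + 12 * η) + 2 * N ^ 2 * (θ - θ') ^ 2) := by
    intro w hw
    rw [mem_sphere hT] at hw
    have hon := onPath_ball (R := R) hT (o := o) (w := w) (by have := hN.M_le; omega)
    set S := fun z => phi1 G θ θ' R j k o w z with hS
    obtain ⟨f1, -, f3, -⟩ := phi_facts hT hN hN' (o := o) (u := w) (m := n) hw.le hn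
    have iS : Integrable S (gN (ℕ × V)) := integrable_of_bdd (measurable_phi1 o w) fun z => by
      rw [abs_of_nonneg (f1 z).1]; exact (f1 z).2
    have hpt : ∀ z, dC G θ θ' R j k o w z ^ 2 ≤
        10 ^ 11 * Q * (1 / Q) ^ n * (2 * S z + 2 * N ^ 2 * (θ - θ') ^ 2) := by
      intro z
      have h := delta_cv hT hN.nn hN'.nn hN.crit hN'.crit (conn_ball hT o R) (conn_ball hT o R)
        hon hon (hs G θ R j k o z) (hs G θ' R j k o z) (le_refl (G.dist o w))
      rw [hw] at h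
      refine h.trans (mul_le_mul_of_nonneg_left ?_ (by positivity))
      simp only [Nat.sub_self, Finset.range_zero, Finset.prod_empty, mul_one, zero_add,
        Finset.sum_range_one, add_zero]
      set P := ∏ i ∈ range n, rc (d - 1) (bwd G θ' (ball G o R) (hs G θ' R j k o z) o w i) with hP
      have hP01 : P ≤ 1 := by
        refine Finset.prod_le_one (fun i _ => (rc_mem (Q_two hT) (hN'.abs_Mu hT o _ _ z)).1)
          fun i _ => ?_
        exact (rc_mem (Q_two hT) (hN'.abs_Mu hT o _ _ z)).2.trans (sub_le_self _ (by positivity))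
      have e1 : S z = ∑ i ∈ range (n + 1), (mgp G θ (ball G o R) (hs G θ R j k o z) o w i -
          mgp G θ' (ball G o R) (hs G θ' R j k o z) o w i) ^ 2 := by
        simp only [hS, phi1, hw, mgp, Mg]
      have e2 : (mgp G θ (ball G o R) (hs G θ R j k o z) o w n -
          mgp G θ' (ball G o R) (hs G θ' R j k o z) o w n) ^ 2 ≤ S z := by
        rw [e1]
        exact Finset.single_le_sum (f := fun i => (mgp G θ (ball G o R) (hs G θ R j k o z) o w i -
          mgp G θ' (ball G o R) (hs G θ' R j k o z) o w i) ^ 2) (fun i _ => sq_nonneg _)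
          (Finset.self_mem_range_succ n)
      rw [← e1]
      have h1 := mul_le_mul_of_nonneg_left hP01 (sq_nonneg
        (mgp G θ (ball G o R) (hs G θ R j k o z) o w n -
          mgp G θ' (ball G o R) (hs G θ' R j k o z) o w n))
      have h2 := mul_le_mul_of_nonneg_left hP01
        (by positivity : (0 : ℝ) ≤ N ^ 2 * (θ - θ') ^ 2)
      linarith
    have i2 : Integrable (fun z => 2 * S z + 2 * N ^ 2 * (θ - θ') ^ 2) (gN (ℕ × V)) :=
      (iS.const_mul 2).add (integrable_const _)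
    refine (integral_mono (integrable_dC_sq hT hN hN' (by omega))
      (i2.const_mul _) hpt).trans ?_
    rw [integral_const_mul, integral_add (iS.const_mul 2) (integrable_const _), integral_const_mul,
      integral_const, probReal_univ, one_smul]
    refine mul_le_mul_of_nonneg_left ?_ (by positivity)
    linarith
  refine (Finset.sum_le_card_nsmul _ _ _ term).trans ?_
  rw [nsmul_eq_mul]
  refine (mul_le_mul_of_nonneg_right (card_sphere_le' hT o n) (by positivity)).trans ?_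
  have e : 2 * Q ^ n * (10 ^ 11 * Q * (1 / Q) ^ n *
      (2 * N * (3 * g + 12 * η) + 2 * N ^ 2 * (θ - θ') ^ 2)) =
      10 ^ 11 * Q * (((1 / Q) ^ n * Q ^ n) *
        (4 * N * (3 * g + 12 * η) + 4 * N ^ 2 * (θ - θ') ^ 2)) := by ring
  rw [e, inv_pow_mul_pow hT, one_mul]
  rw [show (10 : ℝ) ^ 13 * Q = 10 ^ 11 * Q * 100 by ring, mul_assoc (10 ^ 11 * Q) 100]
  refine mul_le_mul_of_nonneg_left ?_ (by positivity)
  nlinarith [mul_le_mul_of_nonneg_right hN1 (mul_nonneg (by linarith : (0 : ℝ) ≤ N) hη),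
    mul_nonneg (by linarith : (0 : ℝ) ≤ N) g0, mul_nonneg (sq_nonneg N) (sq_nonneg (θ - θ'))]

theorem tail_sphere (hT : RTree G d) (hN : Near G d θ R M T j k η)
    (hN' : Near G d θ' R M T j k η) (hret : Ret (d - 1) θ (k * dt j) β L)
    (hret' : Ret (d - 1) θ' (k * dt j) β L) (hβ : 3 / 4 ≤ β) (hβ1 : β ≤ 1) (o : V) {n : ℕ}
    (hn4 : 4 ≤ n) (hn : n ≤ M) (hR : n + L < R) :
    ∑ w ∈ sphere G o n, ∫ z, dC G θ θ' R j k o w z ^ 2 ∂gN (ℕ × V) ≤
      10 ^ 17 * ((d - 1 : ℕ) : ℝ) *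
        (((n : ℝ) + 1) * β ^ (n / 4 - 1) * gap G θ θ' R j k o +
          ((n : ℝ) + 1) ^ 2 * β ^ (n / 4 - 1) * (θ - θ') ^ 2 +
          ((n : ℝ) + 1) ^ 2 * exp (-((3 / 2 : ℝ) ^ (n / 4))) + ((n : ℝ) + 1) ^ 3 * η) := by
  set Q := ((d - 1 : ℕ) : ℝ) with hQ
  set g := gap G θ θ' R j k o
  set N : ℝ := (n : ℝ) + 1 with hNdef
  set e := (θ - θ') ^ 2 with he
  set pn := β ^ (n / 4 - 1) with hpn
  set X := exp (-((3 / 2 : ℝ) ^ (n / 4))) with hX
  have hη := hN.eta_nn o
  have hη1 := hN.eta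
  have g0 : 0 ≤ g := integral_nonneg fun z => sq_nonneg _
  have hN1 : 1 ≤ N := by linarith [Nat.cast_nonneg (α := ℝ) n]
  have hpn0 : 0 ≤ pn := pow_nonneg (by linarith) _
  have hpn1 : pn ≤ 1 := pow_le_one₀ (by linarith) hβ1
  have hX0 : 0 ≤ X := (exp_pos _).le
  have he1 : e ≤ 1 := sq_sub_le_one hN.nn (hN.lt1 hT).le hN'.nn (hN'.lt1 hT).le
  -- grouping with either split
  have grp' : ∀ (θ₀ : ℝ), Near G d θ₀ R M T j k η → Ret (d - 1) θ₀ (k * dt j) β L →
      ∀ (q l : ℕ), q + l = n → n / 2 ≤ q → n / 2 ≤ l →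
      ∀ (Φ : V → (ℕ × V → ℝ) → ℝ) (B E : ℝ), (∀ u, Measurable (Φ u)) → 0 ≤ B →
        (∀ u ∈ sphere G o q, ∀ z, 0 ≤ Φ u z ∧ Φ u z ≤ B) →
        (∀ u ∈ sphere G o q, ∫ z, Φ u z ∂gN (ℕ × V) ≤ E) → 0 ≤ E →
        ∑ w ∈ sphere G o n, ∫ z, Φ (geo G o w q) z *
          armW G (d - 1) θ₀ R j k (geo G o w q) w z ∂gN (ℕ × V) ≤
          2 * Q ^ n * (3 * pn * E + B * (X + η)) := by
    intro θ₀ hN₀ hr q l hql hq hl Φ B E hm hB hΦ hE hE0
    subst hql
    refine (grp hT hN₀ hr hβ o (by omega) (by omega) (by omega) hm hΦ).trans ?_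
    have h1 : β ^ (l / 2 - 1) ≤ pn := pow_le_pow_of_le_one (by linarith) hβ1 (by omega)
    have h2 : exp (-((3 / 2 : ℝ) ^ (l / 2))) ≤ X :=
      Real.exp_le_exp.2 (neg_le_neg (pow_le_pow_right₀ (by norm_num) (by omega)))
    refine (mul_le_mul_of_nonneg_left (Finset.sum_le_card_nsmul _ _ (3 * pn * E + B * (X + η))
      fun u hu => add_le_add ?_ (mul_le_mul_of_nonneg_left (add_le_add h2 le_rfl) hB))
      (by positivity)).trans ?_
    · exact mul_le_mul (by linarith) (hE u hu) (integral_nonneg fun z => (hΦ u hu z).1)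
        (by positivity)
    · rw [nsmul_eq_mul]
      refine (mul_le_mul_of_nonneg_left (mul_le_mul_of_nonneg_right (card_sphere_le' hT o q)
        (by positivity)) (by positivity)).trans (le_of_eq ?_)
      simp only [hQ, pow_add]; ring
  set p := n / 2 with hp
  have hqs : ∀ q, q ≤ n → ∀ u ∈ sphere G o q, G.dist o u ≤ n := fun q hq u hu =>
    ((mem_sphere hT).1 hu).le.trans hq
  have s1 := grp' θ hN hret p (n - p) (by omega) le_rfl (by omega)
    (phi1 G θ θ' R j k o) (4 * N) (N * (3 * g + 12 * η)) (measurable_phi1 o) (by positivity)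
    (fun u hu => (phi_facts hT hN hN' (hqs p (by omega) u hu) hn).1)
    (fun u hu => (phi_facts hT hN hN' (hqs p (by omega) u hu) hn).2.2.1) (by positivity)
  have s2 := grp' θ' hN' hret' (n - p) p (by omega) (by omega) le_rfl
    (phi2 G θ θ' R j k o) (4 * N) (N * g) (measurable_phi2 o) (by positivity)
    (fun u hu => (phi_facts hT hN hN' (hqs (n - p) (by omega) u hu) hn).2.1)
    (fun u hu => (phi_facts hT hN hN' (hqs (n - p) (by omega) u hu) hn).2.2.2) (by positivity)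
  have s3 := grp' θ hN hret p (n - p) (by omega) le_rfl (by omega) (fun _ _ => 1) 1 1
    (fun _ => measurable_const) zero_le_one (fun _ _ _ => ⟨zero_le_one, le_rfl⟩)
    (fun _ _ => by simp) zero_le_one
  have s4 := grp' θ' hN' hret' (n - p) p (by omega) (by omega) le_rfl (fun _ _ => 1) 1 1
    (fun _ => measurable_const) zero_le_one (fun _ _ _ => ⟨zero_le_one, le_rfl⟩)
    (fun _ _ => by simp) zero_le_one
  simp only [one_mul] at s3 s4
  have term : ∀ w ∈ sphere G o n, ∫ z, dC G θ θ' R j k o w z ^ 2 ∂gN (ℕ × V) ≤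
      10 ^ 11 * Q * (1 / Q) ^ n *
        (((∫ z, phi1 G θ θ' R j k o (geo G o w p) z *
              armW G (d - 1) θ R j k (geo G o w p) w z ∂gN (ℕ × V)) +
            (∫ z, phi2 G θ θ' R j k o (geo G o w (n - p)) z *
              armW G (d - 1) θ' R j k (geo G o w (n - p)) w z ∂gN (ℕ × V)) +
            N ^ 2 * e * ((∫ z, armW G (d - 1) θ R j k (geo G o w p) w z ∂gN (ℕ × V)) +
              ∫ z, armW G (d - 1) θ' R j k (geo G o w (n - p)) w z ∂gN (ℕ × V))) +
          N ^ 3 * (20000 * η)) := fun w hw => by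
    have hw' := (mem_sphere hT).1 hw
    have := tail_term hT hN hN' (o := o) (w := w) (by omega)
    simp only [hw'] at this
    exact this
  refine (Finset.sum_le_sum term).trans ?_
  rw [← Finset.mul_sum, Finset.sum_add_distrib, Finset.sum_add_distrib, Finset.sum_add_distrib,
    ← Finset.mul_sum, Finset.sum_add_distrib, Finset.sum_const, nsmul_eq_mul]
  refine (mul_le_mul_of_nonneg_left (add_le_add (add_le_add (add_le_add s1 s2)
    (mul_le_mul_of_nonneg_left (add_le_add s3 s4) (by positivity)))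
    (mul_le_mul_of_nonneg_right (card_sphere_le' hT o n) (by positivity))) (by positivity)).trans ?_
  have key : 10 ^ 11 * Q * (1 / Q) ^ n * (2 * Q ^ n * (3 * pn * (N * (3 * g + 12 * η)) + 4 * N * (X + η)) +
        2 * Q ^ n * (3 * pn * (N * g) + 4 * N * (X + η)) +
        N ^ 2 * e * (2 * Q ^ n * (3 * pn * 1 + (X + η)) + 2 * Q ^ n * (3 * pn * 1 + (X + η))) +
        2 * Q ^ n * (N ^ 3 * (20000 * η))) =
      10 ^ 11 * Q * (((1 / Q) ^ n * Q ^ n) * (24 * (N * pn * g) + 72 * (N * (pn * η)) + 16 * (N * X) +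
        16 * (N * η) + 12 * (N ^ 2 * pn * e) + 4 * (N ^ 2 * e * X) + 4 * (N ^ 2 * e * η) +
        40000 * (N ^ 3 * η))) := by ring
  refine key.le.trans ?_
  rw [inv_pow_mul_pow hT, one_mul]
  rw [show (10 : ℝ) ^ 17 * Q = 10 ^ 11 * Q * 10 ^ 6 by ring, mul_assoc (10 ^ 11 * Q) (10 ^ 6)]
  refine mul_le_mul_of_nonneg_left ?_ (by positivity)
  have hN0 : 0 ≤ N := by linarith
  have p2 : N ≤ N ^ 2 := le_self_pow₀ hN1 (by norm_num)
  have p3 : N ^ 2 ≤ N ^ 3 := pow_le_pow_right₀ hN1 (by norm_num)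
  have q1 := mul_le_mul_of_nonneg_right (p2.trans p3) hη
  have q2 := mul_le_mul_of_nonneg_left (mul_le_of_le_one_left hη hpn1) hN0
  have q3 := mul_le_mul_of_nonneg_right p2 hX0
  have q4 := mul_le_mul_of_nonneg_right (mul_le_of_le_one_right (sq_nonneg N) he1) hX0
  have q5 := mul_le_mul_of_nonneg_right ((mul_le_of_le_one_right (sq_nonneg N) he1).trans p3) hη
  linarith [mul_nonneg (mul_nonneg hN0 hpn0) g0,
    mul_nonneg (mul_nonneg (sq_nonneg N) hpn0) (sq_nonneg (θ - θ')),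
    mul_nonneg (sq_nonneg N) hX0, mul_nonneg (pow_nonneg hN0 3) hη]

end Vale.Agent.P161
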