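import Vale.Agent.P161.Crit.GGroup

/-!
# Covariance differences over one sphere: the crude bound and the decaying bound
-/

open MeasureTheory Finset Real
open scoped Classical

noncomputable section

namespace Vale.Agent.P161

variable {V : Type*} {G : SimpleGraph V} {d : ℕ} {θ θ' η β : ℝ} {R M T j k L : ℕ}

/-- The difference of the covariances of two systems in the ball around `o`. -/
def dC (G : SimpleGraph V) (θ θ' : ℝ) (R j k : ℕ) (o w : V) (z : ℕ × V → ℝ) : ℝ :=
  cv G θ (ball G o R) (hs G θ R j k o z) o w - cv G θ' (ball G o R) (hs G θ' R j k o z) o w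

theorem measurable_cv (D : Finset V) (u w : V) : Measurable fun h : V → ℝ => cv G θ D h u w :=
  ((measurable_num D _).div (measurable_num D _)).sub
    ((measurable_mag D u).mul (measurable_mag D w))

theorem measurable_dC (o w : V) : Measurable (dC G θ θ' R j k o w) :=
  ((measurable_cv _ o w).comp (measurable_hs R j k o)).sub
    ((measurable_cv _ o w).comp (measurable_hs R j k o))

theorem abs_dC_le (hT : RTree G d) (hN : Near G d θ R M T j k η) (hN' : Near G d θ' R M T j k η)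
    {o w : V} (hw : G.dist o w ≤ M) (z : ℕ × V → ℝ) : |dC G θ θ' R j k o w z| ≤ 2 := by
  have hm : w ∈ ball G o R := (mem_ball hT).2 (hw.trans hN.M_le.le)
  have e1 := (cv_bound hT hN.nn (hN.lt1 hT) (conn_ball hT o R) (hs G θ R j k o z) o
    (self_mem_ball hT o R) w hm).trans (pow_le_one₀ hN.nn (hN.lt1 hT).le)
  have e2 := (cv_bound hT hN'.nn (hN'.lt1 hT) (conn_ball hT o R) (hs G θ' R j k o z) o
    (self_mem_ball hT o R) w hm).trans (pow_le_one₀ hN'.nn (hN'.lt1 hT).le)
  exact (abs_sub _ _).trans (by linarith)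

theorem integrable_dC_sq (hT : RTree G d) (hN : Near G d θ R M T j k η)
    (hN' : Near G d θ' R M T j k η) {o w : V} (hw : G.dist o w ≤ M) :
    Integrable (fun z => dC G θ θ' R j k o w z ^ 2) (gN (ℕ × V)) :=
  integrable_of_bdd ((measurable_dC o w).pow_const 2) (B := 4) fun z => by
    have h := abs_dC_le hT hN hN' hw z
    rw [abs_pow]; nlinarith [abs_nonneg (dC G θ θ' R j k o w z)]

theorem rc_lip {Q : ℕ} (hQ : 2 ≤ Q) {x y : ℝ} (hx : |x| ≤ 1) (hy : |y| ≤ 1) :
    |rc Q x - rc Q y| ≤ 12 * |x - y| := by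
  have h1 := inv_le_916 hQ
  have h0 : (0 : ℝ) ≤ 1 / Q := by positivity
  rw [rc_eq_r2, rc_eq_r2]
  refine (r2_lip h0 h1 h0 h1 hx hy).trans ?_
  rw [sub_self, abs_zero, mul_zero, add_zero]
  refine (mul_le_mul_of_nonneg_left (abs_sq_sub_le x y) (by norm_num)).trans ?_
  nlinarith [abs_nonneg (x - y), abs_nonneg x, abs_nonneg y]

/-- Products of retentions along a path, in two balls. -/
theorem prod_shift (hT : RTree G d) (hN : Near G d θ R M T j k η) {c c' : V} {a b : ℕ → V}
    {m : ℕ} (h : ∀ i, i < m → G.Adj (a i) (b i) ∧ G.dist c (a i) ≤ M ∧ G.dist c (b i) ≤ M ∧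
      G.dist c' (a i) ≤ M ∧ G.dist c' (b i) ≤ M) :
    ∫ z, |∏ i ∈ range m, rc (d - 1) (Mu G θ R j k c (a i) (b i) z) -
        ∏ i ∈ range m, rc (d - 1) (Mu G θ R j k c' (a i) (b i) z)| ∂gN (ℕ × V) ≤
      m * (1152 * η) := by
  have hQ := Q_two hT
  have hr : ∀ (c : V) (i : ℕ) z, 0 ≤ rc (d - 1) (Mu G θ R j k c (a i) (b i) z) ∧
      rc (d - 1) (Mu G θ R j k c (a i) (b i) z) ≤ 1 := fun c i z =>
    ⟨(rc_mem hQ (hN.abs_Mu hT c _ _ z)).1, (rc_mem hQ (hN.abs_Mu hT c _ _ z)).2.trans (by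
      linarith [sq_nonneg (Mu G θ R j k c (a i) (b i) z)])⟩
  have hi : ∀ i, Integrable (fun z => |Mu G θ R j k c (a i) (b i) z -
      Mu G θ R j k c' (a i) (b i) z|) (gN (ℕ × V)) := fun i =>
    (integrable_of_bdd ((measurable_Mu c _ _).sub (measurable_Mu c' _ _)) (B := 2) fun z =>
      (abs_sub _ _).trans (by
        linarith [hN.abs_Mu hT c (a i) (b i) z, hN.abs_Mu hT c' (a i) (b i) z])).abs
  have hs : Integrable (fun z => ∑ i ∈ range m,
      12 * |Mu G θ R j k c (a i) (b i) z - Mu G θ R j k c' (a i) (b i) z|) (gN (ℕ × V)) :=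
    integrable_finsetSum _ fun i _ => (hi i).const_mul 12
  refine (integral_mono (integrable_of_bdd ?_ (B := 2) fun z => ?_) hs fun z => ?_).trans ?_
  · exact ((Finset.measurable_prod _ fun i _ => measurable_rc.comp (measurable_Mu c _ _)).sub
      (Finset.measurable_prod _ fun i _ => measurable_rc.comp (measurable_Mu c' _ _))).abs
  · rw [abs_abs]
    have e : ∀ c : V, |∏ i ∈ range m, rc (d - 1) (Mu G θ R j k c (a i) (b i) z)| ≤ 1 := fun c => by
      rw [abs_of_nonneg (Finset.prod_nonneg fun i _ => (hr c i z).1)]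
      exact Finset.prod_le_one (fun i _ => (hr c i z).1) fun i _ => (hr c i z).2
    exact (abs_sub _ _).trans (by linarith [e c, e c'])
  · exact (abs_prod_sub_prod_le _ (fun i => hr c i z) (fun i => hr c' i z)).trans
      (Finset.sum_le_sum fun i _ => rc_lip hQ (hN.abs_Mu hT c _ _ z) (hN.abs_Mu hT c' _ _ z))
  · rw [integral_finsetSum _ fun i _ => (hi i).const_mul 12]
    refine (Finset.sum_le_card_nsmul _ _ (1152 * η) fun i hi' => ?_).trans_eq (by
      rw [Finset.card_range, nsmul_eq_mul])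
    rw [integral_const_mul]
    obtain ⟨e1, e2, e3, e4, e5⟩ := h i (Finset.mem_range.1 hi')
    linarith [mu_shift hT hN e1 e2 e3 e4 e5]

/-! ## The quantities attached to a pair of vertices -/

/-- Squared differences of magnetizations in the ball of `o` on the way to `u`. -/
def phi1 (G : SimpleGraph V) (θ θ' : ℝ) (R j k : ℕ) (o u : V) (z : ℕ × V → ℝ) : ℝ :=
  ∑ i ∈ range (G.dist o u + 1),
    (Mg G θ R j k o (geo G o u i) z - Mg G θ' R j k o (geo G o u i) z) ^ 2

/-- Squared differences of centred magnetizations on the way from `o` to `u`. -/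
def phi2 (G : SimpleGraph V) (θ θ' : ℝ) (R j k : ℕ) (o u : V) (z : ℕ × V → ℝ) : ℝ :=
  ∑ i ∈ range (G.dist o u + 1),
    (mc G θ R j k (geo G o u i) z - mc G θ' R j k (geo G o u i) z) ^ 2

theorem sq_diff_le_four {a b : ℝ} (ha : |a| ≤ 1) (hb : |b| ≤ 1) :
    0 ≤ (a - b) ^ 2 ∧ (a - b) ^ 2 ≤ 4 := by
  have h : |a - b| ≤ 2 := (abs_sub _ _).trans (by linarith)
  exact ⟨sq_nonneg _, by rw [← sq_abs]; nlinarith [abs_nonneg (a - b)]⟩

theorem phi_facts (hT : RTree G d) (hN : Near G d θ R M T j k η)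
    (hN' : Near G d θ' R M T j k η) {o u : V} {m : ℕ} (hu : G.dist o u ≤ m) (hm : m ≤ M) :
    (∀ z, 0 ≤ phi1 G θ θ' R j k o u z ∧ phi1 G θ θ' R j k o u z ≤ 4 * (m + 1)) ∧
    (∀ z, 0 ≤ phi2 G θ θ' R j k o u z ∧ phi2 G θ θ' R j k o u z ≤ 4 * (m + 1)) ∧
    ∫ z, phi1 G θ θ' R j k o u z ∂gN (ℕ × V) ≤
      (m + 1) * (3 * gap G θ θ' R j k o + 12 * η) ∧
    ∫ z, phi2 G θ θ' R j k o u z ∂gN (ℕ × V) ≤ (m + 1) * gap G θ θ' R j k o := by
  have hb : ∀ (f : ℕ → ℝ) (B : ℝ), (∀ i, 0 ≤ f i ∧ f i ≤ B) →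
      0 ≤ ∑ i ∈ range (G.dist o u + 1), f i ∧
        ∑ i ∈ range (G.dist o u + 1), f i ≤ B * (m + 1) := fun f B hf => by
    refine ⟨Finset.sum_nonneg fun i _ => (hf i).1, ?_⟩
    refine (Finset.sum_le_card_nsmul _ _ B fun i _ => (hf i).2).trans ?_
    rw [Finset.card_range, nsmul_eq_mul, mul_comm]
    exact mul_le_mul_of_nonneg_left (by exact_mod_cast (by omega : G.dist o u + 1 ≤ m + 1))
      ((hf 0).1.trans (hf 0).2)
  have g0 : 0 ≤ gap G θ θ' R j k o := integral_nonneg fun z => sq_nonneg _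
  have hη := hN.eta_nn o
  refine ⟨fun z => hb _ 4 fun i => sq_diff_le_four (hN.abs_Mg hT _ _ z) (hN'.abs_Mg hT _ _ z),
    fun z => hb _ 4 fun i => sq_diff_le_four (abs_mc_le hN.nn (hN.lt1 hT) _ _ _ _ z)
      (abs_mc_le hN'.nn (hN'.lt1 hT) _ _ _ _ z), ?_, ?_⟩
  · have hi : ∀ i ∈ range (G.dist o u + 1), Integrable (fun z =>
        (Mg G θ R j k o (geo G o u i) z - Mg G θ' R j k o (geo G o u i) z) ^ 2) (gN (ℕ × V)) :=
      fun i _ => integrable_of_bdd (((measurable_Mg o _).sub (measurable_Mg o _)).pow_const 2)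
        (B := 4) fun z => by
        have := sq_diff_le_four (hN.abs_Mg hT o (geo G o u i) z) (hN'.abs_Mg hT o (geo G o u i) z)
        rw [abs_of_nonneg this.1]; exact this.2
    unfold phi1
    rw [integral_finsetSum _ hi]
    refine (Finset.sum_le_card_nsmul _ _ (3 * gap G θ θ' R j k o + 12 * η) fun i hi => ?_).trans ?_
    · refine mag_gap hT hN hN' ?_ o
      rw [(geo_spec hT (Nat.lt_succ_iff.1 (Finset.mem_range.1 hi))).1]
      have := Finset.mem_range.1 hi; omega
    · rw [Finset.card_range, nsmul_eq_mul]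
      exact mul_le_mul_of_nonneg_right (by exact_mod_cast (by omega : G.dist o u + 1 ≤ m + 1))
        (by linarith)
  · have hi : ∀ i ∈ range (G.dist o u + 1), Integrable (fun z =>
        (mc G θ R j k (geo G o u i) z - mc G θ' R j k (geo G o u i) z) ^ 2) (gN (ℕ × V)) :=
      fun i _ => integrable_of_bdd
        (((measurable_mc R j k _).sub (measurable_mc R j k _)).pow_const 2) (B := 4) fun z => by
        have := sq_diff_le_four (abs_mc_le (G := G) hN.nn (hN.lt1 hT) R j k (geo G o u i) z)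
          (abs_mc_le (G := G) hN'.nn (hN'.lt1 hT) R j k (geo G o u i) z)
        rw [abs_of_nonneg this.1]; exact this.2
    unfold phi2
    rw [integral_finsetSum _ hi]
    refine (Finset.sum_le_card_nsmul _ _ (gap G θ θ' R j k o) fun i _ => ?_).trans ?_
    · exact (gap_eq_centre hT R j k o (geo G o u i)).le
    · rw [Finset.card_range, nsmul_eq_mul]
      exact mul_le_mul_of_nonneg_right (by exact_mod_cast (by omega : G.dist o u + 1 ≤ m + 1)) g0

theorem measurable_phi1 (o u : V) : Measurable (phi1 G θ θ' R j k o u) :=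
  Finset.measurable_sum _ fun _ _ =>
    ((measurable_Mg o _).sub (measurable_Mg o _)).pow_const 2

theorem measurable_phi2 (o u : V) : Measurable (phi2 G θ θ' R j k o u) :=
  Finset.measurable_sum _ fun _ _ =>
    ((measurable_mc R j k _).sub (measurable_mc R j k _)).pow_const 2

theorem phi2_map (hT : RTree G d) (g : G ≃g G) (o u : V) (z : ℕ × V → ℝ) :
    phi2 G θ θ' R j k (g o) (g u) z = phi2 G θ θ' R j k o u (rl g z) := by
  rw [phi2, phi2, iso_dist hT]
  refine Finset.sum_congr rfl fun i hi => ?_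
  rw [geo_map hT g (Nat.lt_succ_iff.1 (Finset.mem_range.1 hi)), mc_map hT, mc_map hT]

theorem geo_symm (hT : RTree G d) {a b : V} {i : ℕ} (hi : i ≤ G.dist a b) :
    geo G b a i = geo G a b (G.dist a b - i) := by
  have := geo_back hT (a := a) (b := b) (p := G.dist a b) le_rfl hi
  rwa [geo_end hT] at this

/-- Exchanging the two ends. -/
theorem swap_le (hT : RTree G d) (θ : ℝ) {o w : V} {l : ℕ} (hl : l ≤ G.dist o w) :
    (∫ z, phi2 G θ' θ R j k w (geo G w o l) z *
        armW G (d - 1) θ R j k (geo G w o l) o z ∂gN (ℕ × V) =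
      ∫ z, phi2 G θ' θ R j k o (geo G o w l) z *
        armW G (d - 1) θ R j k (geo G o w l) w z ∂gN (ℕ × V)) ∧
    ∫ z, armW G (d - 1) θ R j k (geo G w o l) o z ∂gN (ℕ × V) =
      ∫ z, armW G (d - 1) θ R j k (geo G o w l) w z ∂gN (ℕ × V) := by
  obtain ⟨g, hgo, hgw⟩ := exists_pair_iso hT (a := o) (b := w) (a' := w) (b' := o)
    SimpleGraph.dist_comm
  have e : geo G w o l = g (geo G o w l) := by
    have := geo_map hT g hl
    rwa [hgo, hgw] at this
  constructor
  · rw [e, ← integral_rl g (F := fun z => phi2 G θ' θ R j k o (geo G o w l) z *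
      armW G (d - 1) θ R j k (geo G o w l) w z) ((measurable_phi2 o _).mul (measurable_armW _ _ w))]
    refine integral_congr_ae (ae_of_all _ fun z => ?_)
    have e1 := phi2_map (θ := θ') (θ' := θ) (R := R) (j := j) (k := k) hT g o (geo G o w l) z
    have e2 := armW_map (θ := θ) (R := R) (j := j) (k := k) hT g (d - 1) (geo G o w l) w z
    rw [hgo] at e1
    rw [hgw] at e2
    show _ = phi2 G θ' θ R j k o _ (rl g z) * armW G (d - 1) θ R j k _ w (rl g z)
    rw [← e1, ← e2]
  · rw [e, ← integral_rl g (F := armW G (d - 1) θ R j k (geo G o w l) w) (measurable_armW _ _ w)]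
    refine integral_congr_ae (ae_of_all _ fun z => ?_)
    have e2 := armW_map (θ := θ) (R := R) (j := j) (k := k) hT g (d - 1) (geo G o w l) w z
    rw [hgw] at e2
    exact e2

theorem onPath_ball (hT : RTree G d) {o w : V} (h : G.dist o w ≤ R) :
    OnPath G (ball G o R) o w := fun i hi =>
  (mem_ball hT).2 (by rw [(geo_spec hT hi).1]; omega)

theorem sq_diff_shift {a a' b b' : ℝ} (ha : |a| ≤ 1) (ha' : |a'| ≤ 1) (hb : |b| ≤ 1)
    (hb' : |b'| ≤ 1) : (a - a') ^ 2 ≤ (b - b') ^ 2 + 4 * (|a - b| + |a' - b'|) := by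
  have e : (a - a') ^ 2 - (b - b') ^ 2 = ((a - b) - (a' - b')) * ((a - a') + (b - b')) := by ring
  have h1 : |(a - a') + (b - b')| ≤ 4 := (abs_add_le _ _).trans (by
    linarith [abs_sub a a', abs_sub b b'])
  have h2 := mul_le_mul (abs_sub (a - b) (a' - b')) h1 (abs_nonneg _) (by positivity)
  rw [← abs_mul, ← e] at h2
  linarith [le_abs_self ((a - a') ^ 2 - (b - b') ^ 2)]

theorem tail_pointwise {X Y W W' Bf Bb SB S2 N e c D : ℝ} (hD : D ≤ c * (X * Bf + SB * Bb + N * e * (Bf + Bb)))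
    (hc : 0 ≤ c) (hN : 0 ≤ N) (he : 0 ≤ e) (he1 : e ≤ 1) (hX : 0 ≤ X ∧ X ≤ Y) (hSB : 0 ≤ SB ∧ SB ≤ Y)
    (hW' : 0 ≤ W' ∧ W' ≤ 1) {ES : ℝ} (hS : SB ≤ S2 + ES) (hES : 0 ≤ ES) :
    D ≤ c * ((X * W + S2 * W' + N * e * (W + W')) +
      ((Y + N) * |Bf - W| + (Y + N) * |Bb - W'| + ES)) := by
  refine hD.trans (mul_le_mul_of_nonneg_left ?_ hc)
  have a1 : X * (Bf - W) ≤ Y * |Bf - W| :=
    mul_le_mul hX.2 (le_refl _) (abs_nonneg _) (hX.1.trans hX.2) |>.trans' <|
      mul_le_mul_of_nonneg_left (le_abs_self _) hX.1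
  have a2 : SB * (Bb - W') ≤ Y * |Bb - W'| :=
    mul_le_mul hSB.2 (le_refl _) (abs_nonneg _) (hSB.1.trans hSB.2) |>.trans' <|
      mul_le_mul_of_nonneg_left (le_abs_self _) hSB.1
  have a3 : SB * W' ≤ S2 * W' + ES :=
    (mul_le_mul_of_nonneg_right hS hW'.1).trans (by
      rw [add_mul]; exact add_le_add le_rfl (mul_le_of_le_one_right hES hW'.2))
  have a4 : N * e * ((Bf - W) + (Bb - W')) ≤ N * (|Bf - W| + |Bb - W'|) := by
    refine (mul_le_mul_of_nonneg_left (add_le_add (le_abs_self (Bf - W)) (le_abs_self (Bb - W')))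
      (mul_nonneg hN he)).trans ?_
    exact mul_le_mul_of_nonneg_right (mul_le_of_le_one_right hN he1) (by positivity)
  linarith

theorem sq_sub_le_one {a b : ℝ} (ha : 0 ≤ a) (ha1 : a ≤ 1) (hb : 0 ≤ b) (hb1 : b ≤ 1) :
    (a - b) ^ 2 ≤ 1 := by nlinarith

theorem integrable_close (hT : RTree G d) (hN : Near G d θ R M T j k η) (c x : V) :
    Integrable (fun z => |Mg G θ R j k c x z - mc G θ R j k x z|) (gN (ℕ × V)) :=
  (integrable_of_bdd ((measurable_Mg c x).sub (measurable_mc R j k x)) (B := 2) fun z =>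
    (abs_sub _ _).trans (by
      linarith [hN.abs_Mg hT c x z, abs_mc_le (G := G) hN.nn (hN.lt1 hT) R j k x z])).abs

/-- One term of the decaying bound. -/
theorem tail_term (hT : RTree G d) (hN : Near G d θ R M T j k η) (hN' : Near G d θ' R M T j k η)
    {o w : V} (hw : G.dist o w ≤ M) :
    let n := G.dist o w
    let p := n / 2
    let l := n - n / 2
    ∫ z, dC G θ θ' R j k o w z ^ 2 ∂gN (ℕ × V) ≤
      10 ^ 11 * ((d - 1 : ℕ) : ℝ) * (1 / ((d - 1 : ℕ) : ℝ)) ^ n *
        (((∫ z, phi1 G θ θ' R j k o (geo G o w p) z *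
              armW G (d - 1) θ R j k (geo G o w p) w z ∂gN (ℕ × V)) +
            (∫ z, phi2 G θ θ' R j k o (geo G o w l) z *
              armW G (d - 1) θ' R j k (geo G o w l) w z ∂gN (ℕ × V)) +
            ((n : ℝ) + 1) ^ 2 * (θ - θ') ^ 2 *
              ((∫ z, armW G (d - 1) θ R j k (geo G o w p) w z ∂gN (ℕ × V)) +
                ∫ z, armW G (d - 1) θ' R j k (geo G o w l) w z ∂gN (ℕ × V))) +
          ((n : ℝ) + 1) ^ 3 * (20000 * η)) := by
  intro n p l
  set u := geo G o w p with hu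
  have hpn : p ≤ n := Nat.div_le_self n 2
  have hl : l = n - p := rfl
  have hou : G.dist o u = p := (geo_spec hT hpn).1
  have huw : G.dist u w = l := (geo_spec hT hpn).2
  have hu2 : geo G w o l = u := by
    rw [geo_symm hT (show l ≤ G.dist o w by omega), show G.dist o w - l = p by omega]
  have hwu : G.dist w u = l := by rw [SimpleGraph.dist_comm]; exact huw
  have huo : G.dist u o = p := by rw [SimpleGraph.dist_comm]; exact hou
  obtain ⟨sw1, sw2⟩ := swap_le (θ' := θ) (R := R) (j := j) (k := k) hT θ' (show l ≤ G.dist o w by omega)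
  rw [hu2] at sw1 sw2
  rw [← sw1, ← sw2]
  set N : ℝ := ((n : ℝ) + 1) ^ 2 with hNdef
  set c : ℝ := 10 ^ 11 * ((d - 1 : ℕ) : ℝ) * (1 / ((d - 1 : ℕ) : ℝ)) ^ n
  set X := fun z => phi1 G θ θ' R j k o u z with hX
  set S2 := fun z => phi2 G θ θ' R j k w u z with hS2
  set W := fun z => armW G (d - 1) θ R j k u w z with hW
  set W' := fun z => armW G (d - 1) θ' R j k u o z with hW'
  set Bf := fun z => ∏ i ∈ range l, rc (d - 1) (Mu G θ R j k o (geo G o w (p + i)) (geo G o w (p + i + 1)) z)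
    with hBf
  set Bb := fun z => ∏ i ∈ range p, rc (d - 1) (Mu G θ' R j k o (geo G o w (i + 1)) (geo G o w i) z)
    with hBb
  set dx := fun (i : ℕ) z => |Mg G θ R j k o (geo G o w (p + i)) z - mc G θ R j k (geo G o w (p + i)) z| +
    |Mg G θ' R j k o (geo G o w (p + i)) z - mc G θ' R j k (geo G o w (p + i)) z| with hdx
  set ES := fun z => ∑ i ∈ range (l + 1), 4 * dx i z with hES
  -- proxies along the path
  have eW : ∀ z, W z = ∏ i ∈ range l,
      rc (d - 1) (Mu G θ R j k u (geo G o w (p + i)) (geo G o w (p + i + 1)) z) := fun z => by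
    simp only [hW, armW, huw]
    refine Finset.prod_congr rfl fun i hi => ?_
    rw [Finset.mem_range] at hi
    rw [hu, geo_sub hT (by omega), geo_sub hT (by omega), ← hu, Nat.add_assoc]
  have eW' : ∀ z, W' z = ∏ i ∈ range p,
      rc (d - 1) (Mu G θ' R j k u (geo G o w (i + 1)) (geo G o w i) z) := fun z => by
    simp only [hW', armW, huo]
    rw [← Finset.prod_range_reflect]
    refine Finset.prod_congr rfl fun i hi => ?_
    rw [Finset.mem_range] at hi
    rw [hu, geo_back hT (show p ≤ G.dist o w from hpn) (by omega),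
      geo_back hT (show p ≤ G.dist o w from hpn) (by omega), ← hu,
      show p - (p - 1 - i) = i + 1 by omega, show p - (p - 1 - i + 1) = i by omega]
  have eX : ∀ z, X z = ∑ i ∈ range (p + 1),
      (Mg G θ R j k o (geo G o w i) z - Mg G θ' R j k o (geo G o w i) z) ^ 2 := fun z => by
    simp only [hX, phi1, hou]
    refine Finset.sum_congr rfl fun i hi => ?_
    rw [Finset.mem_range] at hi
    rw [hu, geo_prefix hT (by omega) hpn]
  have eS2 : ∀ z, S2 z = ∑ i ∈ range (l + 1),
      (mc G θ R j k (geo G o w (p + i)) z - mc G θ' R j k (geo G o w (p + i)) z) ^ 2 := fun z => by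
    simp only [hS2, phi2, hwu]
    rw [← Finset.sum_range_reflect]
    refine Finset.sum_congr rfl fun i hi => ?_
    rw [Finset.mem_range] at hi
    have hwo : G.dist w o = n := SimpleGraph.dist_comm
    rw [← hu2, geo_prefix hT (by omega) (by omega), geo_symm hT (by omega),
      show G.dist o w - (l + 1 - 1 - i) = p + i by omega]
  -- the pointwise bound
  have bR : ∀ (t : ℝ), ((l : ℝ) ≤ t) → (p : ℝ) ≤ t → 0 ≤ t := fun t h _ => (Nat.cast_nonneg l).trans h
  have hpt : ∀ z, dC G θ θ' R j k o w z ^ 2 ≤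
      c * ((X z * W z + S2 z * W' z + N * (θ - θ') ^ 2 * (W z + W' z)) +
        ((4 * ((n : ℝ) + 1) + N) * |Bf z - W z| + (4 * ((n : ℝ) + 1) + N) * |Bb z - W' z| +
          ES z)) := by
    intro z
    refine tail_pointwise (SB := ∑ i ∈ range (l + 1),
      (Mg G θ R j k o (geo G o w (p + i)) z - Mg G θ' R j k o (geo G o w (p + i)) z) ^ 2)
      ?_ (by positivity) (sq_nonneg _) (sq_nonneg _)
      (sq_sub_le_one hN.nn (hN.lt1 hT).le hN'.nn (hN'.lt1 hT).le) ?_ ?_
      (armW_mem hT hN'.nn (hN'.lt1 hT) _ _ z) ?_ ?_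
    · rw [eX]
      exact delta_cv hT hN.nn hN'.nn hN.crit hN'.crit (conn_ball hT o R) (conn_ball hT o R)
        (onPath_ball hT (hw.trans hN.M_le.le)) (onPath_ball hT (hw.trans hN.M_le.le)) _ _ hpn
    · have := (phi_facts hT hN hN' (o := o) (u := u) (m := n) (by omega) hw).1 z
      exact ⟨this.1, this.2⟩
    · refine ⟨Finset.sum_nonneg fun i _ => sq_nonneg _, ?_⟩
      refine (Finset.sum_le_card_nsmul _ _ 4 fun i _ =>
        (sq_diff_le_four (hN.abs_Mg hT _ _ z) (hN'.abs_Mg hT _ _ z)).2).trans ?_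
      rw [Finset.card_range, nsmul_eq_mul, mul_comm]
      have : ((l + 1 : ℕ) : ℝ) ≤ (n : ℝ) + 1 := by exact_mod_cast (by omega : l + 1 ≤ n + 1)
      linarith
    · rw [eS2]
      simp only [hES]
      rw [← Finset.sum_add_distrib]
      exact Finset.sum_le_sum fun i _ => sq_diff_shift (hN.abs_Mg hT _ _ z) (hN'.abs_Mg hT _ _ z)
        (abs_mc_le hN.nn (hN.lt1 hT) _ _ _ _ z) (abs_mc_le hN'.nn (hN'.lt1 hT) _ _ _ _ z)
    · exact Finset.sum_nonneg fun i _ => by simp only [hdx]; positivity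
  -- integrate
  obtain ⟨f1, -, -, -⟩ := phi_facts hT hN hN' (o := o) (u := u) (m := n) (by omega) hw
  obtain ⟨-, f2, -, -⟩ := phi_facts hT hN hN' (o := w) (u := u) (m := n) (by omega) hw
  have hd : ∀ i, i ≤ n → G.dist o (geo G o w i) ≤ M ∧ G.dist u (geo G o w i) ≤ M := fun i hi => by
    refine ⟨by rw [(geo_spec hT hi).1]; omega, ?_⟩
    rcases le_total i p with h | h
    · rw [SimpleGraph.dist_comm, hu, geo_dist hT h hpn]; omega
    · rw [hu, geo_dist hT h hi]; omega
  have eBf : ∫ z, |Bf z - W z| ∂gN (ℕ × V) ≤ l * (1152 * η) := by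
    simp only [eW]
    exact prod_shift hT hN fun i hi => ⟨geo_adj hT (show p + i < G.dist o w by omega),
      (hd _ (by omega)).1, (hd _ (by omega)).1, (hd _ (by omega)).2, (hd _ (by omega)).2⟩
  have eBb : ∫ z, |Bb z - W' z| ∂gN (ℕ × V) ≤ p * (1152 * η) := by
    simp only [eW']
    exact prod_shift hT hN' fun i hi => ⟨(geo_adj hT (show i < G.dist o w by omega)).symm,
      (hd _ (by omega)).1, (hd _ (by omega)).1, (hd _ (by omega)).2, (hd _ (by omega)).2⟩
  have idx : ∀ i, Integrable (fun z => 4 * dx i z) (gN (ℕ × V)) := fun i =>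
    ((integrable_close hT hN o _).add (integrable_close hT hN' o _)).const_mul 4
  have eES : ∫ z, ES z ∂gN (ℕ × V) ≤ (l + 1 : ℕ) * (8 * η) := by
    simp only [hES]
    rw [integral_finsetSum _ fun i _ => idx i]
    refine (Finset.sum_le_card_nsmul _ _ (8 * η) fun i hi => ?_).trans_eq (by
      rw [Finset.card_range, nsmul_eq_mul])
    rw [Finset.mem_range] at hi
    have e1 := hN.close o (geo G o w (p + i)) (hd _ (by omega)).1
    have e2 := hN'.close o (geo G o w (p + i)) (hd _ (by omega)).1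
    have i1 := integrable_close hT hN o (geo G o w (p + i))
    have i2 := integrable_close hT hN' o (geo G o w (p + i))
    simp only [hdx]
    rw [integral_const_mul, integral_add i1 i2]
    linarith
  have wb : ∀ z, (0 ≤ W z ∧ W z ≤ 1) ∧ (0 ≤ W' z ∧ W' z ≤ 1) := fun z =>
    ⟨armW_mem hT hN.nn (hN.lt1 hT) _ _ z, armW_mem hT hN'.nn (hN'.lt1 hT) _ _ z⟩
  have iW : Integrable W (gN (ℕ × V)) := integrable_of_bdd (measurable_armW _ _ _) (B := 1) fun z => by
    rw [abs_of_nonneg (wb z).1.1]; exact (wb z).1.2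
  have iW' : Integrable W' (gN (ℕ × V)) := integrable_of_bdd (measurable_armW _ _ _) (B := 1) fun z => by
    rw [abs_of_nonneg (wb z).2.1]; exact (wb z).2.2
  have iX : Integrable (fun z => X z * W z) (gN (ℕ × V)) :=
    integrable_of_bdd ((measurable_phi1 o u).mul (measurable_armW _ _ _)) fun z => by
      rw [abs_of_nonneg (mul_nonneg (f1 z).1 (wb z).1.1)]
      exact (mul_le_of_le_one_right (f1 z).1 (wb z).1.2).trans (f1 z).2
  have iS : Integrable (fun z => S2 z * W' z) (gN (ℕ × V)) :=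
    integrable_of_bdd ((measurable_phi2 w u).mul (measurable_armW _ _ _)) fun z => by
      rw [abs_of_nonneg (mul_nonneg (f2 z).1 (wb z).2.1)]
      exact (mul_le_of_le_one_right (f2 z).1 (wb z).2.2).trans (f2 z).2
  have iBf : Integrable (fun z => |Bf z - W z|) (gN (ℕ × V)) :=
    ((integrable_of_bdd (Finset.measurable_prod _ fun i _ => measurable_rc.comp (measurable_Mu o _ _))
      (B := 1) fun z => by
        have h := fun i => rc_mem (Q_two hT) (hN.abs_Mu hT o (geo G o w (p + i)) (geo G o w (p + i + 1)) z)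
        simp only [Function.comp_def]
        rw [abs_of_nonneg (Finset.prod_nonneg fun i _ => (h i).1)]
        exact Finset.prod_le_one (fun i _ => (h i).1) fun i _ => (h i).2.trans
          (sub_le_self _ (by positivity))).sub iW).abs
  have iBb : Integrable (fun z => |Bb z - W' z|) (gN (ℕ × V)) :=
    ((integrable_of_bdd (Finset.measurable_prod _ fun i _ => measurable_rc.comp (measurable_Mu o _ _))
      (B := 1) fun z => by
        have h := fun i => rc_mem (Q_two hT) (hN'.abs_Mu hT o (geo G o w (i + 1)) (geo G o w i) z)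
        simp only [Function.comp_def]
        rw [abs_of_nonneg (Finset.prod_nonneg fun i _ => (h i).1)]
        exact Finset.prod_le_one (fun i _ => (h i).1) fun i _ => (h i).2.trans
          (sub_le_self _ (by positivity))).sub iW').abs
  have iES : Integrable ES (gN (ℕ × V)) := integrable_finsetSum _ fun i _ => idx i
  have iA1 : Integrable (fun z => X z * W z + S2 z * W' z) (gN (ℕ × V)) := iX.add iS
  have iA2 : Integrable (fun z => N * (θ - θ') ^ 2 * (W z + W' z)) (gN (ℕ × V)) :=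
    (iW.add iW').const_mul _
  have iA : Integrable (fun z => X z * W z + S2 z * W' z + N * (θ - θ') ^ 2 * (W z + W' z))
      (gN (ℕ × V)) := iA1.add iA2
  have iB1 : Integrable (fun z => (4 * ((n : ℝ) + 1) + N) * |Bf z - W z| +
      (4 * ((n : ℝ) + 1) + N) * |Bb z - W' z|) (gN (ℕ × V)) :=
    (iBf.const_mul _).add (iBb.const_mul _)
  have iB : Integrable (fun z => (4 * ((n : ℝ) + 1) + N) * |Bf z - W z| +
      (4 * ((n : ℝ) + 1) + N) * |Bb z - W' z| + ES z) (gN (ℕ × V)) := iB1.add iES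
  refine (integral_mono (integrable_dC_sq hT hN hN' hw) ((iA.add iB).const_mul c) hpt).trans ?_
  rw [integral_const_mul, integral_add' iA iB, integral_add iA1 iA2, integral_add iX iS,
    integral_const_mul, integral_add iW iW', integral_add iB1 iES,
    integral_add (iBf.const_mul _) (iBb.const_mul _), integral_const_mul, integral_const_mul]
  refine mul_le_mul_of_nonneg_left (add_le_add le_rfl ?_) (by positivity)
  have hη := hN.eta_nn o
  have hn1 : (1 : ℝ) ≤ (n : ℝ) + 1 := by linarith [Nat.cast_nonneg (α := ℝ) n]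
  have hln : (l : ℝ) ≤ (n : ℝ) + 1 := by exact_mod_cast (by omega : l ≤ n + 1)
  have hpn' : (p : ℝ) ≤ (n : ℝ) + 1 := by exact_mod_cast (by omega : p ≤ n + 1)
  have hl1 : ((l + 1 : ℕ) : ℝ) ≤ (n : ℝ) + 1 := by exact_mod_cast (by omega : l + 1 ≤ n + 1)
  have hK : 4 * ((n : ℝ) + 1) + N ≤ 5 * N := by simp only [hNdef]; nlinarith
  have hN0 : 0 ≤ 4 * ((n : ℝ) + 1) + N := by positivity
  have b1 := mul_le_mul hK (eBf.trans (mul_le_mul_of_nonneg_right hln (by positivity)))
    (integral_nonneg fun z => abs_nonneg _) (by positivity)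
  have b2 := mul_le_mul hK (eBb.trans (mul_le_mul_of_nonneg_right hpn' (by positivity)))
    (integral_nonneg fun z => abs_nonneg _) (by positivity)
  have b3 := eES.trans (mul_le_mul_of_nonneg_right hl1 (by positivity))
  simp only [hNdef] at b1 b2 ⊢
  have hpow : ((n : ℝ) + 1) ≤ ((n : ℝ) + 1) ^ 3 := le_self_pow₀ hn1 (by norm_num)
  have b4 := mul_le_mul_of_nonneg_right hpow hη
  linarith [mul_nonneg (pow_nonneg (by positivity : (0 : ℝ) ≤ (n : ℝ) + 1) 3) hη]

end Vale.Agent.P161
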