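import Vale.Agent.P161.Symmetry
import Vale.Agent.P161.Crit.Branch

/-!
# Geodesics, and symmetries matching pairs of vertices
-/

open Finset
open scoped Classical

noncomputable section

namespace Vale.Agent.P161

variable {V : Type*} {G : SimpleGraph V} {d : ℕ}

theorem geo_exists (hT : RTree G d) {a b : V} {k : ℕ} (hk : k ≤ G.dist a b) :
    ∃ x, G.dist a x = k ∧ G.dist x b = G.dist a b - k := by
  suffices H : ∀ n b, G.dist a b = n → k ≤ n → ∃ x, G.dist a x = k ∧ G.dist x b = n - k from
    H _ b rfl hk
  intro n
  induction n with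
  | zero =>
    intro b hb hk
    exact ⟨b, by omega, by simp⟩
  | succ n ih =>
    intro b hb hk
    rcases Nat.eq_or_lt_of_le hk with h | h
    · exact ⟨b, by omega, by rw [SimpleGraph.dist_self]; omega⟩
    · have hne : b ≠ a := by rintro rfl; simp at hb
      obtain ⟨w, hadj, hw⟩ := exists_closer hT hne
      obtain ⟨x, hx1, hx2⟩ := ih w (by omega) (by omega)
      refine ⟨x, hx1, ?_⟩
      have t1 := hT.conn.dist_triangle (u := x) (v := w) (w := b)
      rw [SimpleGraph.dist_eq_one_iff_adj.2 hadj.symm] at t1
      have t2 := hT.conn.dist_triangle (u := a) (v := x) (w := b)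
      omega

theorem geo_unique (hT : RTree G d) {a b x y : V}
    (hx : G.dist a x + G.dist x b = G.dist a b) (hy : G.dist a y + G.dist y b = G.dist a b)
    (he : G.dist a x = G.dist a y) : x = y := by
  suffices H : ∀ m b x y, G.dist x b = m → G.dist a x + G.dist x b = G.dist a b →
      G.dist a y + G.dist y b = G.dist a b → G.dist a x = G.dist a y → x = y from
    H _ b x y rfl hx hy he
  intro m
  induction m with
  | zero =>
    intro b x y h0 hx hy he
    have h1 : G.dist y b = 0 := by omega
    rw [hT.conn.dist_eq_zero_iff.1 h0, hT.conn.dist_eq_zero_iff.1 h1]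
  | succ m ih =>
    intro b x y hm hx hy he
    have hbx : b ≠ x := by rintro rfl; simp at hm
    have hby : b ≠ y := by
      rintro rfl; simp at hy; omega
    obtain ⟨w, hw1, hw2⟩ := exists_closer hT hbx
    obtain ⟨w', hw1', hw2'⟩ := exists_closer hT hby
    have hwb := SimpleGraph.dist_eq_one_iff_adj.2 hw1
    have hwb' := SimpleGraph.dist_eq_one_iff_adj.2 hw1'
    have key : ∀ {z w : V}, G.dist a z + G.dist z b = G.dist a b → G.dist b w = 1 →
        G.dist z b = G.dist z w + 1 → G.dist a b = G.dist a w + 1 := by
      intro z w hz h1 h2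
      have t1 := hT.conn.dist_triangle (u := a) (v := z) (w := w)
      have t2 := hT.conn.dist_triangle (u := a) (v := w) (w := b)
      rw [SimpleGraph.dist_comm (u := w) (v := b), h1] at t2
      omega
    have e1 := key hx hwb hw2
    have e2 := key hy hwb' hw2'
    obtain rfl : w = w' := closer_unique hT hw1 hw1' e1 e2
    exact ih w x y (by omega) (by omega) (by omega) he

/-- The point at distance `k` from `a` on the way to `b`. -/
def geo (G : SimpleGraph V) (a b : V) (k : ℕ) : V :=
  if h : ∃ x, G.dist a x = k ∧ G.dist x b = G.dist a b - k then h.choose else b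

theorem geo_spec (hT : RTree G d) {a b : V} {k : ℕ} (hk : k ≤ G.dist a b) :
    G.dist a (geo G a b k) = k ∧ G.dist (geo G a b k) b = G.dist a b - k := by
  have h := geo_exists hT hk
  rw [geo, dif_pos h]
  exact h.choose_spec

theorem geo_eq (hT : RTree G d) {a b x : V} {k : ℕ} (h1 : G.dist a x = k)
    (h2 : k + G.dist x b = G.dist a b) : geo G a b k = x := by
  have hs := geo_spec hT (a := a) (b := b) (k := k) (by omega)
  exact geo_unique hT (a := a) (b := b) (by omega) (by omega) (by omega)

theorem geo_zero (hT : RTree G d) (a b : V) : geo G a b 0 = a :=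
  geo_eq hT SimpleGraph.dist_self (by omega)

theorem geo_end (hT : RTree G d) (a b : V) : geo G a b (G.dist a b) = b :=
  geo_eq hT rfl (by simp)

theorem geo_dist (hT : RTree G d) {a b : V} {i j : ℕ} (hij : i ≤ j) (hj : j ≤ G.dist a b) :
    G.dist (geo G a b i) (geo G a b j) = j - i := by
  obtain ⟨h1, h2⟩ := geo_spec hT (a := a) (b := b) (k := j) hj
  obtain ⟨y, hy1, hy2⟩ := geo_exists hT (a := a) (b := geo G a b j) (k := i) (by omega)
  have e : geo G a b i = y := by
    refine geo_eq hT hy1 ?_
    have t1 := hT.conn.dist_triangle (u := y) (v := geo G a b j) (w := b)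
    have t2 := hT.conn.dist_triangle (u := a) (v := y) (w := b)
    omega
  rw [e, hy2, h1]

theorem geo_adj (hT : RTree G d) {a b : V} {i : ℕ} (hi : i < G.dist a b) :
    G.Adj (geo G a b i) (geo G a b (i + 1)) := by
  have := geo_dist hT (a := a) (b := b) (i := i) (j := i + 1) (by omega) (by omega)
  exact SimpleGraph.dist_eq_one_iff_adj.1 (by omega)

theorem geo_sub (hT : RTree G d) {a b : V} {p i : ℕ} (hi : p + i ≤ G.dist a b) :
    geo G (geo G a b p) b i = geo G a b (p + i) := by
  have hp := geo_spec hT (a := a) (b := b) (k := p) (by omega)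
  have hq := geo_spec hT (a := a) (b := b) (k := p + i) hi
  refine geo_eq hT ?_ (by omega)
  rw [geo_dist hT (by omega) hi]
  omega

theorem geo_back (hT : RTree G d) {a b : V} {p i : ℕ} (hp : p ≤ G.dist a b) (hi : i ≤ p) :
    geo G (geo G a b p) a i = geo G a b (p - i) := by
  have h1 := geo_spec hT (a := a) (b := b) (k := p) hp
  have h2 := geo_spec hT (a := a) (b := b) (k := p - i) (by omega)
  refine geo_eq hT ?_ ?_
  · rw [SimpleGraph.dist_comm, geo_dist hT (by omega) hp]; omega
  · rw [SimpleGraph.dist_comm (u := geo G a b (p - i)), h2.1,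
      SimpleGraph.dist_comm (u := geo G a b p), h1.1]
    omega

theorem geo_map (hT : RTree G d) (g : G ≃g G) {a b : V} {k : ℕ} (hk : k ≤ G.dist a b) :
    geo G (g a) (g b) k = g (geo G a b k) := by
  obtain ⟨h1, h2⟩ := geo_spec hT hk
  refine geo_eq hT ?_ ?_
  · rw [iso_dist hT, h1]
  · rw [iso_dist hT, iso_dist hT, h2]; omega

/-- Exchange the branches of the word tree starting with the letters `b` and `c`. -/
def branchSwap (b c : Fin d) : wordTree d ≃g wordTree d :=
  let σ : List (Fin d) → List (Fin d) := fun l =>
    if l.getLast? = some b ∨ l.getLast? = some c then l.map (Equiv.swap b c) else l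
  have hchain : ∀ l : List (Fin d), l.IsChain (· ≠ ·) → (σ l).IsChain (· ≠ ·) := fun l hl => by
    simp only [σ]
    split_ifs
    · rw [List.isChain_map]
      exact hl.imp fun x y h e => h ((Equiv.swap b c).injective e)
    · exact hl
  have hinv : ∀ l, σ (σ l) = l := fun l => by
    simp only [σ]
    split_ifs with h h' <;> first | rfl | skip
    · rw [List.map_map]
      simp [Function.comp_def]
    · exfalso
      apply h'
      rw [List.getLast?_map]
      rcases h with h | h <;> simp [h]
  have hfwd : ∀ x y : Word d, (wordTree d).Adj x y →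
      (wordTree d).Adj ⟨σ x.1, hchain _ x.2⟩ ⟨σ y.1, hchain _ y.2⟩ := by
    intro x y h
    have key : ∀ (a : Fin d) (l : List (Fin d)), (a :: l).IsChain (· ≠ ·) →
        ∃ a', σ (a :: l) = a' :: σ l := by
      intro a l hl
      cases l with
      | nil =>
        simp only [σ, List.getLast?_singleton, List.getLast?_nil]
        split_ifs <;> simp_all
      | cons e l =>
        simp only [σ, List.getLast?_cons_cons]
        split_ifs <;> simp
    rcases wordTree_adj.1 h with ⟨a, ha⟩ | ⟨a, ha⟩
    · obtain ⟨a', ha'⟩ := key a x.1 (ha ▸ y.2)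
      exact wordTree_adj.2 (Or.inl ⟨a', show σ y.1 = _ by rw [ha]; exact ha'⟩)
    · obtain ⟨a', ha'⟩ := key a y.1 (ha ▸ x.2)
      exact wordTree_adj.2 (Or.inr ⟨a', show σ x.1 = _ by rw [ha]; exact ha'⟩)
  { toFun := fun x => ⟨σ x.1, hchain _ x.2⟩
    invFun := fun x => ⟨σ x.1, hchain _ x.2⟩
    left_inv := fun x => Subtype.ext (hinv _)
    right_inv := fun x => Subtype.ext (hinv _)
    map_rel_iff' := fun {x y} => ⟨fun h => by
      have := hfwd ⟨σ x.1, hchain _ x.2⟩ ⟨σ y.1, hchain _ y.2⟩ h
      simpa only [hinv, Subtype.coe_eta] using this, hfwd x y⟩ }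

theorem branchSwap_apply (b c : Fin d) (x : Word d) :
    (branchSwap b c x).1 =
      if x.1.getLast? = some b ∨ x.1.getLast? = some c then x.1.map (Equiv.swap b c) else x.1 := rfl

/-- Exchange two neighbours of `z`, keeping a vertex in a third branch. -/
theorem exists_swap_nbr (hT : RTree G d) {z u w o : V} (hu : G.Adj z u) (hw : G.Adj z w)
    (ho : o = z ∨ (G.dist u o = G.dist z o + 1 ∧ G.dist w o = G.dist z o + 1)) :
    ∃ g : G ≃g G, g o = o ∧ g u = w := by
  set φ := wordIso hT z with hφ
  have hnil : φ ⟨[], List.isChain_nil⟩ = z := rfl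
  have hone : ∀ {v : V}, G.Adj z v → ∃ e, φ.symm v = ⟨[e], List.isChain_singleton e⟩ := by
    intro v hv
    have hlen : (φ.symm v).1.length = 1 := by
      rw [← wordVertex_dist hT z (φ.symm v)]
      show G.dist z (φ (φ.symm v)) = 1
      rw [φ.apply_symm_apply]
      exact SimpleGraph.dist_eq_one_iff_adj.2 hv
    obtain ⟨e, he⟩ := List.length_eq_one_iff.1 hlen
    exact ⟨e, Subtype.ext he⟩
  obtain ⟨b, hb⟩ := hone hu
  obtain ⟨c, hc⟩ := hone hw
  refine ⟨φ.symm.trans ((branchSwap b c).trans φ), ?_, ?_⟩
  · show φ (branchSwap b c (φ.symm o)) = o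
    have hfix : branchSwap b c (φ.symm o) = φ.symm o := by
      refine Subtype.ext ?_
      rw [branchSwap_apply, if_neg]
      intro hl
      rcases ho with rfl | ⟨h1, h2⟩
      · rw [show φ.symm o = ⟨[], List.isChain_nil⟩ from φ.injective (by rw [φ.apply_symm_apply, hnil])]
          at hl
        simp at hl
      · -- the last letter would place `o` behind `u` or `w`
        have main : ∀ (e : Fin d) (v : V), φ.symm v = ⟨[e], List.isChain_singleton e⟩ → G.Adj z v →
            (φ.symm o).1.getLast? = some e → G.dist z o = G.dist v o + 1 := by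
          intro e v hv hzv hle
          have key : ∀ (l : List (Fin d)) (h : l.IsChain (· ≠ ·)), l.getLast? = some e →
              G.dist v (φ ⟨l, h⟩) + 1 ≤ l.length := by
            intro l
            induction l with
            | nil => intro h hle; simp at hle
            | cons a l ih =>
              intro h hle
              cases l with
              | nil =>
                simp at hle
                subst hle
                rw [← hv, φ.apply_symm_apply]
                simp
              | cons a' l =>
                rw [List.getLast?_cons_cons] at hle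
                have := ih h.of_cons hle
                have hadj : G.Adj (φ ⟨a' :: l, h.of_cons⟩) (φ ⟨a :: a' :: l, h⟩) :=
                  φ.map_rel_iff.2 (wordTree_adj.2 (Or.inl ⟨a, rfl⟩))
                have t := hT.conn.dist_triangle (u := v) (v := φ ⟨a' :: l, h.of_cons⟩)
                  (w := φ ⟨a :: a' :: l, h⟩)
                rw [SimpleGraph.dist_eq_one_iff_adj.2 hadj] at t
                simp only [List.length_cons] at *
                omega
          have h3 := key (φ.symm o).1 (φ.symm o).2 hle
          have h4 : φ ⟨(φ.symm o).1, (φ.symm o).2⟩ = o := φ.apply_symm_apply o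
          rw [h4, ← wordVertex_dist hT z (φ.symm o)] at h3
          have h5 : wordVertex hT z (φ.symm o) = o := φ.apply_symm_apply o
          rw [h5] at h3
          rcases dist_adj_cases hT hzv o with h6 | h6 <;> omega
        rcases hl with hl | hl
        · have := main b u hb hu hl; omega
        · have := main c w hc hw hl; omega
    rw [hfix, φ.apply_symm_apply]
  · show φ (branchSwap b c (φ.symm u)) = w
    have : branchSwap b c (φ.symm u) = φ.symm w := by
      refine Subtype.ext ?_
      rw [branchSwap_apply, hb, hc]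
      simp
    rw [this, φ.apply_symm_apply]

/-- The stabilizer of a vertex is transitive on each sphere around it. -/
theorem exists_fix_iso (hT : RTree G d) (o : V) : ∀ (n : ℕ) (u w : V),
    G.dist o u = n → G.dist o w = n → ∃ g : G ≃g G, g o = o ∧ g u = w := by
  intro n
  induction n with
  | zero =>
    intro u w hu hw
    exact ⟨RelIso.refl _, rfl, by rw [← hT.conn.dist_eq_zero_iff.1 hu, ← hT.conn.dist_eq_zero_iff.1 hw]; rfl⟩
  | succ n ih =>
    intro u w hu hw
    obtain ⟨u', hu1, hu2⟩ := exists_closer hT (v := o) (u := u) (by rintro rfl; simp at hu)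
    obtain ⟨w', hw1, hw2⟩ := exists_closer hT (v := o) (u := w) (by rintro rfl; simp at hw)
    obtain ⟨g, hgo, hgu⟩ := ih u' w' (by omega) (by omega)
    have hd : G.dist o (g u) = n + 1 := by
      conv_lhs => rw [← hgo]
      rw [iso_dist hT, hu]
    have hadj : G.Adj w' (g u) := by
      rw [← hgu]; exact g.map_rel_iff.2 hu1.symm
    have hw'n : G.dist o w' = n := by omega
    obtain ⟨s, hso, hsu⟩ := exists_swap_nbr hT (o := o) hadj hw1.symm (Or.inr
      ⟨by rw [SimpleGraph.dist_comm, SimpleGraph.dist_comm (u := w')]; omega,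
       by rw [SimpleGraph.dist_comm, SimpleGraph.dist_comm (u := w')]; omega⟩)
    exact ⟨g.trans s, by show s (g o) = o; rw [hgo, hso], hsu⟩

/-- Any two pairs of vertices at the same distance are related by an automorphism. -/
theorem exists_pair_iso (hT : RTree G d) {a b a' b' : V} (h : G.dist a b = G.dist a' b') :
    ∃ g : G ≃g G, g a = a' ∧ g b = b' := by
  obtain ⟨s, hs, -⟩ := exists_symmetries hT a'
  obtain ⟨g, hg1, hg2⟩ := exists_fix_iso hT a' _ (s a b) b' rfl
    (by rw [← h, ← iso_dist hT (s a), hs])
  exact ⟨(s a).trans g, by show g (s a a) = a'; rw [hs, hg1], hg2⟩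

end Vale.Agent.P161
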