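import Vale.Agent.P161.Crit.Branch

/-!
# Elementary inequalities for the transmission factors
-/

open Finset Real
open scoped Classical

noncomputable section

namespace Vale.Agent.P161

variable {θ θ' t t' : ℝ}

/-- The magnetization at the end of an edge in terms of the two messages. -/
def eMag (θ x y : ℝ) : ℝ := (x + θ * y) / (1 + θ * (y * x))

theorem eMag_den (h0 : 0 ≤ θ) (h1 : θ ≤ 3 / 4) {x y : ℝ} (hx : |x| ≤ 1) (hy : |y| ≤ 1) :
    1 / 4 ≤ 1 + θ * (y * x) ∧ 1 + θ * (y * x) ≤ 2 := by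
  have h : |y * x| ≤ 1 := by rw [abs_mul]; exact mul_le_one₀ hy (abs_nonneg _) hx
  have := abs_le.1 h
  constructor <;> nlinarith

theorem eMag_sub {θ θ' x y x' y' : ℝ} (n0 : 1 + θ * (y * x) ≠ 0) (n1 : 1 + θ * (y * x') ≠ 0)
    (n2 : 1 + θ * (y' * x') ≠ 0) (n3 : 1 + θ' * (y' * x') ≠ 0) :
    eMag θ x y - eMag θ' x' y' =
      (1 - θ ^ 2 * y ^ 2) * ((x - x') / ((1 + θ * (y * x)) * (1 + θ * (y * x')))) +
        θ * (1 - x' ^ 2) * ((y - y') / ((1 + θ * (y * x')) * (1 + θ * (y' * x')))) +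
        (θ - θ') * (y' * (1 - x' ^ 2)) / ((1 + θ * (y' * x')) * (1 + θ' * (y' * x'))) := by
  have a : (x + θ * y) / (1 + θ * (y * x)) - (x' + θ * y) / (1 + θ * (y * x')) =
      (1 - θ ^ 2 * y ^ 2) * ((x - x') / ((1 + θ * (y * x)) * (1 + θ * (y * x')))) := by
    rw [div_sub_div _ _ n0 n1, ← mul_div_assoc]
    congr 1; ring
  have b : (x' + θ * y) / (1 + θ * (y * x')) - (x' + θ * y') / (1 + θ * (y' * x')) =
      θ * (1 - x' ^ 2) * ((y - y') / ((1 + θ * (y * x')) * (1 + θ * (y' * x')))) := by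
    rw [div_sub_div _ _ n1 n2, ← mul_div_assoc]
    congr 1; ring
  have c : (x' + θ * y') / (1 + θ * (y' * x')) - (x' + θ' * y') / (1 + θ' * (y' * x')) =
      (θ - θ') * (y' * (1 - x' ^ 2)) / ((1 + θ * (y' * x')) * (1 + θ' * (y' * x'))) := by
    rw [div_sub_div _ _ n2 n3]
    congr 1; ring
  rw [eMag, eMag, ← a, ← b, ← c]
  ring

theorem eMag_sub_flip {θ θ' x y x' y' : ℝ} (n0 : 1 + θ * (y * x) ≠ 0)
    (n1 : 1 + θ * (y * x') ≠ 0) (n2 : 1 + θ * (y' * x') ≠ 0) (n3 : 1 + θ' * (y' * x') ≠ 0) :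
    eMag θ y x - eMag θ' y' x' =
      θ * (1 - y ^ 2) * ((x - x') / ((1 + θ * (y * x)) * (1 + θ * (y * x')))) +
        (1 - θ ^ 2 * x' ^ 2) * ((y - y') / ((1 + θ * (y * x')) * (1 + θ * (y' * x')))) +
        (θ - θ') * (x' * (1 - y' ^ 2)) / ((1 + θ * (y' * x')) * (1 + θ' * (y' * x'))) := by
  have a : (y + θ * x) / (1 + θ * (y * x)) - (y + θ * x') / (1 + θ * (y * x')) =
      θ * (1 - y ^ 2) * ((x - x') / ((1 + θ * (y * x)) * (1 + θ * (y * x')))) := by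
    rw [div_sub_div _ _ n0 n1, ← mul_div_assoc]
    congr 1; ring
  have b : (y + θ * x') / (1 + θ * (y * x')) - (y' + θ * x') / (1 + θ * (y' * x')) =
      (1 - θ ^ 2 * x' ^ 2) * ((y - y') / ((1 + θ * (y * x')) * (1 + θ * (y' * x')))) := by
    rw [div_sub_div _ _ n1 n2, ← mul_div_assoc]
    congr 1; ring
  have c : (y' + θ * x') / (1 + θ * (y' * x')) - (y' + θ' * x') / (1 + θ' * (y' * x')) =
      (θ - θ') * (x' * (1 - y' ^ 2)) / ((1 + θ * (y' * x')) * (1 + θ' * (y' * x'))) := by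
    rw [div_sub_div _ _ n2 n3]
    congr 1; ring
  rw [eMag, eMag, mul_comm x y, mul_comm x' y', ← a, ← b, ← c]
  ring

theorem solve_two {a11 a12 a21 a22 p q A B r1 r2 e : ℝ} (hA : A = a11 * p + a12 * q + r1)
    (hB : B = a21 * p + a22 * q + r2) (hdet : 1 / 6 ≤ a11 * a22 - a12 * a21) (h22 : |a22| ≤ 1)
    (h12 : |a12| ≤ 1) (hr1 : |r1| ≤ e) (hr2 : |r2| ≤ e) : |p| ≤ 6 * (|A| + |B| + 2 * e) := by
  have key : (a11 * a22 - a12 * a21) * p = a22 * (A - r1) - a12 * (B - r2) := by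
    rw [hA, hB]; ring
  have h : (a11 * a22 - a12 * a21) * |p| ≤ |A| + |r1| + (|B| + |r2|) :=
    calc (a11 * a22 - a12 * a21) * |p| = |(a11 * a22 - a12 * a21) * p| := by
          rw [abs_mul, abs_of_nonneg (by linarith : 0 ≤ a11 * a22 - a12 * a21)]
      _ ≤ |a22 * (A - r1)| + |a12 * (B - r2)| := by rw [key]; exact abs_sub _ _
      _ ≤ |A - r1| + |B - r2| := by
          rw [abs_mul, abs_mul]
          exact add_le_add (mul_le_of_le_one_left (abs_nonneg _) h22)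
            (mul_le_of_le_one_left (abs_nonneg _) h12)
      _ ≤ _ := add_le_add (abs_sub _ _) (abs_sub _ _)
  have h2 := mul_le_mul_of_nonneg_right hdet (abs_nonneg p)
  linarith

theorem abs_rest_le {w z D : ℝ} (hw : |w| ≤ 1) (hz0 : 0 ≤ z) (hz1 : z ≤ 1) (hD : 1 / 16 ≤ D)
    (δ : ℝ) : |δ * (w * z) / D| ≤ 16 * |δ| := by
  rw [abs_div, abs_mul, abs_mul, abs_of_nonneg hz0, abs_of_pos (by linarith : 0 < D),
    div_le_iff₀ (by linarith)]
  have h2 : |δ| * (|w| * z) ≤ |δ| * 1 :=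
    mul_le_mul_of_nonneg_left (mul_le_one₀ hw hz0 hz1) (abs_nonneg _)
  have h3 := mul_le_mul_of_nonneg_left hD (abs_nonneg δ)
  linarith

/-- The two messages of an edge are Lipschitz functions of the two magnetizations. -/
theorem inv_lip (h0 : 0 ≤ θ) (h1 : θ ≤ 3 / 4) (g0 : 0 ≤ θ') (g1 : θ' ≤ 3 / 4) {x y x' y' : ℝ}
    (hx : |x| ≤ 1) (hy : |y| ≤ 1) (hx' : |x'| ≤ 1) (hy' : |y'| ≤ 1) :
    |x - x'| ≤ 24 * (|eMag θ x y - eMag θ' x' y'| + |eMag θ y x - eMag θ' y' x'| + 32 * |θ - θ'|) := by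
  obtain ⟨a0, a0'⟩ := eMag_den h0 h1 hx hy
  obtain ⟨a1, a1'⟩ := eMag_den h0 h1 hx' hy
  obtain ⟨a2, -⟩ := eMag_den h0 h1 hx' hy'
  obtain ⟨b2, -⟩ := eMag_den g0 g1 hx' hy'
  have sqx : x' ^ 2 ≤ 1 := by rw [← sq_abs]; exact pow_le_one₀ (abs_nonneg _) hx'
  have sqy : y ^ 2 ≤ 1 := by rw [← sq_abs]; exact pow_le_one₀ (abs_nonneg _) hy
  have sqy' : y' ^ 2 ≤ 1 := by rw [← sq_abs]; exact pow_le_one₀ (abs_nonneg _) hy'
  have hth : θ ^ 2 ≤ 9 / 16 := by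
    calc θ ^ 2 ≤ (3 / 4) ^ 2 := pow_le_pow_left₀ h0 h1 2
      _ = _ := by norm_num
  have hD : 1 / 16 ≤ (1 + θ * (y' * x')) * (1 + θ' * (y' * x')) :=
    le_trans (by norm_num) (mul_le_mul a2 b2 (by norm_num) (by linarith))
  have hsq : x' ^ 2 * y ^ 2 ≤ 1 := mul_le_one₀ sqx (sq_nonneg _) sqy
  have hdet : 1 / 6 ≤ (1 - θ ^ 2 * y ^ 2) * (1 - θ ^ 2 * x' ^ 2) -
      θ * (1 - x' ^ 2) * (θ * (1 - y ^ 2)) := by
    have e : (1 - θ ^ 2 * y ^ 2) * (1 - θ ^ 2 * x' ^ 2) - θ * (1 - x' ^ 2) * (θ * (1 - y ^ 2)) =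
        (1 - θ ^ 2) * (1 - θ ^ 2 * (x' ^ 2 * y ^ 2)) := by ring
    rw [e]
    have t2 : θ ^ 2 * (x' ^ 2 * y ^ 2) ≤ θ ^ 2 * 1 := mul_le_mul_of_nonneg_left hsq (sq_nonneg _)
    exact le_trans (by norm_num) (mul_le_mul (by linarith : (7 / 16 : ℝ) ≤ 1 - θ ^ 2)
      (by linarith : (7 / 16 : ℝ) ≤ 1 - θ ^ 2 * (x' ^ 2 * y ^ 2)) (by norm_num) (by linarith))
  have h22 : |1 - θ ^ 2 * x' ^ 2| ≤ 1 := by
    have t1 : θ ^ 2 * x' ^ 2 ≤ θ ^ 2 * 1 := mul_le_mul_of_nonneg_left sqx (sq_nonneg _)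
    have t0 : 0 ≤ θ ^ 2 * x' ^ 2 := mul_nonneg (sq_nonneg _) (sq_nonneg _)
    rw [abs_of_nonneg (by linarith)]; linarith
  have h12 : |θ * (1 - x' ^ 2)| ≤ 1 := by
    rw [abs_of_nonneg (mul_nonneg h0 (by linarith))]
    exact mul_le_one₀ (by linarith) (by linarith) (by linarith [sq_nonneg x'])
  have hs := solve_two
    (eMag_sub (θ := θ) (θ' := θ') (x := x) (y := y) (x' := x') (y' := y')
      (by linarith) (by linarith) (by linarith) (by linarith))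
    (eMag_sub_flip (θ := θ) (θ' := θ') (x := x) (y := y) (x' := x') (y' := y')
      (by linarith) (by linarith) (by linarith) (by linarith))
    hdet h22 h12 (abs_rest_le hy' (by linarith) (by linarith [sq_nonneg x']) hD (θ - θ'))
    (abs_rest_le hx' (by linarith) (by linarith [sq_nonneg y']) hD (θ - θ'))
  have hpos : 0 < (1 + θ * (y * x)) * (1 + θ * (y * x')) := mul_pos (by linarith) (by linarith)
  rw [abs_div, abs_of_pos hpos, div_le_iff₀ hpos] at hs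
  refine hs.trans ?_
  set S := |eMag θ x y - eMag θ' x' y'| + |eMag θ y x - eMag θ' y' x'| + 32 * |θ - θ'| with hS
  have hS0 : 0 ≤ S := by rw [hS]; positivity
  have h4 : (1 + θ * (y * x)) * (1 + θ * (y * x')) ≤ 2 * 2 :=
    mul_le_mul a0' a1' (by linarith) (by norm_num)
  calc 6 * (|eMag θ x y - eMag θ' x' y'| + |eMag θ y x - eMag θ' y' x'| + 2 * (16 * |θ - θ'|)) *
        ((1 + θ * (y * x)) * (1 + θ * (y * x'))) = 6 * S * ((1 + θ * (y * x)) * (1 + θ * (y * x'))) := by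
        rw [hS]; ring
    _ ≤ 6 * S * (2 * 2) := mul_le_mul_of_nonneg_left h4 (by linarith)
    _ = _ := by ring

/-- The retention factor with squared correlation `t`. -/
def r2 (t x : ℝ) : ℝ := (1 - x ^ 2) / (1 - t * x ^ 2)

theorem rt_eq_r2 (x : ℝ) : rt θ x = r2 (θ ^ 2) x := rfl

theorem rc_eq_r2 (Q : ℕ) (x : ℝ) : rc Q x = r2 (1 / (Q : ℝ)) x := by
  rw [rc, r2, one_div_mul_eq_div]

theorem sq_le_one' {x : ℝ} (h : |x| ≤ 1) : x ^ 2 ≤ 1 := by
  rw [← sq_abs]; exact pow_le_one₀ (abs_nonneg _) h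

theorem r2_mem (h0 : 0 ≤ t) (h1 : t ≤ 9 / 16) {x : ℝ} (hx : |x| ≤ 1) :
    0 ≤ r2 t x ∧ r2 t x ≤ 1 - (7 / 16) * x ^ 2 := by
  have h2 := sq_le_one' hx
  have hd : 7 / 16 ≤ 1 - t * x ^ 2 := by nlinarith [sq_nonneg x]
  refine ⟨div_nonneg (by linarith) (by linarith), ?_⟩
  rw [r2, div_le_iff₀ (by linarith)]
  nlinarith [mul_nonneg (sq_nonneg x) (sub_nonneg.2 h1),
    mul_nonneg (mul_nonneg h0 (sq_nonneg x)) (sq_nonneg x)]

theorem r2_mono (h0 : 0 ≤ t) (htt : t ≤ t') (h1 : t' ≤ 9 / 16) {x : ℝ} (hx : |x| ≤ 1) :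
    r2 t x ≤ r2 t' x := by
  have h2 := sq_le_one' hx
  rw [r2, r2]
  refine div_le_div_of_nonneg_left (by linarith) ?_ ?_
  · nlinarith [sq_nonneg x]
  · nlinarith [sq_nonneg x]

theorem r2_lip (h0 : 0 ≤ t) (h1 : t ≤ 9 / 16) (g0 : 0 ≤ t') (g1 : t' ≤ 9 / 16) {x x' : ℝ}
    (hx : |x| ≤ 1) (hx' : |x'| ≤ 1) :
    |r2 t x - r2 t' x'| ≤ 6 * |x ^ 2 - x' ^ 2| + 6 * x' ^ 2 * |t - t'| := by
  have u1 := sq_le_one' hx
  have u2 := sq_le_one' hx'
  set u := x ^ 2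
  set v := x' ^ 2
  have hu0 : 0 ≤ u := sq_nonneg x
  have hv0 : 0 ≤ v := sq_nonneg x'
  have d1 : 7 / 16 ≤ 1 - t * u := by nlinarith
  have d2 : 7 / 16 ≤ 1 - t * v := by nlinarith
  have d3 : 7 / 16 ≤ 1 - t' * v := by nlinarith
  have e1 : r2 t x - r2 t x' = -(1 - t) * (u - v) / ((1 - t * u) * (1 - t * v)) := by
    show (1 - u) / (1 - t * u) - (1 - v) / (1 - t * v) = _
    rw [div_sub_div _ _ (by linarith) (by linarith)]; congr 1; ring
  have e2 : r2 t x' - r2 t' x' = (1 - v) * v * (t - t') / ((1 - t * v) * (1 - t' * v)) := by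
    show (1 - v) / (1 - t * v) - (1 - v) / (1 - t' * v) = _
    rw [div_sub_div _ _ (by linarith) (by linarith)]; congr 1; ring
  have b1 : |r2 t x - r2 t x'| ≤ 6 * |u - v| := by
    rw [e1, abs_div, abs_mul, abs_neg, abs_of_nonneg (by linarith : (0 : ℝ) ≤ 1 - t),
      abs_of_pos (mul_pos (by linarith) (by linarith) : 0 < (1 - t * u) * (1 - t * v)),
      div_le_iff₀ (mul_pos (by linarith) (by linarith) : 0 < (1 - t * u) * (1 - t * v))]
    have h3 : (1 : ℝ) ≤ 6 * ((1 - t * u) * (1 - t * v)) := by nlinarith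
    nlinarith [abs_nonneg (u - v)]
  have b2 : |r2 t x' - r2 t' x'| ≤ 6 * v * |t - t'| := by
    rw [e2, abs_div, abs_mul, abs_of_nonneg (mul_nonneg (by linarith) hv0 : 0 ≤ (1 - v) * v),
      abs_of_pos (mul_pos (by linarith) (by linarith) : 0 < (1 - t * v) * (1 - t' * v)),
      div_le_iff₀ (mul_pos (by linarith) (by linarith) : 0 < (1 - t * v) * (1 - t' * v))]
    have h3 : (1 : ℝ) ≤ 6 * ((1 - t * v) * (1 - t' * v)) := by nlinarith
    have h4 : (1 - v) * v ≤ v * 1 := by nlinarith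
    nlinarith [mul_le_mul_of_nonneg_right h4 (abs_nonneg (t - t')), mul_nonneg hv0 (abs_nonneg (t - t'))]
  calc |r2 t x - r2 t' x'| = |(r2 t x - r2 t x') + (r2 t x' - r2 t' x')| := by congr 1; ring
    _ ≤ _ := (abs_add_le _ _).trans (add_le_add b1 b2)

theorem abs_sq_sub_le (x x' : ℝ) : |x ^ 2 - x' ^ 2| ≤ (|x| + |x'|) * |x - x'| := by
  rw [show x ^ 2 - x' ^ 2 = (x + x') * (x - x') by ring, abs_mul]
  exact mul_le_mul_of_nonneg_right (abs_add_le _ _) (abs_nonneg _)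

/-! ## Products of retention factors -/

variable {r r' x x' : ℕ → ℝ} {n : ℕ}

theorem prod_telescope (hr : ∀ i, 0 ≤ r i) (hr' : ∀ i, 0 ≤ r' i) :
    ∀ n, |∏ i ∈ range n, r i - ∏ i ∈ range n, r' i| ≤
      ∑ i ∈ range n, |r i - r' i| * ((∏ j ∈ range i, r' j) * ∏ j ∈ Ico (i + 1) n, r j) := by
  intro n
  induction n with
  | zero => simp
  | succ n ih =>
    rw [Finset.prod_range_succ, Finset.prod_range_succ, Finset.sum_range_succ]
    have e : ∀ i ∈ range n, ∏ j ∈ Ico (i + 1) (n + 1), r j = (∏ j ∈ Ico (i + 1) n, r j) * r n :=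
      fun i hi => Finset.prod_Ico_succ_top (by have := Finset.mem_range.1 hi; omega) r
    have e' : ∑ i ∈ range n, |r i - r' i| * ((∏ j ∈ range i, r' j) * ∏ j ∈ Ico (i + 1) (n + 1), r j) =
        r n * ∑ i ∈ range n, |r i - r' i| * ((∏ j ∈ range i, r' j) * ∏ j ∈ Ico (i + 1) n, r j) := by
      rw [Finset.mul_sum]
      exact Finset.sum_congr rfl fun i hi => by rw [e i hi]; ring
    rw [e', Finset.Ico_self, Finset.prod_empty, mul_one]
    calc |(∏ i ∈ range n, r i) * r n - (∏ i ∈ range n, r' i) * r' n|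
        = |r n * (∏ i ∈ range n, r i - ∏ i ∈ range n, r' i) + (r n - r' n) * ∏ i ∈ range n, r' i| := by
          congr 1; ring
      _ ≤ |r n * (∏ i ∈ range n, r i - ∏ i ∈ range n, r' i)| +
            |(r n - r' n) * ∏ i ∈ range n, r' i| := abs_add_le _ _
      _ ≤ _ := by
          rw [abs_mul, abs_mul, abs_of_nonneg (hr n),
            abs_of_nonneg (Finset.prod_nonneg fun i _ => hr' i)]
          exact add_le_add (mul_le_mul_of_nonneg_left ih (hr n)) le_rfl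

theorem prod_mem (hr : ∀ i, 0 ≤ r i ∧ r i ≤ 1) (S : Finset ℕ) :
    0 ≤ ∏ i ∈ S, r i ∧ ∏ i ∈ S, r i ≤ 1 :=
  ⟨Finset.prod_nonneg fun i _ => (hr i).1, Finset.prod_le_one (fun i _ => (hr i).1) fun i _ => (hr i).2⟩

theorem gain_forward (hr : ∀ i, 0 ≤ r i ∧ r i ≤ 1 - (7 / 16) * x i ^ 2) :
    ∀ n, ∑ i ∈ range n, x i ^ 2 * ∏ j ∈ Ico (i + 1) n, r j ≤ 3 * (1 - ∏ i ∈ range n, r i) := by
  intro n
  induction n with
  | zero => simp
  | succ n ih =>
    rw [Finset.sum_range_succ, Finset.Ico_self, Finset.prod_empty, mul_one, Finset.prod_range_succ]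
    have e : ∑ i ∈ range n, x i ^ 2 * ∏ j ∈ Ico (i + 1) (n + 1), r j =
        r n * ∑ i ∈ range n, x i ^ 2 * ∏ j ∈ Ico (i + 1) n, r j := by
      rw [Finset.mul_sum]
      refine Finset.sum_congr rfl fun i hi => ?_
      rw [Finset.prod_Ico_succ_top (by have := Finset.mem_range.1 hi; omega) r]
      ring
    rw [e]
    have h1 := mul_le_mul_of_nonneg_left ih (hr n).1
    nlinarith [(hr n).2, sq_nonneg (x n)]

theorem gain_backward (hr : ∀ i, 0 ≤ r i ∧ r i ≤ 1 - (7 / 16) * x i ^ 2) :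
    ∀ n, ∑ i ∈ range n, x i ^ 2 * ∏ j ∈ range i, r j ≤ 3 * (1 - ∏ i ∈ range n, r i) := by
  intro n
  induction n with
  | zero => simp
  | succ n ih =>
    rw [Finset.sum_range_succ, Finset.prod_range_succ]
    have h1 : x n ^ 2 ≤ 3 * (1 - r n) := by nlinarith [(hr n).2, sq_nonneg (x n)]
    have h2 := mul_le_mul_of_nonneg_right h1
      (Finset.prod_nonneg (s := range n) fun i _ => (hr i).1)
    nlinarith

/-- A product of retention factors is `ℓ²`-Lipschitz in the messages. -/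
theorem prod_r2_lip (h0 : 0 ≤ t) (h1 : t ≤ 9 / 16) (g0 : 0 ≤ t') (g1 : t' ≤ 9 / 16)
    (hx : ∀ i, |x i| ≤ 1) (hx' : ∀ i, |x' i| ≤ 1) (n : ℕ) :
    (∏ i ∈ range n, r2 t (x i) - ∏ i ∈ range n, r2 t' (x' i)) ^ 2 ≤
      1000 * (∑ i ∈ range n, (x i - x' i) ^ 2 + |t - t'| ^ 2) := by
  set r := fun i => r2 t (x i)
  set r' := fun i => r2 t' (x' i)
  have hr : ∀ i, 0 ≤ r i ∧ r i ≤ 1 - (7 / 16) * x i ^ 2 := fun i => r2_mem h0 h1 (hx i)
  have hr' : ∀ i, 0 ≤ r' i ∧ r' i ≤ 1 - (7 / 16) * x' i ^ 2 := fun i => r2_mem g0 g1 (hx' i)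
  have hr1 : ∀ i, 0 ≤ r i ∧ r i ≤ 1 := fun i =>
    ⟨(hr i).1, (hr i).2.trans (by nlinarith [sq_nonneg (x i)])⟩
  have hr1' : ∀ i, 0 ≤ r' i ∧ r' i ≤ 1 := fun i =>
    ⟨(hr' i).1, (hr' i).2.trans (by nlinarith [sq_nonneg (x' i)])⟩
  set F := fun i => ∏ j ∈ range i, r' j
  set B := fun i => ∏ j ∈ Ico (i + 1) n, r j
  have hF : ∀ i, 0 ≤ F i ∧ F i ≤ 1 := fun i => prod_mem hr1' _
  have hB : ∀ i, 0 ≤ B i ∧ B i ≤ 1 := fun i => prod_mem hr1 _
  set s1 := ∑ i ∈ range n, |x i| * B i * |x i - x' i|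
  set s2 := ∑ i ∈ range n, |x' i| * F i * |x i - x' i|
  set s3 := ∑ i ∈ range n, x' i ^ 2 * F i
  have hs : |∏ i ∈ range n, r i - ∏ i ∈ range n, r' i| ≤ 6 * s1 + 6 * s2 + 6 * |t - t'| * s3 := by
    refine (prod_telescope (fun i => (hr i).1) (fun i => (hr' i).1) n).trans ?_
    simp only [s1, s2, s3, Finset.mul_sum, ← Finset.sum_add_distrib]
    refine Finset.sum_le_sum fun i _ => ?_
    show |r i - r' i| * (F i * B i) ≤ _
    have h3 : |r i - r' i| ≤ 6 * ((|x i| + |x' i|) * |x i - x' i|) + 6 * x' i ^ 2 * |t - t'| :=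
      (r2_lip h0 h1 g0 g1 (hx i) (hx' i)).trans (by linarith [abs_sq_sub_le (x i) (x' i)])
    have hFB : 0 ≤ F i * B i := mul_nonneg (hF i).1 (hB i).1
    refine (mul_le_mul_of_nonneg_right h3 hFB).trans ?_
    have b1 : F i * B i ≤ B i := mul_le_of_le_one_left (hB i).1 (hF i).2
    have b2 : F i * B i ≤ F i := mul_le_of_le_one_right (hF i).1 (hB i).2
    have c1 := mul_le_mul_of_nonneg_left b1 (mul_nonneg (abs_nonneg (x i)) (abs_nonneg (x i - x' i)))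
    have c2 := mul_le_mul_of_nonneg_left b2 (mul_nonneg (abs_nonneg (x' i)) (abs_nonneg (x i - x' i)))
    have c3 := mul_le_mul_of_nonneg_left b2 (mul_nonneg (sq_nonneg (x' i)) (abs_nonneg (t - t')))
    nlinarith
  have g1' : s1 ^ 2 ≤ 3 * ∑ i ∈ range n, (x i - x' i) ^ 2 := by
    refine (Finset.sum_mul_sq_le_sq_mul_sq (range n) (fun i => |x i| * B i)
      fun i => |x i - x' i|).trans ?_
    simp only [sq_abs, mul_pow]
    refine mul_le_mul_of_nonneg_right ?_ (Finset.sum_nonneg fun i _ => sq_nonneg _)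
    refine le_trans (Finset.sum_le_sum fun i _ => mul_le_mul_of_nonneg_left
      (pow_le_of_le_one (hB i).1 (hB i).2 two_ne_zero) (sq_nonneg _)) ((gain_forward hr n).trans ?_)
    linarith [(prod_mem hr1 (range n)).1]
  have g2' : s2 ^ 2 ≤ 3 * ∑ i ∈ range n, (x i - x' i) ^ 2 := by
    refine (Finset.sum_mul_sq_le_sq_mul_sq (range n) (fun i => |x' i| * F i)
      fun i => |x i - x' i|).trans ?_
    simp only [sq_abs, mul_pow]
    refine mul_le_mul_of_nonneg_right ?_ (Finset.sum_nonneg fun i _ => sq_nonneg _)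
    refine le_trans (Finset.sum_le_sum fun i _ => mul_le_mul_of_nonneg_left
      (pow_le_of_le_one (hF i).1 (hF i).2 two_ne_zero) (sq_nonneg _)) ((gain_backward hr' n).trans ?_)
    linarith [(prod_mem hr1' (range n)).1]
  have g3' : s3 ≤ 3 := (gain_backward hr' n).trans (by linarith [(prod_mem hr1' (range n)).1])
  have s3nn : 0 ≤ s3 := Finset.sum_nonneg fun i _ => mul_nonneg (sq_nonneg _) (hF i).1
  have h5 := pow_le_pow_left₀ (abs_nonneg _) hs 2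
  rw [sq_abs] at h5
  refine h5.trans ?_
  have h6 : (|t - t'| * s3) ^ 2 ≤ |t - t'| ^ 2 * 9 := by
    rw [mul_pow]; exact mul_le_mul_of_nonneg_left (by nlinarith) (sq_nonneg _)
  have hsum : 0 ≤ ∑ i ∈ range n, (x i - x' i) ^ 2 := Finset.sum_nonneg fun i _ => sq_nonneg _
  nlinarith [sq_nonneg (s1 - s2), sq_nonneg (s1 - |t - t'| * s3), sq_nonneg (s2 - |t - t'| * s3),
    sq_nonneg (|t - t'|)]

/-! ## The part of a retention factor beyond first order -/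

/-- The factor `√(rc) * exp (κ u / 2)`, with `κ = 1 - 1 / Q`. -/
def hh (Q : ℕ) (x : ℝ) : ℝ := √(rc Q x) * exp ((1 - 1 / (Q : ℝ)) * x ^ 2 / 2)

theorem hh_mem {Q : ℕ} (hQ : 2 ≤ Q) {x : ℝ} (hx : |x| ≤ 1) : 0 ≤ hh Q x ∧ hh Q x ≤ 1 := by
  have hQr : (2 : ℝ) ≤ Q := by exact_mod_cast hQ
  have hr : rc Q x ≤ 1 - (1 - 1 / (Q : ℝ)) * x ^ 2 := by
    have h2 := sq_le_one' hx
    have hd : 0 < 1 - x ^ 2 / Q := by
      have : x ^ 2 / Q ≤ 1 / 2 := by rw [div_le_iff₀ (by linarith)]; linarith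
      linarith
    rw [rc, div_le_iff₀ hd]
    have hk : 0 ≤ 1 - 1 / (Q : ℝ) := by
      have : 1 / (Q : ℝ) ≤ 1 := by rw [div_le_one (by linarith)]; linarith
      linarith
    have e : x ^ 2 / Q = 1 / (Q : ℝ) * x ^ 2 := by ring
    rw [e]
    nlinarith [mul_nonneg (mul_nonneg hk (by positivity : (0 : ℝ) ≤ 1 / (Q : ℝ))) (sq_nonneg (x ^ 2))]
  refine ⟨mul_nonneg (Real.sqrt_nonneg _) (exp_pos _).le, ?_⟩
  calc hh Q x ≤ √(exp (-((1 - 1 / (Q : ℝ)) * x ^ 2))) * exp ((1 - 1 / (Q : ℝ)) * x ^ 2 / 2) := by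
        refine mul_le_mul_of_nonneg_right (Real.sqrt_le_sqrt (hr.trans ?_)) (exp_pos _).le
        linarith [add_one_le_exp (-((1 - 1 / (Q : ℝ)) * x ^ 2))]
    _ = 1 := by
        rw [← Real.exp_half, ← Real.exp_add]
        simp
        ring

theorem log_one_sub_diff {u v : ℝ} (hu : 0 ≤ u) (hu1 : u ≤ 1 / 4) (hv : 0 ≤ v) (hv1 : v ≤ 1 / 4) :
    |log (1 - u) - log (1 - v) + (u - v)| ≤ 4 / 3 * (u + v) * |u - v| := by
  have a1 := Real.log_le_sub_one_of_pos (div_pos (by linarith : 0 < 1 - u) (by linarith : 0 < 1 - v))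
  have a2 := Real.log_le_sub_one_of_pos (div_pos (by linarith : 0 < 1 - v) (by linarith : 0 < 1 - u))
  rw [Real.log_div (by linarith) (by linarith)] at a1 a2
  have e1 : (1 - u) / (1 - v) - 1 + (u - v) = -(v * (u - v)) / (1 - v) := by
    rw [div_sub_one (by linarith : (1 : ℝ) - v ≠ 0), div_add' _ _ _ (by linarith : (1 : ℝ) - v ≠ 0)]
    congr 1; ring
  have e2 : (1 - v) / (1 - u) - 1 - (u - v) = (u * (u - v)) / (1 - u) := by
    rw [div_sub_one (by linarith : (1 : ℝ) - u ≠ 0), div_sub' (by linarith : (1 : ℝ) - u ≠ 0)]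
    congr 1; ring
  have b : ∀ w : ℝ, 0 ≤ w → w ≤ 1 / 4 → |w * (u - v)| / (1 - w) ≤ 4 / 3 * w * |u - v| := by
    intro w hw hw1
    rw [abs_mul, abs_of_nonneg hw, div_le_iff₀ (by linarith)]
    nlinarith [mul_nonneg (mul_nonneg hw (abs_nonneg (u - v))) (by linarith : (0 : ℝ) ≤ 1 / 4 - w)]
  have b1 := b v hv hv1
  have b2 := b u hu hu1
  have c1 : -(v * (u - v)) / (1 - v) ≤ |v * (u - v)| / (1 - v) :=
    div_le_div_of_nonneg_right (neg_le_abs _) (by linarith)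
  have c2 : u * (u - v) / (1 - u) ≤ |u * (u - v)| / (1 - u) :=
    div_le_div_of_nonneg_right (le_abs_self _) (by linarith)
  have d1 : 0 ≤ 4 / 3 * u * |u - v| := by positivity
  have d2 : 0 ≤ 4 / 3 * v * |u - v| := by positivity
  rw [abs_le]
  constructor <;> nlinarith

theorem hh_lip {Q : ℕ} (hQ : 2 ≤ Q) {x y : ℝ} (hx : x ^ 2 ≤ 1 / 4) (hy : y ^ 2 ≤ 1 / 4) :
    |hh Q x - hh Q y| ≤ 2 * (x ^ 2 + y ^ 2) * |x ^ 2 - y ^ 2| := by
  have hQr : (2 : ℝ) ≤ Q := by exact_mod_cast hQ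
  set k := 1 / (Q : ℝ) with hk
  have hk0 : 0 ≤ k := by positivity
  have hk1 : k ≤ 1 / 2 := by rw [hk]; exact div_le_div_of_nonneg_left one_pos.le two_pos hQr
  set E := fun z : ℝ => (log (1 - z ^ 2) - log (1 - k * z ^ 2) + (1 - k) * z ^ 2) / 2 with hE
  have he : ∀ z : ℝ, z ^ 2 ≤ 1 / 4 → hh Q z = exp (E z) := by
    intro z hz
    have p1 : 0 < 1 - z ^ 2 := by linarith
    have p2 : 0 < 1 - k * z ^ 2 := by nlinarith [sq_nonneg z]
    rw [hh, rc_eq_r2, r2, ← hk, ← exp_log (div_pos p1 p2), ← Real.exp_half, ← Real.exp_add,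
      Real.log_div p1.ne' p2.ne', hE]
    congr 1
    ring
  have hEle : ∀ z : ℝ, z ^ 2 ≤ 1 / 4 → E z ≤ 0 := fun z hz => by
    have := (hh_mem hQ (x := z) (by nlinarith [sq_abs z, abs_nonneg z])).2
    rw [he z hz] at this
    exact Real.exp_le_one_iff.1 this
  have hlip : ∀ p q : ℝ, q ≤ 0 → p ≤ q → exp q - exp p ≤ q - p := by
    intro p q hq hpq
    have h1 : exp q - exp p = exp q * (1 - exp (p - q)) := by
      rw [mul_sub, ← Real.exp_add]; simp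
    rw [h1]
    calc exp q * (1 - exp (p - q)) ≤ 1 * (1 - exp (p - q)) :=
          mul_le_mul_of_nonneg_right (Real.exp_le_one_iff.2 hq)
            (by linarith [Real.exp_le_one_iff.2 (sub_nonpos.2 hpq)])
      _ ≤ q - p := by linarith [add_one_le_exp (p - q)]
  rw [he x hx, he y hy]
  have h3 : |exp (E x) - exp (E y)| ≤ |E x - E y| := by
    rcases le_total (E x) (E y) with h | h
    · rw [abs_sub_comm, abs_of_nonneg (sub_nonneg.2 (exp_le_exp.2 h)), abs_sub_comm (E x),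
        abs_of_nonneg (sub_nonneg.2 h)]
      exact hlip _ _ (hEle y hy) h
    · rw [abs_of_nonneg (sub_nonneg.2 (exp_le_exp.2 h)), abs_of_nonneg (sub_nonneg.2 h)]
      exact hlip _ _ (hEle x hx) h
  refine h3.trans ?_
  set u := x ^ 2
  set v := y ^ 2
  have hu : 0 ≤ u := sq_nonneg x
  have hv : 0 ≤ v := sq_nonneg y
  have l1 := log_one_sub_diff hu hx hv hy
  have l2 := log_one_sub_diff (mul_nonneg hk0 hu) (by nlinarith) (mul_nonneg hk0 hv) (by nlinarith)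
  have l3 : 4 / 3 * (k * u + k * v) * |k * u - k * v| ≤ 4 / 3 * (u + v) * |u - v| := by
    rw [← mul_sub k, abs_mul, abs_of_nonneg hk0]
    have h4 : k * k ≤ 1 := by nlinarith
    have h5 : 0 ≤ 4 / 3 * (u + v) * |u - v| := by positivity
    nlinarith
  have eE : E x - E y = ((log (1 - u) - log (1 - v) + (u - v)) -
      (log (1 - k * u) - log (1 - k * v) + (k * u - k * v))) / 2 := by
    simp only [hE, u, v]; ring
  rw [eE, abs_div, abs_two, div_le_iff₀ two_pos]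
  refine (abs_sub _ _).trans ?_
  have h6 : 0 ≤ (u + v) * |u - v| := by positivity
  nlinarith

end Vale.Agent.P161
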