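import Vale.Agent.P161.Construct
import Vale.Agent.P161.Crit.PathIso
import Vale.Agent.P161.Crit.Real
import Mathlib.Algebra.Order.Chebyshev

/-!
# Differences of covariances of two systems on the same path
-/

open Finset Real
open scoped Classical

noncomputable section

namespace Vale.Agent.P161

variable {V : Type*} {G : SimpleGraph V} {d : ℕ} {θ θ' : ℝ}

/-- The message along the `i`-th step from `o` to `w`. -/
def fwd (G : SimpleGraph V) (θ : ℝ) (D : Finset V) (h : V → ℝ) (o w : V) (i : ℕ) : ℝ :=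
  mu G θ D h (geo G o w i) (geo G o w (i + 1))

/-- The message against the `i`-th step from `o` to `w`. -/
def bwd (G : SimpleGraph V) (θ : ℝ) (D : Finset V) (h : V → ℝ) (o w : V) (i : ℕ) : ℝ :=
  mu G θ D h (geo G o w (i + 1)) (geo G o w i)

/-- The magnetization at the `i`-th point from `o` to `w`. -/
def mgp (G : SimpleGraph V) (θ : ℝ) (D : Finset V) (h : V → ℝ) (o w : V) (i : ℕ) : ℝ :=
  mag G θ D h (geo G o w i)

/-- The geodesic from `o` to `w` lies in `D`. -/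
def OnPath (G : SimpleGraph V) (D : Finset V) (o w : V) : Prop :=
  ∀ i, i ≤ G.dist o w → geo G o w i ∈ D

/-- Large values, measured on the scale `lam`. -/
def big (lam : ℝ) (q : ℕ) (x y : ℝ) : ℝ := (|x| / lam) ^ q + (|y| / lam) ^ q

theorem big_nonneg {lam : ℝ} (hl : 0 ≤ lam) (q : ℕ) (x y : ℝ) : 0 ≤ big lam q x y := by
  unfold big; positivity

theorem one_le_big {lam : ℝ} (hl : 0 < lam) (q : ℕ) {x y : ℝ} (h : lam < |x| ∨ lam < |y|) :
    1 ≤ big lam q x y := by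
  rcases h with h | h
  · exact le_add_of_le_of_nonneg (one_le_pow₀ ((one_le_div hl).2 h.le)) (by positivity)
  · exact le_add_of_nonneg_of_le (by positivity) (one_le_pow₀ ((one_le_div hl).2 h.le))

theorem sq_le_inv {Q : ℕ} (hQ : 2 ≤ Q) (hl : (Q : ℝ) * θ ^ 2 ≤ 1) : θ ^ 2 ≤ 1 / (Q : ℝ) := by
  have : (0 : ℝ) < Q := by exact_mod_cast (by omega : 0 < Q)
  rw [le_div_iff₀ this]; linarith

theorem inv_le_916 {Q : ℕ} (hQ : 2 ≤ Q) : 1 / (Q : ℝ) ≤ 9 / 16 :=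
  (div_le_div_of_nonneg_left one_pos.le two_pos (by exact_mod_cast hQ)).trans (by norm_num)

theorem Q_two (hT : RTree G d) : 2 ≤ d - 1 := by have := hT.three; omega

theorem rt_mem {Q : ℕ} (hQ : 2 ≤ Q) (hl : (Q : ℝ) * θ ^ 2 ≤ 1) {x : ℝ} (hx : |x| ≤ 1) :
    0 ≤ rt θ x ∧ rt θ x ≤ rc Q x ∧ rc Q x ≤ 1 := by
  have h1 := sq_le_inv hQ hl
  have h2 := inv_le_916 hQ
  refine ⟨(r2_mem (sq_nonneg θ) (h1.trans h2) hx).1, ?_, ?_⟩
  · rw [rt_eq_r2, rc_eq_r2]; exact r2_mono (sq_nonneg θ) h1 h2 hx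
  · exact (rc_mem hQ hx).2.trans (by linarith [sq_nonneg x])

theorem pow_diff_sq {Q : ℕ} (hQ : 2 ≤ Q) (h0 : 0 ≤ θ) (hl : (Q : ℝ) * θ ^ 2 ≤ 1) (g0 : 0 ≤ θ')
    (gl : (Q : ℝ) * θ' ^ 2 ≤ 1) : ∀ n : ℕ,
    (θ ^ n - θ' ^ n) ^ 2 ≤ (Q : ℝ) * n ^ 2 * (θ - θ') ^ 2 * (1 / (Q : ℝ)) ^ n := by
  intro n
  have hQ0 : (0 : ℝ) < Q := by exact_mod_cast (by omega : 0 < Q)
  rcases n with - | m
  · simp
  set c := √(1 / (Q : ℝ)) with hc
  have hc0 : 0 ≤ c := Real.sqrt_nonneg _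
  have a1 : θ ≤ c := (Real.le_sqrt h0 (by positivity)).2 (sq_le_inv hQ hl)
  have a2 : θ' ≤ c := (Real.le_sqrt g0 (by positivity)).2 (sq_le_inv hQ gl)
  have key : ∀ k : ℕ, |θ ^ (k + 1) - θ' ^ (k + 1)| ≤ (k + 1) * c ^ k * |θ - θ'| := by
    intro k
    induction k with
    | zero => simp
    | succ k ih =>
      calc |θ ^ (k + 1 + 1) - θ' ^ (k + 1 + 1)|
          = |θ * (θ ^ (k + 1) - θ' ^ (k + 1)) + (θ - θ') * θ' ^ (k + 1)| := by congr 1; ring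
        _ ≤ |θ * (θ ^ (k + 1) - θ' ^ (k + 1))| + |(θ - θ') * θ' ^ (k + 1)| := abs_add_le _ _
        _ ≤ c * ((k + 1) * c ^ k * |θ - θ'|) + |θ - θ'| * c ^ (k + 1) := by
            rw [abs_mul, abs_mul, abs_of_nonneg h0, abs_of_nonneg (pow_nonneg g0 (k + 1))]
            exact add_le_add (mul_le_mul a1 ih (abs_nonneg _) hc0)
              (mul_le_mul_of_nonneg_left (pow_le_pow_left₀ g0 a2 _) (abs_nonneg _))
        _ = _ := by push_cast; ring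
  have h := pow_le_pow_left₀ (abs_nonneg _) (key m) 2
  rw [sq_abs] at h
  refine h.trans (le_of_eq ?_)
  rw [mul_pow, mul_pow, sq_abs, ← pow_mul, mul_comm m 2, pow_mul, hc, Real.sq_sqrt (by positivity),
    pow_succ (1 / (Q : ℝ))]
  push_cast
  field_simp

section path

variable {D D' : Finset V} {o w : V} {h h' : V → ℝ}

theorem cv_split (hT : RTree G d) (h0 : 0 ≤ θ) (h1 : θ < 1) (hD : Conn G D) (hp : OnPath G D o w)
    (h : V → ℝ) {p : ℕ} (hpn : p ≤ G.dist o w) :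
    cv G θ D h o w = θ ^ G.dist o w * ((1 - mgp G θ D h o w p ^ 2) *
      ((∏ i ∈ range p, rt θ (bwd G θ D h o w i)) *
        ∏ i ∈ range (G.dist o w - p), rt θ (fwd G θ D h o w (p + i)))) := by
  set n := G.dist o w with hn
  set x := fun i => geo G o w i with hx
  have hd : ∀ i j, i ≤ j → j ≤ n → G.dist (x i) (x j) = j - i := fun i j hij hj => geo_dist hT hij hj
  have hadj : ∀ i, i < n → G.Adj (x i) (x (i + 1)) := fun i hi => geo_adj hT hi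
  have e0 : x 0 = o := geo_zero hT o w
  have en : x n = w := geo_end hT o w
  have C1 := cv_path hT h0 h1 h n hD x hp hadj
    (fun i hi => by rw [hd 0 i (by omega) hi]; omega)
  have C2 := cv_path hT h0 h1 h p hD x (fun i hi => hp i (by omega)) (fun i hi => hadj i (by omega))
    (fun i hi => by rw [hd 0 i (by omega) (by omega)]; omega)
  have C3 := cv_path hT h0 h1 h p hD (fun i => x (p - i)) (fun i _ => hp _ (by omega))
    (fun i hi => by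
      have := (hadj (p - (i + 1)) (by omega)).symm
      rwa [show p - (i + 1) + 1 = p - i by omega] at this)
    (fun i hi => by
      show G.dist (x (p - 0)) (x (p - i)) = i
      rw [SimpleGraph.dist_comm, Nat.sub_zero, hd (p - i) p (by omega) (by omega)]
      omega)
  simp only [Nat.sub_zero, Nat.sub_self] at C3
  rw [cv_comm, C2] at C3
  have hrefl : ∏ i ∈ range p, rt θ (mu G θ D h (x (p - i)) (x (p - (i + 1)))) =
      ∏ i ∈ range p, rt θ (bwd G θ D h o w i) := by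
    rw [← Finset.prod_range_reflect (fun i => rt θ (bwd G θ D h o w i)) p]
    refine Finset.prod_congr rfl fun i hi => ?_
    rw [Finset.mem_range] at hi
    simp only [bwd, hx]
    rw [show p - 1 - i + 1 = p - i by omega, show p - 1 - i = p - (i + 1) by omega]
  rw [hrefl] at C3
  have hsplit : ∏ i ∈ range n, rt θ (mu G θ D h (x i) (x (i + 1))) =
      (∏ i ∈ range p, rt θ (mu G θ D h (x i) (x (i + 1)))) *
        ∏ i ∈ range (n - p), rt θ (fwd G θ D h o w (p + i)) := by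
    conv_lhs => rw [show n = p + (n - p) by omega]
    rw [Finset.prod_range_add]
    rfl
  rw [en, e0] at C1
  rw [e0] at C3
  rw [C1, hsplit, show θ ^ n = θ ^ (n - p) * θ ^ p by rw [← pow_add]; congr 1; omega]
  rw [show mgp G θ D h o w p = mag G θ D h (x p) from rfl]
  linear_combination (θ ^ (n - p) * ∏ i ∈ range (n - p), rt θ (fwd G θ D h o w (p + i))) * C3

theorem cv_sq (hT : RTree G d) (h0 : 0 ≤ θ) (h1 : θ < 1) (hD : Conn G D) (hp : OnPath G D o w)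
    (h : V → ℝ) :
    cv G θ D h o w ^ 2 = (θ ^ G.dist o w) ^ 2 * ((1 - mgp G θ D h o w 0 ^ 2) *
      (1 - mgp G θ D h o w (G.dist o w) ^ 2) *
      ∏ i ∈ range (G.dist o w), (rt θ (fwd G θ D h o w i) * rt θ (bwd G θ D h o w i))) := by
  have a := cv_split hT h0 h1 hD hp h (Nat.zero_le (G.dist o w))
  have b := cv_split hT h0 h1 hD hp h (le_refl (G.dist o w))
  simp only [Finset.prod_range_zero, one_mul, Nat.sub_zero, zero_add] at a
  simp only [Nat.sub_self, Finset.prod_range_zero, mul_one] at b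
  rw [sq]
  nth_rewrite 1 [a]
  rw [b, Finset.prod_mul_distrib]
  ring

theorem mgp_edge (hT : RTree G d) (h0 : 0 ≤ θ) (h1 : θ < 1) (hp : OnPath G D o w) (h : V → ℝ)
    {i : ℕ} (hi : i < G.dist o w) :
    mgp G θ D h o w (i + 1) = eMag θ (fwd G θ D h o w i) (bwd G θ D h o w i) ∧
      mgp G θ D h o w i = eMag θ (bwd G θ D h o w i) (fwd G θ D h o w i) := by
  constructor
  · exact mag_edge hT h0 h1 (geo_adj hT hi) (hp i (by omega)) (hp (i + 1) (by omega)) h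
  · exact mag_edge hT h0 h1 (geo_adj hT hi).symm (hp (i + 1) (by omega)) (hp i (by omega)) h

/-- The constant of `delta_edge`. -/
def K0 : ℝ := 2000000

theorem delta_edge (hT : RTree G d) (h0 : 0 ≤ θ) (h1 : θ ≤ 3 / 4) (g0 : 0 ≤ θ') (g1 : θ' ≤ 3 / 4)
    (hp : OnPath G D o w) (hp' : OnPath G D' o w) (h h' : V → ℝ) {i : ℕ} (hi : i < G.dist o w) :
    (fwd G θ D h o w i - fwd G θ' D' h' o w i) ^ 2 ≤
        K0 * ((mgp G θ D h o w i - mgp G θ' D' h' o w i) ^ 2 +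
          (mgp G θ D h o w (i + 1) - mgp G θ' D' h' o w (i + 1)) ^ 2 + (θ - θ') ^ 2) ∧
      (bwd G θ D h o w i - bwd G θ' D' h' o w i) ^ 2 ≤
        K0 * ((mgp G θ D h o w i - mgp G θ' D' h' o w i) ^ 2 +
          (mgp G θ D h o w (i + 1) - mgp G θ' D' h' o w (i + 1)) ^ 2 + (θ - θ') ^ 2) := by
  have l1 : θ < 1 := by linarith
  have l2 : θ' < 1 := by linarith
  obtain ⟨e1, e2⟩ := mgp_edge hT h0 l1 hp h hi
  obtain ⟨f1, f2⟩ := mgp_edge hT g0 l2 hp' h' hi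
  have bf : ∀ (θ : ℝ) (D : Finset V) (h : V → ℝ), 0 ≤ θ → θ < 1 →
      |fwd G θ D h o w i| ≤ 1 ∧ |bwd G θ D h o w i| ≤ 1 := fun θ D h a b =>
    ⟨abs_mu_le a b _ _ _ _, abs_mu_le a b _ _ _ _⟩
  have key : ∀ a b c : ℝ, (24 * (|a| + |b| + 32 * |c|)) ^ 2 ≤ K0 * (a ^ 2 + b ^ 2 + c ^ 2) := by
    intro a b c
    have h3 : (|a| + |b| + 32 * |c|) ^ 2 ≤ 3 * (a ^ 2 + b ^ 2 + 1024 * c ^ 2) := by
      nlinarith [sq_nonneg (|a| - |b|), sq_nonneg (|a| - 32 * |c|), sq_nonneg (|b| - 32 * |c|),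
        sq_abs a, sq_abs b, sq_abs c]
    rw [K0, mul_pow]
    nlinarith [sq_nonneg a, sq_nonneg b, sq_nonneg c]
  constructor
  · have := inv_lip h0 h1 g0 g1 (bf θ D h h0 l1).1 (bf θ D h h0 l1).2 (bf θ' D' h' g0 l2).1
      (bf θ' D' h' g0 l2).2
    rw [← e1, ← e2, ← f1, ← f2] at this
    have h2 := pow_le_pow_left₀ (abs_nonneg _) this 2
    rw [sq_abs] at h2
    exact h2.trans ((key _ _ _).trans (le_of_eq (by ring)))
  · have := inv_lip h0 h1 g0 g1 (bf θ D h h0 l1).2 (bf θ D h h0 l1).1 (bf θ' D' h' g0 l2).2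
      (bf θ' D' h' g0 l2).1
    rw [← e1, ← e2, ← f1, ← f2] at this
    have h2 := pow_le_pow_left₀ (abs_nonneg _) this 2
    rw [sq_abs] at h2
    exact h2.trans (key _ _ _)

theorem mu_bd (h0 : 0 ≤ θ) (h1 : θ < 1) (D : Finset V) (h : V → ℝ) (o w : V) (i : ℕ) :
    |fwd G θ D h o w i| ≤ 1 ∧ |bwd G θ D h o w i| ≤ 1 :=
  ⟨abs_mu_le h0 h1 _ _ _ _, abs_mu_le h0 h1 _ _ _ _⟩

theorem sum_shift_le (f : ℕ → ℝ) (hf : ∀ i, 0 ≤ f i) (p : ℕ) :
    ∑ i ∈ range p, f i ≤ ∑ i ∈ range (p + 1), f i ∧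
      ∑ i ∈ range p, f (i + 1) ≤ ∑ i ∈ range (p + 1), f i :=
  ⟨Finset.sum_le_sum_of_subset_of_nonneg (Finset.range_subset_range.2 (by omega)) fun i _ _ => hf i,
    by rw [Finset.sum_range_succ' f p]; exact le_add_of_nonneg_right (hf 0)⟩

theorem lip_combine {X S C e N : ℝ} {p : ℕ} {T : ℝ} (hX : X ≤ K0 * (2 * S + p * e ^ 2))
    (hT : T ≤ 4 * e ^ 2) (hp : (p : ℝ) ≤ N) (hN : 1 ≤ N) (hC : C ≤ 1000 * (X + T)) (hS : 0 ≤ S) :
    C ≤ 1000 * (2 * K0 + 4) * (S + N * e ^ 2) := by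
  have a := mul_le_mul_of_nonneg_right hp (sq_nonneg e)
  have b := le_mul_of_one_le_left (sq_nonneg e) hN
  have c : 0 ≤ N * e ^ 2 := mul_nonneg (by linarith) (sq_nonneg e)
  have hK : K0 = 2000000 := rfl
  rw [hK] at hX ⊢
  linarith

theorem t_sq_le {Q : ℕ} (hQ : 2 ≤ Q) (h0 : 0 ≤ θ) (g0 : 0 ≤ θ') (hl : (Q : ℝ) * θ ^ 2 ≤ 1)
    (gl : (Q : ℝ) * θ' ^ 2 ≤ 1) : |θ ^ 2 - θ' ^ 2| ^ 2 ≤ 4 * (θ - θ') ^ 2 := by
  have h34 := theta_le hQ h0 hl
  have g34 := theta_le hQ g0 gl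
  rw [sq_abs, show θ ^ 2 - θ' ^ 2 = (θ + θ') * (θ - θ') by ring, mul_pow]
  refine mul_le_mul_of_nonneg_right ?_ (sq_nonneg _)
  exact (pow_le_pow_left₀ (by linarith) (show θ + θ' ≤ 2 by linarith) 2).trans (le_of_eq (by norm_num))

theorem delta_back (hT : RTree G d) (h0 : 0 ≤ θ) (g0 : 0 ≤ θ')
    (hl : ((d - 1 : ℕ) : ℝ) * θ ^ 2 ≤ 1) (gl : ((d - 1 : ℕ) : ℝ) * θ' ^ 2 ≤ 1)
    (hp : OnPath G D o w) (hp' : OnPath G D' o w) (h h' : V → ℝ) {p : ℕ} (hpn : p ≤ G.dist o w) :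
    (∏ i ∈ range p, rt θ (bwd G θ D h o w i) - ∏ i ∈ range p, rt θ' (bwd G θ' D' h' o w i)) ^ 2 ≤
      1000 * (2 * K0 + 4) *
        (∑ i ∈ range (p + 1), (mgp G θ D h o w i - mgp G θ' D' h' o w i) ^ 2 +
          ((G.dist o w : ℝ) + 1) ^ 2 * (θ - θ') ^ 2) := by
  have hQ := Q_two hT
  have h34 := theta_le hQ h0 hl
  have g34 := theta_le hQ g0 gl
  refine lip_combine (X := ∑ i ∈ range p, (bwd G θ D h o w i - bwd G θ' D' h' o w i) ^ 2) (p := p)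
    ?_ (t_sq_le hQ h0 g0 hl gl) ?_ (one_le_pow₀ (le_add_of_nonneg_left (Nat.cast_nonneg _)))
    (prod_r2_lip (x := fun i => bwd G θ D h o w i) (x' := fun i => bwd G θ' D' h' o w i)
      (sq_nonneg θ) ((sq_le_inv hQ hl).trans (inv_le_916 hQ)) (sq_nonneg θ')
      ((sq_le_inv hQ gl).trans (inv_le_916 hQ)) (fun i => (mu_bd h0 (by linarith) D h o w i).2)
      (fun i => (mu_bd g0 (by linarith) D' h' o w i).2) p)
    (Finset.sum_nonneg fun i _ => sq_nonneg _)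
  · refine (Finset.sum_le_sum fun i hi => (delta_edge hT h0 h34 g0 g34 hp hp' h h'
      (show i < G.dist o w by have := Finset.mem_range.1 hi; omega)).2).trans ?_
    rw [← Finset.mul_sum, Finset.sum_add_distrib, Finset.sum_add_distrib, Finset.sum_const,
      Finset.card_range, nsmul_eq_mul, two_mul]
    have hs := sum_shift_le (fun i => (mgp G θ D h o w i - mgp G θ' D' h' o w i) ^ 2)
      (fun i => sq_nonneg _) p
    exact mul_le_mul_of_nonneg_left (add_le_add (add_le_add hs.1 hs.2) le_rfl) (by norm_num [K0])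
  · have h2 : (p : ℝ) ≤ G.dist o w := by exact_mod_cast hpn
    nlinarith

theorem delta_fwd (hT : RTree G d) (h0 : 0 ≤ θ) (g0 : 0 ≤ θ')
    (hl : ((d - 1 : ℕ) : ℝ) * θ ^ 2 ≤ 1) (gl : ((d - 1 : ℕ) : ℝ) * θ' ^ 2 ≤ 1)
    (hp : OnPath G D o w) (hp' : OnPath G D' o w) (h h' : V → ℝ) {p : ℕ} (hpn : p ≤ G.dist o w) :
    (∏ i ∈ range (G.dist o w - p), rt θ (fwd G θ D h o w (p + i)) -
        ∏ i ∈ range (G.dist o w - p), rt θ' (fwd G θ' D' h' o w (p + i))) ^ 2 ≤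
      1000 * (2 * K0 + 4) *
        (∑ i ∈ range (G.dist o w - p + 1),
            (mgp G θ D h o w (p + i) - mgp G θ' D' h' o w (p + i)) ^ 2 +
          ((G.dist o w : ℝ) + 1) ^ 2 * (θ - θ') ^ 2) := by
  have hQ := Q_two hT
  have h34 := theta_le hQ h0 hl
  have g34 := theta_le hQ g0 gl
  refine lip_combine
    (X := ∑ i ∈ range (G.dist o w - p), (fwd G θ D h o w (p + i) - fwd G θ' D' h' o w (p + i)) ^ 2)
    (p := G.dist o w - p)
    ?_ (t_sq_le hQ h0 g0 hl gl) ?_ (one_le_pow₀ (le_add_of_nonneg_left (Nat.cast_nonneg _)))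
    (prod_r2_lip (x := fun i => fwd G θ D h o w (p + i)) (x' := fun i => fwd G θ' D' h' o w (p + i))
      (sq_nonneg θ) ((sq_le_inv hQ hl).trans (inv_le_916 hQ)) (sq_nonneg θ')
      ((sq_le_inv hQ gl).trans (inv_le_916 hQ)) (fun i => (mu_bd h0 (by linarith) D h o w _).1)
      (fun i => (mu_bd g0 (by linarith) D' h' o w _).1) (G.dist o w - p))
    (Finset.sum_nonneg fun i _ => sq_nonneg _)
  · refine (Finset.sum_le_sum fun i hi => (delta_edge hT h0 h34 g0 g34 hp hp' h h'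
      (show p + i < G.dist o w by have := Finset.mem_range.1 hi; omega)).1).trans ?_
    rw [← Finset.mul_sum, Finset.sum_add_distrib, Finset.sum_add_distrib, Finset.sum_const,
      Finset.card_range, nsmul_eq_mul, two_mul]
    have hs := sum_shift_le
      (fun i => (mgp G θ D h o w (p + i) - mgp G θ' D' h' o w (p + i)) ^ 2)
      (fun i => sq_nonneg _) (G.dist o w - p)
    exact mul_le_mul_of_nonneg_left (add_le_add (add_le_add hs.1 hs.2) le_rfl) (by norm_num [K0])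
  · have h2 : ((G.dist o w - p : ℕ) : ℝ) ≤ G.dist o w := by exact_mod_cast Nat.sub_le _ _
    nlinarith

theorem three_split {U U' A A' B B' Ac Bc SA SB L : ℝ} (hU' : 0 ≤ U' ∧ U' ≤ 1)
    (hA : 0 ≤ A ∧ A ≤ 1) (hA' : 0 ≤ A' ∧ A' ≤ 1) (hB : 0 ≤ B ∧ B ≤ 1) (hB' : 0 ≤ B' ∧ B' ≤ 1)
    (hAc : A' ≤ Ac) (hBc : B ≤ Bc)
    (dU : (U - U') ^ 2 ≤ 4 * SA) (dA : (A - A') ^ 2 ≤ L * SA) (dB : (B - B') ^ 2 ≤ L * SB) :
    (U * (A * B) - U' * (A' * B')) ^ 2 ≤ 3 * ((4 + L) * SA * Bc + L * SB * Ac) ∧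
      (U' * (A' * B')) ^ 2 ≤ Ac := by
  have hBB : B ^ 2 ≤ Bc := (pow_le_of_le_one hB.1 hB.2 two_ne_zero).trans hBc
  have hAA : A' ^ 2 ≤ Ac := (pow_le_of_le_one hA'.1 hA'.2 two_ne_zero).trans hAc
  have e1 : U * (A * B) - U' * (A' * B') =
      (U - U') * A * B + U' * (A - A') * B + U' * A' * (B - B') := by ring
  have h3 : ∀ a b c : ℝ, (a + b + c) ^ 2 ≤ 3 * (a ^ 2 + b ^ 2 + c ^ 2) := fun a b c => by
    nlinarith [sq_nonneg (a - b), sq_nonneg (a - c), sq_nonneg (b - c)]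
  constructor
  · rw [e1]
    refine (h3 _ _ _).trans ?_
    have q1 : ((U - U') * A * B) ^ 2 ≤ 4 * SA * Bc := by
      rw [mul_pow, mul_pow]
      exact mul_le_mul ((mul_le_of_le_one_right (sq_nonneg _) (pow_le_one₀ hA.1 hA.2)).trans dU) hBB
        (sq_nonneg _) (le_trans (sq_nonneg _) dU)
    have q2 : (U' * (A - A') * B) ^ 2 ≤ L * SA * Bc := by
      rw [mul_pow, mul_pow]
      exact mul_le_mul ((mul_le_of_le_one_left (sq_nonneg _) (pow_le_one₀ hU'.1 hU'.2)).trans dA) hBB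
        (sq_nonneg _) (le_trans (sq_nonneg _) dA)
    have q3 : (U' * A' * (B - B')) ^ 2 ≤ L * SB * Ac := by
      rw [mul_pow, mul_pow]
      calc U' ^ 2 * A' ^ 2 * (B - B') ^ 2 ≤ 1 * Ac * (L * SB) :=
            mul_le_mul (mul_le_mul (pow_le_one₀ hU'.1 hU'.2) hAA (sq_nonneg _) zero_le_one) dB
              (sq_nonneg _) (by linarith [hA'.1])
        _ = _ := by ring
    linarith
  · calc (U' * (A' * B')) ^ 2 ≤ (1 * (A' * 1)) ^ 2 :=
          pow_le_pow_left₀ (mul_nonneg hU'.1 (mul_nonneg hA'.1 hB'.1))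
            (mul_le_mul hU'.2 (mul_le_mul_of_nonneg_left hB'.2 hA'.1) (mul_nonneg hA'.1 hB'.1)
              zero_le_one) 2
      _ ≤ Ac := by rwa [one_mul, mul_one]

theorem cv_combine {a a' T T' P Q E SA SB Ac Bc : ℝ} (hQ : 2 ≤ Q) (ha : a ^ 2 ≤ P)
    (hda : (a - a') ^ 2 ≤ Q * E * P)
    (hT : (T - T') ^ 2 ≤ 3 * ((4 + 1000 * (2 * K0 + 4)) * (SA + E) * Bc +
      1000 * (2 * K0 + 4) * (SB + E) * Ac))
    (hT' : T' ^ 2 ≤ Ac) (hP : 0 ≤ P) (hE : 0 ≤ E) (hSA : 0 ≤ SA) (hSB : 0 ≤ SB) (hB : 0 ≤ Bc) :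
    (a * T - a' * T') ^ 2 ≤ 10 ^ 11 * Q * P * (SA * Bc + SB * Ac + E * (Bc + Ac)) := by
  have hA : 0 ≤ Ac := (sq_nonneg _).trans hT'
  have h1 : (a * T - a' * T') ^ 2 ≤ 2 * (a ^ 2 * (T - T') ^ 2) + 2 * ((a - a') ^ 2 * T' ^ 2) := by
    rw [show a * T - a' * T' = a * (T - T') + (a - a') * T' by ring, ← mul_pow, ← mul_pow]
    exact add_sq_le.trans (le_of_eq (by ring))
  have r1 := mul_le_mul ha hT (sq_nonneg _) hP
  have r2' := mul_le_mul hda hT' (sq_nonneg _) (by positivity)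
  have k1 := mul_le_mul_of_nonneg_right hQ (show 0 ≤ P * (SA * Bc) by positivity)
  have k2 := mul_le_mul_of_nonneg_right hQ (show 0 ≤ P * (SB * Ac) by positivity)
  have k3 := mul_le_mul_of_nonneg_right hQ (show 0 ≤ P * (E * Bc) by positivity)
  have k4 := mul_le_mul_of_nonneg_right hQ (show 0 ≤ P * (E * Ac) by positivity)
  simp only [K0] at r1
  norm_num at r1 ⊢
  linarith [show 0 ≤ P * (SA * Bc) by positivity, show 0 ≤ P * (SB * Ac) by positivity,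
    show 0 ≤ P * (E * Bc) by positivity, show 0 ≤ P * (E * Ac) by positivity,
    show 0 ≤ Q * (P * (E * Ac)) by positivity]

/-- The difference of two covariances, with the retention of the opposite half path. -/
theorem delta_cv (hT : RTree G d) (h0 : 0 ≤ θ) (g0 : 0 ≤ θ')
    (hl : ((d - 1 : ℕ) : ℝ) * θ ^ 2 ≤ 1) (gl : ((d - 1 : ℕ) : ℝ) * θ' ^ 2 ≤ 1)
    (hD : Conn G D) (hD' : Conn G D') (hp : OnPath G D o w) (hp' : OnPath G D' o w)
    (h h' : V → ℝ) {p : ℕ} (hpn : p ≤ G.dist o w) :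
    (cv G θ D h o w - cv G θ' D' h' o w) ^ 2 ≤
      10 ^ 11 * ((d - 1 : ℕ) : ℝ) * (1 / ((d - 1 : ℕ) : ℝ)) ^ G.dist o w *
        ((∑ i ∈ range (p + 1), (mgp G θ D h o w i - mgp G θ' D' h' o w i) ^ 2) *
            (∏ i ∈ range (G.dist o w - p), rc (d - 1) (fwd G θ D h o w (p + i))) +
          (∑ i ∈ range (G.dist o w - p + 1),
              (mgp G θ D h o w (p + i) - mgp G θ' D' h' o w (p + i)) ^ 2) *
            (∏ i ∈ range p, rc (d - 1) (bwd G θ' D' h' o w i)) +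
          ((G.dist o w : ℝ) + 1) ^ 2 * (θ - θ') ^ 2 *
            ((∏ i ∈ range (G.dist o w - p), rc (d - 1) (fwd G θ D h o w (p + i))) +
              ∏ i ∈ range p, rc (d - 1) (bwd G θ' D' h' o w i))) := by
  have hQ := Q_two hT
  have hQ2 : (2 : ℝ) ≤ ((d - 1 : ℕ) : ℝ) := by exact_mod_cast hQ
  have l1 : θ < 1 := by linarith [theta_le hQ h0 hl]
  have l2 : θ' < 1 := by linarith [theta_le hQ g0 gl]
  rw [cv_split hT h0 l1 hD hp h hpn, cv_split hT g0 l2 hD' hp' h' hpn]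
  have mA : ∀ i, 0 ≤ rt θ (bwd G θ D h o w i) ∧ rt θ (bwd G θ D h o w i) ≤ 1 := fun i =>
    have r := rt_mem hQ hl (mu_bd h0 l1 D h o w i).2; ⟨r.1, r.2.1.trans r.2.2⟩
  have mA' : ∀ i, 0 ≤ rt θ' (bwd G θ' D' h' o w i) ∧ rt θ' (bwd G θ' D' h' o w i) ≤ 1 := fun i =>
    have r := rt_mem hQ gl (mu_bd g0 l2 D' h' o w i).2; ⟨r.1, r.2.1.trans r.2.2⟩
  have mB : ∀ i, 0 ≤ rt θ (fwd G θ D h o w (p + i)) ∧ rt θ (fwd G θ D h o w (p + i)) ≤ 1 := fun i =>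
    have r := rt_mem hQ hl (mu_bd h0 l1 D h o w (p + i)).1; ⟨r.1, r.2.1.trans r.2.2⟩
  have mB' : ∀ i, 0 ≤ rt θ' (fwd G θ' D' h' o w (p + i)) ∧
      rt θ' (fwd G θ' D' h' o w (p + i)) ≤ 1 := fun i =>
    have r := rt_mem hQ gl (mu_bd g0 l2 D' h' o w (p + i)).1; ⟨r.1, r.2.1.trans r.2.2⟩
  have hm : mgp G θ D h o w p ^ 2 ≤ 1 := sq_le_one' (abs_mag_le h0 l1 _ _ _)
  have hm' : mgp G θ' D' h' o w p ^ 2 ≤ 1 := sq_le_one' (abs_mag_le g0 l2 _ _ _)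
  have hE : 0 ≤ ((G.dist o w : ℝ) + 1) ^ 2 * (θ - θ') ^ 2 := by positivity
  have dU : ((1 - mgp G θ D h o w p ^ 2) - (1 - mgp G θ' D' h' o w p ^ 2)) ^ 2 ≤
      4 * (∑ i ∈ range (p + 1), (mgp G θ D h o w i - mgp G θ' D' h' o w i) ^ 2 +
          ((G.dist o w : ℝ) + 1) ^ 2 * (θ - θ') ^ 2) := by
    have h1' : (mgp G θ D h o w p - mgp G θ' D' h' o w p) ^ 2 ≤
        ∑ i ∈ range (p + 1), (mgp G θ D h o w i - mgp G θ' D' h' o w i) ^ 2 :=
      Finset.single_le_sum (f := fun i => (mgp G θ D h o w i - mgp G θ' D' h' o w i) ^ 2)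
        (fun i _ => sq_nonneg _) (Finset.mem_range.2 (Nat.lt_succ_self p))
    have h2 : (mgp G θ D h o w p + mgp G θ' D' h' o w p) ^ 2 ≤ 4 :=
      add_sq_le.trans (by linarith)
    calc _ = (mgp G θ D h o w p + mgp G θ' D' h' o w p) ^ 2 *
          (mgp G θ D h o w p - mgp G θ' D' h' o w p) ^ 2 := by ring
      _ ≤ _ := mul_le_mul h2 (h1'.trans (le_add_of_nonneg_right hE)) (sq_nonneg _) (by norm_num)
  obtain ⟨hTT, hT'⟩ := three_split (U := 1 - mgp G θ D h o w p ^ 2)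
    (U' := 1 - mgp G θ' D' h' o w p ^ 2)
    ⟨by linarith, by linarith [sq_nonneg (mgp G θ' D' h' o w p)]⟩
    (prod_mem mA (range p)) (prod_mem mA' (range p)) (prod_mem mB (range (G.dist o w - p)))
    (prod_mem mB' (range (G.dist o w - p)))
    (Ac := ∏ i ∈ range p, rc (d - 1) (bwd G θ' D' h' o w i))
    (Bc := ∏ i ∈ range (G.dist o w - p), rc (d - 1) (fwd G θ D h o w (p + i)))
    (Finset.prod_le_prod (fun i _ => (mA' i).1) fun i _ => (rt_mem hQ gl (mu_bd g0 l2 D' h' o w i).2).2.1)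
    (Finset.prod_le_prod (fun i _ => (mB i).1) fun i _ => (rt_mem hQ hl (mu_bd h0 l1 D h o w _).1).2.1)
    dU (delta_back hT h0 g0 hl gl hp hp' h h' hpn) (delta_fwd hT h0 g0 hl gl hp hp' h h' hpn)
  have hpow : (θ ^ G.dist o w) ^ 2 ≤ (1 / ((d - 1 : ℕ) : ℝ)) ^ G.dist o w := by
    rw [← pow_mul, mul_comm, pow_mul]; exact pow_le_pow_left₀ (sq_nonneg _) (sq_le_inv hQ hl) _
  have hda : (θ ^ G.dist o w - θ' ^ G.dist o w) ^ 2 ≤
      ((d - 1 : ℕ) : ℝ) * (((G.dist o w : ℝ) + 1) ^ 2 * (θ - θ') ^ 2) *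
        (1 / ((d - 1 : ℕ) : ℝ)) ^ G.dist o w := by
    refine (pow_diff_sq hQ h0 hl g0 gl _).trans (mul_le_mul_of_nonneg_right ?_ (by positivity))
    rw [mul_assoc]
    refine mul_le_mul_of_nonneg_left (mul_le_mul_of_nonneg_right ?_ (sq_nonneg _)) (by positivity)
    exact pow_le_pow_left₀ (Nat.cast_nonneg _) (le_add_of_nonneg_right zero_le_one) 2
  exact cv_combine hQ2 hpow hda hTT hT' (by positivity) hE
    (Finset.sum_nonneg fun i _ => sq_nonneg _) (Finset.sum_nonneg fun i _ => sq_nonneg _)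
    ((prod_mem mB _).1.trans (Finset.prod_le_prod (fun i _ => (mB i).1)
      fun i _ => (rt_mem hQ hl (mu_bd h0 l1 D h o w _).1).2.1))

theorem sqrt_one_sub_lip {lam : ℝ} (hlam : 0 < lam) (hlam1 : lam ≤ 1 / 2) (q : ℕ) {x y : ℝ}
    (hx : |x| ≤ 1) (hy : |y| ≤ 1) :
    (√(1 - x ^ 2) - √(1 - y ^ 2)) ^ 2 ≤ (x - y) ^ 2 + big lam q x y := by
  by_cases h : lam < |x| ∨ lam < |y|
  · have a := one_le_big hlam q h
    have e1 : √(1 - x ^ 2) ≤ 1 := Real.sqrt_le_one.2 (by linarith [sq_nonneg x])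
    have e2 : √(1 - y ^ 2) ≤ 1 := Real.sqrt_le_one.2 (by linarith [sq_nonneg y])
    nlinarith [Real.sqrt_nonneg (1 - x ^ 2), Real.sqrt_nonneg (1 - y ^ 2), sq_nonneg (x - y)]
  · rw [not_or, not_lt, not_lt] at h
    have ex : x ^ 2 ≤ 1 / 4 := by
      rw [← sq_abs]
      exact (pow_le_pow_left₀ (abs_nonneg _) (h.1.trans hlam1) 2).trans (le_of_eq (by norm_num))
    have ey : y ^ 2 ≤ 1 / 4 := by
      rw [← sq_abs]
      exact (pow_le_pow_left₀ (abs_nonneg _) (h.2.trans hlam1) 2).trans (le_of_eq (by norm_num))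
    set a := √(1 - x ^ 2)
    set b := √(1 - y ^ 2)
    have ha : a * a = 1 - x ^ 2 := Real.mul_self_sqrt (by linarith)
    have hb : b * b = 1 - y ^ 2 := Real.mul_self_sqrt (by linarith)
    have hab : (a - b) * (a + b) = (y - x) * (y + x) := by linear_combination ha - hb
    have ha2 : 1 / 2 ≤ a := Real.le_sqrt_of_sq_le (by linarith)
    have hb2 : 1 / 2 ≤ b := Real.le_sqrt_of_sq_le (by linarith)
    have hsq : (a - b) ^ 2 ≤ (a - b) ^ 2 * (a + b) ^ 2 :=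
      le_mul_of_one_le_right (sq_nonneg _) (one_le_pow₀ (by linarith))
    have hxy : (y + x) ^ 2 ≤ 1 := by nlinarith [sq_nonneg (x - y)]
    have := mul_le_mul_of_nonneg_left hxy (sq_nonneg (y - x))
    have e : (a - b) ^ 2 * (a + b) ^ 2 = (y - x) ^ 2 * (y + x) ^ 2 := by
      rw [← mul_pow, hab, mul_pow]
    linarith [big_nonneg hlam.le q x y, show (y - x) ^ 2 = (x - y) ^ 2 by ring]

theorem hh_diff {Q : ℕ} (hQ : 2 ≤ Q) {lam : ℝ} (hlam : 0 < lam) (hlam1 : lam ≤ 1 / 2) (q : ℕ)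
    {x y : ℝ} (hx : |x| ≤ 1) (hy : |y| ≤ 1) :
    (hh Q x - hh Q y) ^ 2 ≤ 256 * lam ^ 6 * (x - y) ^ 2 + big lam q x y := by
  by_cases h : lam < |x| ∨ lam < |y|
  · have a := one_le_big hlam q h
    have e1 := hh_mem hQ hx
    have e2 := hh_mem hQ hy
    nlinarith [sq_nonneg (x - y), pow_nonneg hlam.le 6,
      mul_nonneg (pow_nonneg hlam.le 6) (sq_nonneg (x - y))]
  · rw [not_or, not_lt, not_lt] at h
    have ex : x ^ 2 ≤ lam ^ 2 := by rw [← sq_abs]; exact pow_le_pow_left₀ (abs_nonneg _) h.1 2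
    have ey : y ^ 2 ≤ lam ^ 2 := by rw [← sq_abs]; exact pow_le_pow_left₀ (abs_nonneg _) h.2 2
    have h4 : lam ^ 2 ≤ 1 / 4 := by nlinarith
    have hl := hh_lip hQ (ex.trans h4) (ey.trans h4)
    have h5 : |hh Q x - hh Q y| ≤ 8 * lam ^ 3 * |x - y| :=
      calc |hh Q x - hh Q y| ≤ 2 * (x ^ 2 + y ^ 2) * ((|x| + |y|) * |x - y|) :=
            hl.trans (mul_le_mul_of_nonneg_left (abs_sq_sub_le x y) (by positivity))
        _ ≤ 2 * (lam ^ 2 + lam ^ 2) * ((lam + lam) * |x - y|) :=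
            mul_le_mul (by linarith) (mul_le_mul_of_nonneg_right (add_le_add h.1 h.2) (abs_nonneg _))
              (by positivity) (by positivity)
        _ = _ := by ring
    have h6 := pow_le_pow_left₀ (abs_nonneg _) h5 2
    rw [sq_abs, mul_pow, sq_abs, mul_pow, ← pow_mul] at h6
    have h7 : 0 ≤ lam ^ 6 * (x - y) ^ 2 := by positivity
    norm_num at h6
    linarith [big_nonneg hlam.le q x y]

/-- The squared distance of the squared messages, summed along the path. -/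
def sumSq (G : SimpleGraph V) (θ : ℝ) (D : Finset V) (h : V → ℝ) (o w : V) : ℝ :=
  ∑ i ∈ range (G.dist o w), (fwd G θ D h o w i ^ 2 + bwd G θ D h o w i ^ 2)

theorem rc_sqrt (Q : ℕ) (x : ℝ) :
    √(rc Q x) = hh Q x * exp (-((1 - 1 / (Q : ℝ)) * x ^ 2 / 2)) := by
  rw [hh, mul_assoc, ← Real.exp_add]
  simp

theorem exp_neg_lip {a b : ℝ} (ha : 0 ≤ a) (hb : 0 ≤ b) : |exp (-a) - exp (-b)| ≤ |a - b| := by
  have key : ∀ a b : ℝ, 0 ≤ a → a ≤ b → exp (-a) - exp (-b) ≤ b - a := by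
    intro a b ha hab
    calc exp (-a) - exp (-b) = exp (-a) * (1 - exp (a - b)) := by
          rw [mul_sub, ← Real.exp_add, mul_one, show -a + (a - b) = -b by ring]
      _ ≤ 1 * (1 - exp (a - b)) := mul_le_mul_of_nonneg_right (exp_le_one_iff.2 (by linarith))
          (by linarith [exp_le_one_iff.2 (sub_nonpos.2 hab)])
      _ ≤ b - a := by linarith [add_one_le_exp (a - b)]
  rcases le_total a b with h | h
  · rw [abs_of_nonneg (sub_nonneg.2 (exp_le_exp.2 (by linarith))), abs_sub_comm,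
      abs_of_nonneg (sub_nonneg.2 h)]
    exact key a b ha h
  · rw [abs_sub_comm, abs_of_nonneg (sub_nonneg.2 (exp_le_exp.2 (by linarith))),
      abs_of_nonneg (sub_nonneg.2 h)]
    exact key b a hb h

/-- The transmission along the whole path, in the symmetric form. -/
theorem cv_sym (hT : RTree G d) (h0 : 0 ≤ θ) (hl : ((d - 1 : ℕ) : ℝ) * θ ^ 2 ≤ 1) (hD : Conn G D)
    (hp : OnPath G D o w) (h : V → ℝ) :
    cv G θ D h o w = θ ^ G.dist o w * (√(1 - mgp G θ D h o w 0 ^ 2) *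
      √(1 - mgp G θ D h o w (G.dist o w) ^ 2) *
      ∏ i ∈ range (G.dist o w), (√(rt θ (fwd G θ D h o w i)) * √(rt θ (bwd G θ D h o w i)))) := by
  have hQ := Q_two hT
  have h1 : θ < 1 := by linarith [theta_le hQ h0 hl]
  have hb : ∀ i, 0 ≤ rt θ (fwd G θ D h o w i) ∧ 0 ≤ rt θ (bwd G θ D h o w i) := fun i =>
    ⟨(rt_mem hQ hl (abs_mu_le h0 h1 _ _ _ _)).1, (rt_mem hQ hl (abs_mu_le h0 h1 _ _ _ _)).1⟩
  have hm : ∀ i, 0 ≤ 1 - mgp G θ D h o w i ^ 2 := fun i =>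
    sub_nonneg.2 (sq_le_one' (abs_mag_le h0 h1 _ _ _))
  have hnn : 0 ≤ cv G θ D h o w := by
    rw [cv_split hT h0 h1 hD hp h (Nat.zero_le _)]
    exact mul_nonneg (pow_nonneg h0 _) (mul_nonneg (hm 0)
      (mul_nonneg (Finset.prod_nonneg fun i _ => (hb i).2) (Finset.prod_nonneg fun i _ => (hb _).1)))
  refine (pow_left_inj₀ hnn (mul_nonneg (pow_nonneg h0 _) (mul_nonneg
    (mul_nonneg (Real.sqrt_nonneg _) (Real.sqrt_nonneg _))
    (Finset.prod_nonneg fun i _ => mul_nonneg (Real.sqrt_nonneg _) (Real.sqrt_nonneg _))))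
    two_ne_zero).1 ?_
  rw [cv_sq hT h0 h1 hD hp h, mul_pow, mul_pow, mul_pow, Real.sq_sqrt (hm 0), Real.sq_sqrt (hm _),
    ← Finset.prod_pow]
  congr 2
  refine Finset.prod_congr rfl fun i _ => ?_
  rw [mul_pow, Real.sq_sqrt (hb i).1, Real.sq_sqrt (hb i).2]

theorem crit_approx {Q : ℕ} (hQ : 2 ≤ Q) (hl : (Q : ℝ) * θ ^ 2 ≤ 1) {x : ℝ} (hx : |x| ≤ 1) :
    |√(rt θ x) - √(rc Q x)| ≤ √(6 * (1 / (Q : ℝ) - θ ^ 2)) := by
  obtain ⟨r0, r1, -⟩ := rt_mem hQ hl hx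
  have hd : rc Q x - rt θ x ≤ 6 * (1 / (Q : ℝ) - θ ^ 2) := by
    have := r2_lip (by positivity : (0 : ℝ) ≤ 1 / Q) (inv_le_916 hQ) (sq_nonneg θ)
      ((sq_le_inv hQ hl).trans (inv_le_916 hQ)) hx hx
    rw [← rc_eq_r2, ← rt_eq_r2] at this
    rw [sub_self, abs_zero, mul_zero, zero_add, abs_of_nonneg (by linarith [sq_le_inv hQ hl] :
      0 ≤ 1 / (Q : ℝ) - θ ^ 2)] at this
    refine (le_abs_self _).trans (this.trans ?_)
    exact mul_le_mul_of_nonneg_right (by linarith [sq_le_one' hx]) (by linarith [sq_le_inv hQ hl])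
  rw [abs_sub_comm, abs_of_nonneg (sub_nonneg.2 (Real.sqrt_le_sqrt r1))]
  have h2 : (√(rc Q x) - √(rt θ x)) ^ 2 ≤ rc Q x - rt θ x := by
    nlinarith [Real.mul_self_sqrt r0, Real.mul_self_sqrt (r0.trans r1),
      mul_le_mul_of_nonneg_right (Real.sqrt_le_sqrt r1) (Real.sqrt_nonneg (rt θ x))]
  exact Real.le_sqrt_of_sq_le (h2.trans hd)

theorem sq_prod_diff_le {ι : Type*} (S : Finset ι) {f g : ι → ℝ} (hf : ∀ i, 0 ≤ f i ∧ f i ≤ 1)
    (hg : ∀ i, 0 ≤ g i ∧ g i ≤ 1) :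
    (∏ i ∈ S, f i - ∏ i ∈ S, g i) ^ 2 ≤ S.card * ∑ i ∈ S, (f i - g i) ^ 2 := by
  have h := pow_le_pow_left₀ (abs_nonneg _) (abs_prod_sub_prod_le S hf hg) 2
  rw [sq_abs] at h
  refine h.trans ((sq_sum_le_card_mul_sum_sq (f := fun i => |f i - g i|)).trans (le_of_eq ?_))
  simp only [sq_abs]

theorem pair_mem {a c : ℝ} (ha : 0 ≤ a ∧ a ≤ 1) (hc : 0 ≤ c ∧ c ≤ 1) : 0 ≤ a * c ∧ a * c ≤ 1 :=
  ⟨mul_nonneg ha.1 hc.1, mul_le_one₀ ha.2 hc.1 hc.2⟩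

theorem pair_diff {a c a' c' : ℝ} (ha : 0 ≤ a ∧ a ≤ 1) (hc' : 0 ≤ c' ∧ c' ≤ 1) :
    (a * c - a' * c') ^ 2 ≤ 2 * ((a - a') ^ 2 + (c - c') ^ 2) := by
  rw [show a * c - a' * c' = a * (c - c') + (a - a') * c' by ring]
  refine add_sq_le.trans ?_
  rw [mul_pow, mul_pow]
  have e1 := mul_le_of_le_one_left (sq_nonneg (c - c')) (pow_le_one₀ ha.1 ha.2 (n := 2))
  have e2 := mul_le_of_le_one_right (sq_nonneg (a - a')) (pow_le_one₀ hc'.1 hc'.2 (n := 2))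
  linarith

theorem sqrt_rt_mem {Q : ℕ} (hQ : 2 ≤ Q) (hl : (Q : ℝ) * θ ^ 2 ≤ 1) {x : ℝ} (hx : |x| ≤ 1) :
    (0 ≤ √(rt θ x) ∧ √(rt θ x) ≤ 1) ∧ (0 ≤ √(rc Q x) ∧ √(rc Q x) ≤ 1) :=
  have r := rt_mem hQ hl hx
  ⟨⟨Real.sqrt_nonneg _, Real.sqrt_le_one.2 (r.2.1.trans r.2.2)⟩,
    ⟨Real.sqrt_nonneg _, Real.sqrt_le_one.2 r.2.2⟩⟩

theorem crit_prod {Q : ℕ} (hQ : 2 ≤ Q) (hl : (Q : ℝ) * θ ^ 2 ≤ 1) {f b : ℕ → ℝ}
    (hf : ∀ i, |f i| ≤ 1) (hb : ∀ i, |b i| ≤ 1) (n : ℕ) :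
    (∏ i ∈ range n, (√(rt θ (f i)) * √(rt θ (b i))) -
        ∏ i ∈ range n, (√(rc Q (f i)) * √(rc Q (b i)))) ^ 2 ≤
      24 * ((n : ℝ) ^ 2 * (1 / (Q : ℝ) - θ ^ 2)) := by
  refine (sq_prod_diff_le _ (fun i => pair_mem (sqrt_rt_mem hQ hl (hf i)).1 (sqrt_rt_mem hQ hl (hb i)).1)
    fun i => pair_mem (sqrt_rt_mem hQ hl (hf i)).2 (sqrt_rt_mem hQ hl (hb i)).2).trans ?_
  rw [Finset.card_range]
  have crit : ∀ x : ℝ, |x| ≤ 1 → (√(rt θ x) - √(rc Q x)) ^ 2 ≤ 6 * (1 / (Q : ℝ) - θ ^ 2) := by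
    intro x hx
    have := pow_le_pow_left₀ (abs_nonneg _) (crit_approx hQ hl hx) 2
    rwa [sq_abs, Real.sq_sqrt (by linarith [sq_le_inv hQ hl])] at this
  calc (n : ℝ) * ∑ i ∈ range n, (√(rt θ (f i)) * √(rt θ (b i)) - √(rc Q (f i)) * √(rc Q (b i))) ^ 2
      ≤ (n : ℝ) * ∑ _i ∈ range n, 24 * (1 / (Q : ℝ) - θ ^ 2) :=
        mul_le_mul_of_nonneg_left (Finset.sum_le_sum fun i _ =>
          (pair_diff (sqrt_rt_mem hQ hl (hf i)).1 (sqrt_rt_mem hQ hl (hb i)).2).trans (by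
            linarith [crit _ (hf i), crit _ (hb i)])) (Nat.cast_nonneg n)
    _ = _ := by rw [Finset.sum_const, Finset.card_range, nsmul_eq_mul]; ring

theorem rc_prod_eq (Q : ℕ) (f b : ℕ → ℝ) (n : ℕ) :
    ∏ i ∈ range n, (√(rc Q (f i)) * √(rc Q (b i))) =
      exp (-((1 - 1 / (Q : ℝ)) * (∑ i ∈ range n, (f i ^ 2 + b i ^ 2)) / 2)) *
        ∏ i ∈ range n, (hh Q (f i) * hh Q (b i)) := by
  rw [Finset.mul_sum, Finset.sum_div, ← Finset.sum_neg_distrib, Real.exp_sum,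
    ← Finset.prod_mul_distrib]
  refine Finset.prod_congr rfl fun i _ => ?_
  rw [rc_sqrt, rc_sqrt, show -((1 - 1 / (Q : ℝ)) * (f i ^ 2 + b i ^ 2) / 2) =
    -((1 - 1 / (Q : ℝ)) * f i ^ 2 / 2) + -((1 - 1 / (Q : ℝ)) * b i ^ 2 / 2) by ring, Real.exp_add]
  ring

theorem rc_prod_diff {Q : ℕ} (hQ : 2 ≤ Q) {f b f' b' : ℕ → ℝ} (hf : ∀ i, |f i| ≤ 1)
    (hb : ∀ i, |b i| ≤ 1) (hf' : ∀ i, |f' i| ≤ 1) (hb' : ∀ i, |b' i| ≤ 1) {lam : ℝ} (hlam : 0 < lam)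
    (hlam1 : lam ≤ 1 / 2) (q n : ℕ) :
    (∏ i ∈ range n, (√(rc Q (f i)) * √(rc Q (b i))) -
        ∏ i ∈ range n, (√(rc Q (f' i)) * √(rc Q (b' i)))) ^ 2 ≤
      2 * ((∑ i ∈ range n, (f i ^ 2 + b i ^ 2) - ∑ i ∈ range n, (f' i ^ 2 + b' i ^ 2)) ^ 2 +
        512 * ((n : ℝ) * ∑ i ∈ range n, (lam ^ 6 * ((f i - f' i) ^ 2 + (b i - b' i) ^ 2) +
          big lam q (f i) (f' i) + big lam q (b i) (b' i)))) := by
  rw [rc_prod_eq, rc_prod_eq]
  have hQ1 : 1 / (Q : ℝ) ≤ 1 := (inv_le_916 hQ).trans (by norm_num)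
  have hQ0 : (0 : ℝ) ≤ 1 / (Q : ℝ) := by positivity
  set S := ∑ i ∈ range n, (f i ^ 2 + b i ^ 2)
  set S' := ∑ i ∈ range n, (f' i ^ 2 + b' i ^ 2)
  have hSnn : 0 ≤ S := Finset.sum_nonneg fun i _ => by positivity
  have hSnn' : 0 ≤ S' := Finset.sum_nonneg fun i _ => by positivity
  have a0 : 0 ≤ (1 - 1 / (Q : ℝ)) * S / 2 := by nlinarith
  have a0' : 0 ≤ (1 - 1 / (Q : ℝ)) * S' / 2 := by nlinarith
  have dE : (exp (-((1 - 1 / (Q : ℝ)) * S / 2)) - exp (-((1 - 1 / (Q : ℝ)) * S' / 2))) ^ 2 ≤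
      (S - S') ^ 2 := by
    have e1 := pow_le_pow_left₀ (abs_nonneg _) (exp_neg_lip a0 a0') 2
    rw [sq_abs, sq_abs] at e1
    refine e1.trans ?_
    rw [show (1 - 1 / (Q : ℝ)) * S / 2 - (1 - 1 / (Q : ℝ)) * S' / 2 =
      ((1 - 1 / (Q : ℝ)) / 2) * (S - S') by ring, mul_pow]
    exact mul_le_of_le_one_left (sq_nonneg _) (pow_le_one₀ (by linarith) (by linarith))
  refine (pair_diff ⟨(exp_pos _).le, exp_le_one_iff.2 (by linarith)⟩
    (prod_mem (fun i => pair_mem (hh_mem hQ (hf' i)) (hh_mem hQ (hb' i))) _)).trans ?_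
  refine mul_le_mul_of_nonneg_left (add_le_add dE ?_) zero_le_two
  refine (sq_prod_diff_le _ (fun i => pair_mem (hh_mem hQ (hf i)) (hh_mem hQ (hb i)))
    fun i => pair_mem (hh_mem hQ (hf' i)) (hh_mem hQ (hb' i))).trans ?_
  rw [Finset.card_range, mul_left_comm (512 : ℝ)]
  refine mul_le_mul_of_nonneg_left ?_ (Nat.cast_nonneg n)
  rw [Finset.mul_sum]
  refine Finset.sum_le_sum fun i _ => (pair_diff (hh_mem hQ (hf i)) (hh_mem hQ (hb' i))).trans ?_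
  linarith [hh_diff hQ hlam hlam1 q (hf i) (hf' i), hh_diff hQ hlam hlam1 q (hb i) (hb' i),
    big_nonneg hlam.le q (f i) (f' i), big_nonneg hlam.le q (b i) (b' i)]

theorem sum_combine {a a' Z Z' P P' Pc Pc' W Q N ε1 ε2 e X0 Xn DS T : ℝ} (hQ : 2 ≤ Q) (hW : 0 ≤ W)
    (ha : a ^ 2 ≤ W) (hda : (a - a') ^ 2 ≤ Q * N * e * W) (hZ : 0 ≤ Z ∧ Z ≤ 1) (hZ' : 0 ≤ Z' ∧ Z' ≤ 1)
    (hP' : 0 ≤ P' ∧ P' ≤ 1) (hdZ : (Z - Z') ^ 2 ≤ 2 * (X0 + Xn))
    (h1 : (P - Pc) ^ 2 ≤ 24 * (N * ε1)) (h2 : (P' - Pc') ^ 2 ≤ 24 * (N * ε2))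
    (hc : (Pc - Pc') ^ 2 ≤ 2 * (DS + 512 * T)) (hN : 0 ≤ N) (he : 0 ≤ e) (hε1 : 0 ≤ ε1)
    (hε2 : 0 ≤ ε2) (hX : 0 ≤ X0 + Xn) (hDS : 0 ≤ DS) (hT : 0 ≤ T) :
    (a * (Z * P) - a' * (Z' * P')) ^ 2 ≤
      10 ^ 5 * Q * W * (X0 + Xn + DS + T + N * (ε1 + ε2 + e)) := by
  have hPP : (P - P') ^ 2 ≤ 3 * (24 * (N * ε1) + 24 * (N * ε2) + 2 * (DS + 512 * T)) := by
    rw [show P - P' = (P - Pc) + (Pc - Pc') + (Pc' - P') by ring]
    have h3 : ∀ a b c : ℝ, (a + b + c) ^ 2 ≤ 3 * (a ^ 2 + b ^ 2 + c ^ 2) := fun a b c => by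
      nlinarith [sq_nonneg (a - b), sq_nonneg (a - c), sq_nonneg (b - c)]
    refine (h3 _ _ _).trans ?_
    rw [show (Pc' - P') ^ 2 = (P' - Pc') ^ 2 by ring]
    linarith
  have dZP := (pair_diff (a := Z) (c := P) (a' := Z') (c' := P') hZ hP').trans
    (mul_le_mul_of_nonneg_left (add_le_add hdZ hPP) zero_le_two)
  have h4 : (a * (Z * P) - a' * (Z' * P')) ^ 2 ≤
      2 * (a ^ 2 * (Z * P - Z' * P') ^ 2) + 2 * ((a - a') ^ 2 * (Z' * P') ^ 2) := by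
    rw [show a * (Z * P) - a' * (Z' * P') = a * (Z * P - Z' * P') + (a - a') * (Z' * P') by ring,
      ← mul_pow, ← mul_pow]
    exact add_sq_le.trans (le_of_eq (by ring))
  have r1 := mul_le_mul ha dZP (sq_nonneg _) hW
  have r2' : (a - a') ^ 2 * (Z' * P') ^ 2 ≤ Q * N * e * W :=
    (mul_le_of_le_one_right (sq_nonneg _) (pow_le_one₀ (mul_nonneg hZ'.1 hP'.1)
      (mul_le_one₀ hZ'.2 hP'.1 hP'.2))).trans hda
  have k1 := mul_le_mul_of_nonneg_right hQ (mul_nonneg hW hX)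
  have k3 := mul_le_mul_of_nonneg_right hQ (mul_nonneg hW hDS)
  have k4 := mul_le_mul_of_nonneg_right hQ (mul_nonneg hW hT)
  have k5 := mul_le_mul_of_nonneg_right hQ (mul_nonneg hW (mul_nonneg hN hε1))
  have k6 := mul_le_mul_of_nonneg_right hQ (mul_nonneg hW (mul_nonneg hN hε2))
  have k7 := mul_le_mul_of_nonneg_right hQ (mul_nonneg hW (mul_nonneg hN he))
  nlinarith

/-- The difference of two covariances, through the sum of squared messages. -/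
theorem delta_cv_sum (hT : RTree G d) (h0 : 0 ≤ θ) (g0 : 0 ≤ θ')
    (hl : ((d - 1 : ℕ) : ℝ) * θ ^ 2 ≤ 1) (gl : ((d - 1 : ℕ) : ℝ) * θ' ^ 2 ≤ 1)
    (hD : Conn G D) (hD' : Conn G D') (hp : OnPath G D o w) (hp' : OnPath G D' o w)
    (h h' : V → ℝ) {lam : ℝ} (hlam : 0 < lam) (hlam1 : lam ≤ 1 / 2) (q : ℕ) :
    (cv G θ D h o w - cv G θ' D' h' o w) ^ 2 ≤
      10 ^ 5 * ((d - 1 : ℕ) : ℝ) * (1 / ((d - 1 : ℕ) : ℝ)) ^ G.dist o w *
        (((mgp G θ D h o w 0 - mgp G θ' D' h' o w 0) ^ 2 +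
            big lam q (mgp G θ D h o w 0) (mgp G θ' D' h' o w 0)) +
          ((mgp G θ D h o w (G.dist o w) - mgp G θ' D' h' o w (G.dist o w)) ^ 2 +
            big lam q (mgp G θ D h o w (G.dist o w)) (mgp G θ' D' h' o w (G.dist o w))) +
          (sumSq G θ D h o w - sumSq G θ' D' h' o w) ^ 2 +
          (G.dist o w : ℝ) * ∑ i ∈ range (G.dist o w),
            (lam ^ 6 * ((fwd G θ D h o w i - fwd G θ' D' h' o w i) ^ 2 +
                (bwd G θ D h o w i - bwd G θ' D' h' o w i) ^ 2) +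
              big lam q (fwd G θ D h o w i) (fwd G θ' D' h' o w i) +
              big lam q (bwd G θ D h o w i) (bwd G θ' D' h' o w i)) +
          (G.dist o w : ℝ) ^ 2 * ((1 / ((d - 1 : ℕ) : ℝ) - θ ^ 2) + (1 / ((d - 1 : ℕ) : ℝ) - θ' ^ 2) +
            (θ - θ') ^ 2)) := by
  have hQ := Q_two hT
  have hQ2 : (2 : ℝ) ≤ ((d - 1 : ℕ) : ℝ) := by exact_mod_cast hQ
  have l1 : θ < 1 := by linarith [theta_le hQ h0 hl]
  have l2 : θ' < 1 := by linarith [theta_le hQ g0 gl]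
  rw [cv_sym hT h0 hl hD hp h, cv_sym hT g0 gl hD' hp' h']
  have hf := fun i => (mu_bd (G := G) h0 l1 D h o w i).1
  have hb := fun i => (mu_bd (G := G) h0 l1 D h o w i).2
  have hf' := fun i => (mu_bd (G := G) g0 l2 D' h' o w i).1
  have hb' := fun i => (mu_bd (G := G) g0 l2 D' h' o w i).2
  have sqm : ∀ x : ℝ, 0 ≤ √(1 - x ^ 2) ∧ √(1 - x ^ 2) ≤ 1 := fun x =>
    ⟨Real.sqrt_nonneg _, Real.sqrt_le_one.2 (by linarith [sq_nonneg x])⟩
  have hpow : (θ ^ G.dist o w) ^ 2 ≤ (1 / ((d - 1 : ℕ) : ℝ)) ^ G.dist o w := by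
    rw [← pow_mul, mul_comm, pow_mul]; exact pow_le_pow_left₀ (sq_nonneg _) (sq_le_inv hQ hl) _
  refine sum_combine hQ2 (by positivity) hpow (pow_diff_sq hQ h0 hl g0 gl (G.dist o w))
    (pair_mem (sqm _) (sqm _)) (pair_mem (sqm _) (sqm _))
    (prod_mem (fun i => pair_mem (sqrt_rt_mem hQ gl (hf' i)).1 (sqrt_rt_mem hQ gl (hb' i)).1) _)
    ?_ (crit_prod hQ hl hf hb _) (crit_prod hQ gl hf' hb' _)
    (rc_prod_diff hQ hf hb hf' hb' hlam hlam1 q _) (sq_nonneg _) (sq_nonneg _)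
    (sub_nonneg.2 (sq_le_inv hQ hl)) (sub_nonneg.2 (sq_le_inv hQ gl)) ?_ (sq_nonneg _) ?_
  · refine (pair_diff (sqm _) (sqm _)).trans (mul_le_mul_of_nonneg_left (add_le_add ?_ ?_) zero_le_two) <;>
      exact sqrt_one_sub_lip hlam hlam1 q (abs_mag_le h0 l1 _ _ _) (abs_mag_le g0 l2 _ _ _)
  · have a1 := big_nonneg hlam.le q (mgp G θ D h o w 0) (mgp G θ' D' h' o w 0)
    have a2 := big_nonneg hlam.le q (mgp G θ D h o w (G.dist o w)) (mgp G θ' D' h' o w (G.dist o w))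
    positivity
  · exact mul_nonneg (Nat.cast_nonneg _) (Finset.sum_nonneg fun i _ =>
      add_nonneg (add_nonneg (by positivity) (big_nonneg hlam.le _ _ _)) (big_nonneg hlam.le _ _ _))

end path

end Vale.Agent.P161
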