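import Mathlib.Analysis.SpecificLimits.Normed
import Mathlib.Analysis.SpecialFunctions.Exp

/-!
# Sums of decaying sequences and a discrete Gronwall inequality
-/

open Finset Real Filter Topology

noncomputable section

namespace Vale.Agent.P161

theorem geo_one {r : ℝ} (h0 : 0 ≤ r) (h1 : r < 1) (S : Finset ℕ) :
    ∑ n ∈ S, ((n : ℝ) + 1) * r ^ n ≤ 1 / (1 - r) ^ 2 := by
  obtain ⟨N, hN⟩ : ∃ N, S ⊆ range N :=
    ⟨S.sup id + 1, fun n hn => mem_range.2 (Nat.lt_succ_of_le (Finset.le_sup (f := id) hn))⟩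
  refine (Finset.sum_le_sum_of_subset_of_nonneg hN fun n _ _ => by positivity).trans ?_
  have key : ∀ N : ℕ, (∑ n ∈ range N, ((n : ℝ) + 1) * r ^ n) * (1 - r) ^ 2 =
      1 - r ^ N * ((N : ℝ) + 1 - N * r) := by
    intro N
    induction N with
    | zero => simp
    | succ N ih => rw [Finset.sum_range_succ, add_mul, ih]; push_cast; ring
  rw [le_div_iff₀ (pow_pos (by linarith) 2), key]
  have h : 0 ≤ (N : ℝ) + 1 - N * r := by nlinarith [Nat.cast_nonneg (α := ℝ) N]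
  linarith [mul_nonneg (pow_nonneg h0 N) h]

theorem geo_two {r : ℝ} (h0 : 0 ≤ r) (h1 : r < 1) (S : Finset ℕ) :
    ∑ n ∈ S, ((n : ℝ) + 1) ^ 2 * r ^ n ≤ 2 / (1 - r) ^ 3 := by
  obtain ⟨N, hN⟩ : ∃ N, S ⊆ range N :=
    ⟨S.sup id + 1, fun n hn => mem_range.2 (Nat.lt_succ_of_le (Finset.le_sup (f := id) hn))⟩
  refine (Finset.sum_le_sum_of_subset_of_nonneg hN fun n _ _ => by positivity).trans ?_
  refine (Finset.sum_le_sum (g := fun n : ℕ => ((n : ℝ) + 1) * ((n : ℝ) + 2) * r ^ n)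
    fun n _ => mul_le_mul_of_nonneg_right (by nlinarith [Nat.cast_nonneg (α := ℝ) n])
      (pow_nonneg h0 n)).trans ?_
  have key : ∀ N : ℕ, (∑ n ∈ range N, ((n : ℝ) + 1) * ((n : ℝ) + 2) * r ^ n) * (1 - r) ^ 3 =
      2 - r ^ N * (((N : ℝ) + 1) * (N + 2) - 2 * N * (N + 2) * r + N * (N + 1) * r ^ 2) := by
    intro N
    induction N with
    | zero => simp
    | succ N ih => rw [Finset.sum_range_succ, add_mul, ih]; push_cast; ring
  rw [le_div_iff₀ (pow_pos (by linarith) 3), key]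
  have hn := Nat.cast_nonneg (α := ℝ) N
  have h : 0 ≤ ((N : ℝ) + 1) * (N + 2) - 2 * N * (N + 2) * r + N * (N + 1) * r ^ 2 := by
    nlinarith [mul_nonneg hn (sub_nonneg.2 h1.le),
      mul_nonneg (mul_nonneg hn (by linarith : (0 : ℝ) ≤ N + 1)) (sq_nonneg (1 - r))]
  linarith [mul_nonneg (pow_nonneg h0 N) h]

theorem one_sub_exp_neg_ge {x : ℝ} (h0 : 0 ≤ x) (h1 : x ≤ 1) : x / 2 ≤ 1 - exp (-x) := by
  have h : exp (-x) ≤ 1 / (1 + x) := by
    rw [Real.exp_neg, one_div]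
    exact inv_anti₀ (by linarith) (by linarith [Real.add_one_le_exp x])
  have h2 : 1 / (1 + x) ≤ 1 - x / 2 := by
    rw [div_le_iff₀ (by linarith)]; nlinarith
  linarith

theorem pi_le_exp {γ : ℝ} (h0 : 0 ≤ γ) (h1 : γ ≤ 1 / 4) (n : ℕ) :
    (1 - γ) ^ (n / 4 - 1) ≤ 2 * exp (-γ / 4) ^ n := by
  have hh : (n : ℝ) / 4 - 2 ≤ ((n / 4 - 1 : ℕ) : ℝ) := by
    have : n ≤ 4 * (n / 4 - 1) + 7 := by omega
    have h' : (n : ℝ) ≤ 4 * ((n / 4 - 1 : ℕ) : ℝ) + 7 := by exact_mod_cast this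
    linarith
  have e2 : exp (1 / 2) ≤ 2 := by
    have h := Real.add_one_le_exp (-(1 / 2) : ℝ)
    rw [Real.exp_neg] at h
    have hp := exp_pos (1 / 2 : ℝ)
    have : (1 / 2 : ℝ) * exp (1 / 2) ≤ 1 := by
      refine (mul_le_mul_of_nonneg_right (by linarith : (1 / 2 : ℝ) ≤ (exp (1 / 2))⁻¹) hp.le).trans ?_
      rw [inv_mul_cancel₀ hp.ne']
    linarith
  calc (1 - γ) ^ (n / 4 - 1) ≤ exp (-γ) ^ (n / 4 - 1) :=
        pow_le_pow_left₀ (by linarith) (by linarith [Real.add_one_le_exp (-γ)]) _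
    _ = exp (-γ * ((n / 4 - 1 : ℕ) : ℝ)) := by rw [← Real.exp_nat_mul]; congr 1; ring
    _ ≤ exp (1 / 2 + -γ / 4 * n) := Real.exp_le_exp.2 (by nlinarith)
    _ ≤ _ := by
        rw [Real.exp_add, ← Real.exp_nat_mul, mul_comm (n : ℝ)]
        exact mul_le_mul_of_nonneg_right e2 (exp_pos _).le

/-- The decaying weights of a sphere, summed. -/
theorem pi_sum {γ : ℝ} (h0 : 0 < γ) (h1 : γ ≤ 1 / 4) (S : Finset ℕ) :
    ∑ n ∈ S, ((n : ℝ) + 1) * (1 - γ) ^ (n / 4 - 1) ≤ 128 / γ ^ 2 ∧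
      ∑ n ∈ S, ((n : ℝ) + 1) ^ 2 * (1 - γ) ^ (n / 4 - 1) ≤ 2048 / γ ^ 3 := by
  set r := exp (-γ / 4) with hr
  have hr0 : 0 ≤ r := (exp_pos _).le
  have hr1 : r < 1 := exp_lt_one_iff.2 (by linarith)
  have hd : γ / 8 ≤ 1 - r := by
    have := one_sub_exp_neg_ge (x := γ / 4) (by linarith) (by linarith)
    rw [hr, neg_div]
    linarith
  constructor
  · refine (Finset.sum_le_sum fun n _ => mul_le_mul_of_nonneg_left (pi_le_exp h0.le h1 n)
      (by positivity)).trans ?_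
    rw [Finset.sum_congr rfl fun (n : ℕ) _ =>
      (mul_left_comm ((n : ℝ) + 1) 2 (r ^ n)), ← Finset.mul_sum]
    refine (mul_le_mul_of_nonneg_left ((geo_one hr0 hr1 S).trans
      (one_div_le_one_div_of_le (by positivity) (pow_le_pow_left₀ (by positivity) hd 2)))
      two_pos.le).trans (le_of_eq ?_)
    field_simp
    ring
  · refine (Finset.sum_le_sum fun n _ => mul_le_mul_of_nonneg_left (pi_le_exp h0.le h1 n)
      (by positivity)).trans ?_
    rw [Finset.sum_congr rfl fun (n : ℕ) _ =>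
      (mul_left_comm (((n : ℝ) + 1) ^ 2) 2 (r ^ n)), ← Finset.mul_sum]
    refine (mul_le_mul_of_nonneg_left ((geo_two hr0 hr1 S).trans
      (div_le_div_of_nonneg_left two_pos.le (by positivity)
        (pow_le_pow_left₀ (by positivity) hd 3))) two_pos.le).trans (le_of_eq ?_)
    field_simp
    ring

/-- The decaying weights beyond the radius `N`. -/
theorem pi_sum_tail {γ : ℝ} (h0 : 0 < γ) (h1 : γ ≤ 1 / 4) {N : ℕ} {S : Finset ℕ}
    (hS : ∀ n ∈ S, N < n) :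
    ∑ n ∈ S, ((n : ℝ) + 1) * (1 - γ) ^ (n / 4 - 1) ≤ 512 / γ ^ 2 * exp (-(γ * N / 8)) := by
  set r := exp (-γ / 8) with hr
  have hr0 : 0 ≤ r := (exp_pos _).le
  have hr1 : r < 1 := exp_lt_one_iff.2 (by linarith)
  have hd : γ / 16 ≤ 1 - r := by
    have := one_sub_exp_neg_ge (x := γ / 8) (by linarith) (by linarith)
    rw [hr, neg_div]
    linarith
  have hterm : ∀ n ∈ S, ((n : ℝ) + 1) * (1 - γ) ^ (n / 4 - 1) ≤
      2 * exp (-(γ * N / 8)) * (((n : ℝ) + 1) * r ^ n) := fun n hn => by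
    refine (mul_le_mul_of_nonneg_left (pi_le_exp h0.le h1 n) (by positivity)).trans ?_
    have hNn : (N : ℝ) ≤ n := by exact_mod_cast (hS n hn).le
    have e : exp (-γ / 4) ^ n ≤ exp (-(γ * N / 8)) * r ^ n := by
      rw [hr, ← Real.exp_nat_mul, ← Real.exp_nat_mul, ← Real.exp_add]
      refine Real.exp_le_exp.2 ?_
      nlinarith [mul_le_mul_of_nonneg_left hNn h0.le]
    calc ((n : ℝ) + 1) * (2 * exp (-γ / 4) ^ n)
        ≤ ((n : ℝ) + 1) * (2 * (exp (-(γ * N / 8)) * r ^ n)) := by gcongr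
      _ = _ := by ring
  refine (Finset.sum_le_sum hterm).trans ?_
  rw [← Finset.mul_sum]
  refine (mul_le_mul_of_nonneg_left ((geo_one hr0 hr1 S).trans
    (one_div_le_one_div_of_le (by positivity) (pow_le_pow_left₀ (by positivity) hd 2)))
    (by positivity)).trans (le_of_eq ?_)
  field_simp
  ring

/-- The doubly exponentially small weights. -/
theorem dexp_term (n : ℕ) :
    exp (-((3 / 2 : ℝ) ^ (n / 4))) ≤ 2 * (39 / 40) ^ n * (39 / 40) ^ n := by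
  have h1 : exp (-((3 / 2 : ℝ) ^ (n / 4))) ≤ (2 / 3 : ℝ) ^ (n / 4) := by
    rw [Real.exp_neg, show (2 / 3 : ℝ) = (3 / 2)⁻¹ by norm_num, inv_pow]
    exact inv_anti₀ (by positivity) (by linarith [Real.add_one_le_exp ((3 / 2 : ℝ) ^ (n / 4))])
  refine h1.trans ?_
  refine (pow_le_pow_left₀ (by norm_num) (show (2 / 3 : ℝ) ≤ (39 / 40) ^ 8 by norm_num) _).trans ?_
  rw [← pow_mul, mul_assoc, ← pow_add]
  have h2 : (39 / 40 : ℝ) ^ (8 * (n / 4)) * (39 / 40) ^ 6 ≤ (39 / 40) ^ (n + n) := by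
    rw [← pow_add]; exact pow_le_pow_of_le_one (by norm_num) (by norm_num) (by omega)
  have h3 : (1 : ℝ) ≤ 2 * (39 / 40) ^ 6 := by norm_num
  nlinarith [pow_nonneg (show (0 : ℝ) ≤ 39 / 40 by norm_num) (8 * (n / 4))]

theorem dexp_sum {N : ℕ} {S : Finset ℕ} (hS : ∀ n ∈ S, N < n) :
    ∑ n ∈ S, ((n : ℝ) + 1) ^ 2 * exp (-((3 / 2 : ℝ) ^ (n / 4))) ≤ 256000 * (39 / 40) ^ N := by
  have hterm : ∀ n ∈ S, ((n : ℝ) + 1) ^ 2 * exp (-((3 / 2 : ℝ) ^ (n / 4))) ≤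
      2 * (39 / 40) ^ N * (((n : ℝ) + 1) ^ 2 * (39 / 40) ^ n) := fun n hn => by
    refine (mul_le_mul_of_nonneg_left (dexp_term n) (by positivity)).trans ?_
    have h := pow_le_pow_of_le_one (show (0 : ℝ) ≤ 39 / 40 by norm_num) (by norm_num) (hS n hn).le
    calc ((n : ℝ) + 1) ^ 2 * (2 * (39 / 40) ^ n * (39 / 40) ^ n)
        ≤ ((n : ℝ) + 1) ^ 2 * (2 * (39 / 40) ^ N * (39 / 40) ^ n) := by gcongr
      _ = _ := by ring
  refine (Finset.sum_le_sum hterm).trans ?_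
  rw [← Finset.mul_sum]
  refine (mul_le_mul_of_nonneg_left (geo_two (by norm_num) (by norm_num) S)
    (by positivity)).trans (le_of_eq ?_)
  ring

/-- A geometric sequence along `2 ^ (10 i)` beats every exponential. -/
theorem pow_two_pow_bound {r : ℝ} (h0 : 0 ≤ r) (h1 : r < 1) (p : ℕ) :
    ∃ C : ℝ, 0 ≤ C ∧ ∀ i : ℕ, r ^ 2 ^ (10 * i) ≤ C * (1 / 2) ^ (p * i) := by
  obtain ⟨C, hC⟩ := (tendsto_pow_const_mul_const_pow_of_lt_one p h0 h1).bddAbove_range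
  have hC0 : 0 ≤ C := le_trans (by positivity) (hC ⟨0, rfl⟩)
  refine ⟨C, hC0, fun i => ?_⟩
  have h := hC ⟨2 ^ (10 * i), rfl⟩
  simp only [Nat.cast_pow, Nat.cast_ofNat] at h
  rw [div_pow, one_pow, mul_one_div, le_div_iff₀ (by positivity)]
  refine le_trans ?_ h
  rw [mul_comm, ← pow_mul]
  refine mul_le_mul_of_nonneg_right (pow_le_pow_right₀ (by norm_num) ?_) (pow_nonneg h0 _)
  rw [Nat.mul_comm (10 * i) p]
  exact Nat.mul_le_mul_left p (by omega)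

/-- Discrete Gronwall. -/
theorem gronwall {g c b : ℕ → ℝ} {δ : ℝ} (hδ : 0 ≤ δ) {m n : ℕ} (hmn : m ≤ n)
    (hc : ∀ k, 0 ≤ c k) (hb : ∀ k, 0 ≤ b k) (hg : ∀ k, 0 ≤ g k)
    (h : ∀ k, m ≤ k → k < n → g (k + 1) ≤ g k + δ * (c k * g k + b k)) :
    g n ≤ exp (∑ k ∈ Finset.Ico m n, δ * c k) * (g m + ∑ k ∈ Finset.Ico m n, δ * b k) := by
  induction n, hmn using Nat.le_induction with
  | base => simp
  | succ n hmn ih =>
    have ih' := ih fun k h1 h2 => h k h1 (Nat.lt_succ_of_lt h2)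
    rw [Finset.sum_Ico_succ_top hmn, Finset.sum_Ico_succ_top hmn, Real.exp_add]
    set E := exp (∑ k ∈ Finset.Ico m n, δ * c k)
    set B := g m + ∑ k ∈ Finset.Ico m n, δ * b k with hB
    have hE : 1 ≤ E := Real.one_le_exp (Finset.sum_nonneg fun k _ => mul_nonneg hδ (hc k))
    have hc' : 1 + δ * c n ≤ exp (δ * c n) := by linarith [Real.add_one_le_exp (δ * c n)]
    have hcn := mul_nonneg hδ (hc n)
    have hbn := mul_nonneg hδ (hb n)
    calc g (n + 1) ≤ g n + δ * (c n * g n + b n) := h n hmn (Nat.lt_succ_self n)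
      _ = (1 + δ * c n) * g n + δ * b n := by ring
      _ ≤ exp (δ * c n) * (E * B) + exp (δ * c n) * E * (δ * b n) := by
          refine add_le_add (mul_le_mul hc' ih' (hg n) (exp_pos _).le) ?_
          refine le_mul_of_one_le_left hbn ?_
          exact one_le_mul_of_one_le_of_one_le (Real.one_le_exp hcn) hE
      _ = _ := by simp only [hB]; ring

end Vale.Agent.P161
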