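import Vale.Agent.P161.Crit.GNear
import Vale.Agent.P161.Crit.Step
import Vale.Agent.P161.Crit.Series

/-!
# The rates of growth of the gap
-/

open MeasureTheory Finset Real
open scoped Classical

noncomputable section

namespace Vale.Agent.P161

variable {V : Type*} {G : SimpleGraph V} {d : ℕ} {θ θ' η : ℝ} {R M T j k : ℕ}

/-- The total squared difference of the covariances seen from `o`. -/
def Phi (G : SimpleGraph V) (θ θ' : ℝ) (R j k : ℕ) (o : V) : ℝ :=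
  ∑ w ∈ ball G o R, ∫ z, dC G θ θ' R j k o w z ^ 2 ∂gN (ℕ × V)

theorem gap_nonneg (θ θ' : ℝ) (R j k : ℕ) (o : V) : 0 ≤ gap G θ θ' R j k o :=
  integral_nonneg fun _ => sq_nonneg _

theorem gap_step (hT : RTree G d) (h0 : 0 ≤ θ) (h1 : θ < 1) (g0 : 0 ≤ θ') (g1 : θ' < 1) (o : V)
    (R : ℕ) : ∃ K : ℝ, 0 ≤ K ∧ ∀ j k : ℕ, gap G θ θ' R j (k + 1) o ≤
      gap G θ θ' R j k o + dt j * (Phi G θ θ' R j k o + K * √(dt j)) := by
  obtain ⟨K, hK, h⟩ := mag_step hT (ball G o R).card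
  refine ⟨K, hK, fun j k => ?_⟩
  set D := ball G o R with hD
  have hm := self_mem_ball hT o R
  have := h θ θ' h0 h1 g0 g1 D D (conn_ball hT o R) (conn_ball hT o R) (by rw [Finset.union_self])
    o hm hm (dt j) (dt_pos j) (dt_le_one j) k
  simp only [Finset.union_self] at this
  have hi : ∀ w ∈ D, Integrable (fun z => dC G θ θ' R j k o w z ^ 2) (gN (ℕ × V)) := fun w hw =>
    integrable_of_bdd ((measurable_dC o w).pow_const 2) (B := 4) fun z => by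
      have e1 := (cv_bound hT h0 h1 (conn_ball hT o R) (hs G θ R j k o z) o hm w hw).trans
        (pow_le_one₀ h0 h1.le)
      have e2 := (cv_bound hT g0 g1 (conn_ball hT o R) (hs G θ' R j k o z) o hm w hw).trans
        (pow_le_one₀ g0 g1.le)
      have e3 : |dC G θ θ' R j k o w z| ≤ 2 := (abs_sub _ _).trans (by linarith)
      rw [abs_pow]; nlinarith [abs_nonneg (dC G θ θ' R j k o w z)]
  have e : ∫ z, ∑ w ∈ D, (cvx G θ D (scheme G θ D (dt j) z k) o w -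
      cvx G θ' D (scheme G θ' D (dt j) z k) o w) ^ 2 ∂gN (ℕ × V) = Phi G θ θ' R j k o := by
    rw [Phi, ← integral_finsetSum _ hi]
    refine integral_congr_ae (ae_of_all _ fun z => Finset.sum_congr rfl fun w hw => ?_)
    simp only [cvx, if_pos (show w ∈ D from hw), dC, hs, ← hD]
  rw [e] at this
  change gap G θ θ' R j (k + 1) o ≤
    gap G θ θ' R j k o + dt j * Phi G θ θ' R j k o + K * (dt j * √(dt j)) at this
  linarith

theorem phi_split (hT : RTree G d) (hM : M ≤ R) (o : V) {φ : ℝ}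
    (hfar : ∑ w ∈ ball G o R \ ball G o M, ∫ z, dC G θ θ' R j k o w z ^ 2 ∂gN (ℕ × V) ≤ φ) :
    Phi G θ θ' R j k o ≤
      ∑ n ∈ range (M + 1), ∑ w ∈ sphere G o n, ∫ z, dC G θ θ' R j k o w z ^ 2 ∂gN (ℕ × V) + φ := by
  rw [Phi, ← Finset.sum_sdiff (ball_mono hT o hM), add_comm]
  refine add_le_add (le_of_eq ?_) hfar
  rw [← Finset.sum_fiberwise_of_maps_to (g := fun w => G.dist o w) (t := range (M + 1))
    (fun w hw => Finset.mem_range.2 (Nat.lt_succ_of_le ((mem_ball hT).1 hw)))]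
  refine Finset.sum_congr rfl fun n hn => Finset.sum_congr ?_ fun _ _ => rfl
  ext w
  simp only [Finset.mem_filter, mem_ball hT, mem_sphere hT]
  have := Finset.mem_range.1 hn
  constructor
  · exact fun h => h.2
  · exact fun h => ⟨by omega, h⟩

/-- The sum of the crude bounds up to a radius. -/
theorem crude_range (hT : RTree G d) (hN : Near G d θ R M T j k η)
    (hN' : Near G d θ' R M T j k η) (o : V) (M₀ : ℕ) :
    ∑ n ∈ (range (M + 1)).filter (fun n => ¬M₀ < n),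
        ∑ w ∈ sphere G o n, ∫ z, dC G θ θ' R j k o w z ^ 2 ∂gN (ℕ × V) ≤
      10 ^ 13 * ((d - 1 : ℕ) : ℝ) * (((M₀ : ℝ) + 1) ^ 2 * gap G θ θ' R j k o +
        ((M₀ : ℝ) + 1) ^ 3 * ((θ - θ') ^ 2 + η)) := by
  have g0 := gap_nonneg (G := G) θ θ' R j k o
  have hη := hN.eta_nn o
  have hm : ∀ n ∈ (range (M + 1)).filter (fun n => ¬M₀ < n), n ≤ M ∧ (n : ℝ) + 1 ≤ (M₀ : ℝ) + 1 :=
    fun n hn => by
      rw [Finset.mem_filter, Finset.mem_range, not_lt] at hn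
      refine ⟨by omega, ?_⟩
      have : (n : ℝ) ≤ M₀ := by exact_mod_cast hn.2
      linarith
  refine (Finset.sum_le_card_nsmul _ _ (10 ^ 13 * ((d - 1 : ℕ) : ℝ) *
    (((M₀ : ℝ) + 1) * gap G θ θ' R j k o + ((M₀ : ℝ) + 1) ^ 2 * ((θ - θ') ^ 2 + η))) fun n hn => ?_).trans ?_
  · obtain ⟨h1, h2⟩ := hm n hn
    refine (crude_sphere hT hN hN' o h1).trans ?_
    gcongr
  · rw [nsmul_eq_mul]
    have hcard : ((range (M + 1)).filter (fun n => ¬M₀ < n)).card ≤ M₀ + 1 := by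
      refine (Finset.card_le_card (t := range (M₀ + 1)) fun n hn => ?_).trans_eq (Finset.card_range _)
      rw [Finset.mem_filter, not_lt] at hn
      exact Finset.mem_range.2 (Nat.lt_succ_of_le hn.2)
    have hc : (((range (M + 1)).filter (fun n => ¬M₀ < n)).card : ℝ) ≤ (M₀ : ℝ) + 1 := by
      exact_mod_cast hcard
    refine le_trans (mul_le_mul_of_nonneg_right hc ?_) (le_of_eq ?_)
    · positivity
    · ring

/-- The sum of the decaying bounds beyond a radius. -/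
theorem tail_range (hT : RTree G d) (hN : Near G d θ R M T j k η) (hN' : Near G d θ' R M T j k η)
    {γ : ℝ} (hγ : 0 < γ) (hγ1 : γ ≤ 1 / 4) {L : ℕ} (hR : M + L < R)
    (hret : Ret (d - 1) θ (k * dt j) (1 - γ) L) (hret' : Ret (d - 1) θ' (k * dt j) (1 - γ) L)
    (o : V) (S : Finset ℕ) (hS : ∀ n ∈ S, 4 ≤ n ∧ n ≤ M) :
    ∑ n ∈ S, ∑ w ∈ sphere G o n, ∫ z, dC G θ θ' R j k o w z ^ 2 ∂gN (ℕ × V) ≤
      10 ^ 17 * ((d - 1 : ℕ) : ℝ) *
        ((∑ n ∈ S, ((n : ℝ) + 1) * (1 - γ) ^ (n / 4 - 1)) * gap G θ θ' R j k o +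
          2048 / γ ^ 3 * (θ - θ') ^ 2 +
          (∑ n ∈ S, ((n : ℝ) + 1) ^ 2 * exp (-((3 / 2 : ℝ) ^ (n / 4)))) +
          ((M : ℝ) + 1) ^ 4 * η) := by
  refine (Finset.sum_le_sum fun n hn => tail_sphere hT hN hN' hret hret' (by linarith) (by linarith)
    o (hS n hn).1 (hS n hn).2 (by have := (hS n hn).2; omega)).trans ?_
  rw [← Finset.mul_sum, Finset.sum_add_distrib, Finset.sum_add_distrib, Finset.sum_add_distrib,
    ← Finset.sum_mul, ← Finset.sum_mul, ← Finset.sum_mul]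
  have hη := hN.eta_nn o
  have h3 : ∑ n ∈ S, ((n : ℝ) + 1) ^ 3 ≤ ((M : ℝ) + 1) ^ 4 := by
    refine (Finset.sum_le_sum_of_subset_of_nonneg (t := range (M + 1)) (fun n hn => ?_)
      fun n _ _ => by positivity).trans ?_
    · exact Finset.mem_range.2 (Nat.lt_succ_of_le (hS n hn).2)
    · refine (Finset.sum_le_card_nsmul _ _ (((M : ℝ) + 1) ^ 3) fun n hn => ?_).trans (le_of_eq ?_)
      · have : (n : ℝ) ≤ M := by exact_mod_cast Nat.lt_succ_iff.1 (Finset.mem_range.1 hn)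
        gcongr
      · rw [Finset.card_range, nsmul_eq_mul]; push_cast; ring
  gcongr
  exact (pi_sum hγ hγ1 S).2

/-- The rate at times which are not small. -/
theorem rate_large (hT : RTree G d) : ∃ K : ℝ, 0 ≤ K ∧
    ∀ (θ θ' η γ φ : ℝ) (R M T j k L M₀ : ℕ), Near G d θ R M T j k η →
      Near G d θ' R M T j k η → 0 < γ → γ ≤ 1 / 4 → M + L < R → 4 ≤ M₀ →
      Ret (d - 1) θ (k * dt j) (1 - γ) L → Ret (d - 1) θ' (k * dt j) (1 - γ) L → ∀ o : V,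
      (∑ w ∈ ball G o R \ ball G o M, ∫ z, dC G θ θ' R j k o w z ^ 2 ∂gN (ℕ × V) ≤ φ) →
      Phi G θ θ' R j k o ≤ K * (1 / γ ^ 2 + ((M₀ : ℝ) + 1) ^ 2) * gap G θ θ' R j k o +
        K * (39 / 40) ^ (M₀ / 2) *
          exp (-((3 / 2 : ℝ) ^ (M₀ / 4) / 2)) + φ +
        K * (1 / γ ^ 3 + ((M₀ : ℝ) + 1) ^ 3) * (θ - θ') ^ 2 +
        K * (((M₀ : ℝ) + 1) ^ 3 + ((M : ℝ) + 1) ^ 4) * η := by
  set Q := ((d - 1 : ℕ) : ℝ) with hQ
  refine ⟨10 ^ 17 * Q * 10000000, by positivity,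
    fun θ θ' η γ φ R M T j k L M₀ hN hN' hγ hγ1 hR hM0 hret hret' o hfar => ?_⟩
  refine (phi_split hT (by omega) o hfar).trans ?_
  rw [← Finset.sum_filter_add_sum_filter_not (range (M + 1)) (fun n => M₀ < n)]
  set S := (range (M + 1)).filter (fun n => M₀ < n) with hSdef
  have hS : ∀ n ∈ S, M₀ < n ∧ n ≤ M := fun n hn => by
    rw [hSdef, Finset.mem_filter, Finset.mem_range] at hn; exact ⟨hn.2, by omega⟩
  have e1 := tail_range hT hN hN' hγ hγ1 hR hret hret' o S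
    (fun n hn => ⟨by have := (hS n hn).1; omega, (hS n hn).2⟩)
  have e2 := crude_range hT hN hN' o M₀
  have g0 := gap_nonneg (G := G) θ θ' R j k o
  have hη := hN.eta_nn o
  have hX : ∑ n ∈ S, ((n : ℝ) + 1) ^ 2 * exp (-((3 / 2 : ℝ) ^ (n / 4))) ≤
      10000000 * ((39 / 40) ^ (M₀ / 2) * exp (-((3 / 2 : ℝ) ^ (M₀ / 4) / 2))) := by
    set c := exp (-((3 / 2 : ℝ) ^ (M₀ / 4) / 2)) with hc
    have hterm : ∀ n ∈ S, ((n : ℝ) + 1) ^ 2 * exp (-((3 / 2 : ℝ) ^ (n / 4))) ≤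
        4 * c * (39 / 40) ^ (M₀ / 2) * (((n : ℝ) + 1) ^ 2 * (39 / 40) ^ (n / 2)) := fun n hn => by
      have hn1 := (hS n hn).1.le
      have ha : exp (-((3 / 2 : ℝ) ^ (n / 4))) ≤
          c * √(exp (-((3 / 2 : ℝ) ^ (n / 4)))) := by
        rw [← Real.exp_half, hc, ← Real.exp_add]
        refine Real.exp_le_exp.2 ?_
        have := pow_le_pow_right₀ (show (1 : ℝ) ≤ 3 / 2 by norm_num)
          (Nat.div_le_div_right (c := 4) hn1)
        linarith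
      have hb : √(exp (-((3 / 2 : ℝ) ^ (n / 4)))) ≤ 4 * ((39 / 40) ^ (M₀ / 2) * (39 / 40) ^ (n / 2)) := by
        rw [Real.sqrt_le_left (by positivity)]
        refine (dexp_term n).trans ?_
        rw [mul_pow, mul_pow, ← pow_mul, ← pow_mul]
        have h1 : (39 / 40 : ℝ) ^ n ≤ (39 / 40) ^ (M₀ / 2 * 2) :=
          pow_le_pow_of_le_one (by norm_num) (by norm_num) (by omega)
        have h2 : (39 / 40 : ℝ) ^ n ≤ (39 / 40) ^ (n / 2 * 2) :=
          pow_le_pow_of_le_one (by norm_num) (by norm_num) (by omega)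
        calc 2 * (39 / 40 : ℝ) ^ n * (39 / 40) ^ n
            ≤ 4 ^ 2 * (39 / 40) ^ (M₀ / 2 * 2) * (39 / 40) ^ (n / 2 * 2) := by
              gcongr; norm_num
          _ = _ := by ring
      calc ((n : ℝ) + 1) ^ 2 * exp (-((3 / 2 : ℝ) ^ (n / 4)))
          ≤ ((n : ℝ) + 1) ^ 2 * (c * (4 * ((39 / 40) ^ (M₀ / 2) * (39 / 40) ^ (n / 2)))) :=
            mul_le_mul_of_nonneg_left (ha.trans (mul_le_mul_of_nonneg_left hb (exp_pos _).le))
              (sq_nonneg _)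
        _ = _ := by ring
    refine (Finset.sum_le_sum hterm).trans ?_
    rw [← Finset.mul_sum]
    have hgeo : ∑ n ∈ S, ((n : ℝ) + 1) ^ 2 * (39 / 40 : ℝ) ^ (n / 2) ≤
        2 * (2 / (1 - 79 / 80) ^ 3) := by
      have hle : ∀ n : ℕ, (39 / 40 : ℝ) ^ (n / 2) ≤ 2 * (79 / 80) ^ n := fun n => by
        have hh : (39 / 40 : ℝ) ≤ (79 / 80) ^ 2 := by norm_num
        refine (pow_le_pow_left₀ (by norm_num) hh _).trans ?_
        rw [← pow_mul]
        rcases Nat.mod_two_eq_zero_or_one n with h | h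
        · rw [show 2 * (n / 2) = n by omega]
          exact le_mul_of_one_le_left (by positivity) (by norm_num)
        · calc (79 / 80 : ℝ) ^ (2 * (n / 2))
              = (80 / 79) * ((79 / 80) ^ (2 * (n / 2)) * (79 / 80)) := by ring
            _ = 80 / 79 * (79 / 80) ^ n := by rw [← pow_succ, show 2 * (n / 2) + 1 = n by omega]
            _ ≤ _ := mul_le_mul_of_nonneg_right (by norm_num) (by positivity)
      refine (Finset.sum_le_sum fun n _ => mul_le_mul_of_nonneg_left (hle n) (by positivity)).trans ?_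
      rw [Finset.sum_congr rfl fun (n : ℕ) _ =>
        (mul_left_comm (((n : ℝ) + 1) ^ 2) (2 : ℝ) ((79 / 80) ^ n)), ← Finset.mul_sum]
      refine (mul_le_mul_of_nonneg_left (geo_two (by norm_num) (by norm_num) S) (by norm_num)).trans ?_
      norm_num
    refine (mul_le_mul_of_nonneg_left hgeo (by positivity)).trans ?_
    have : (0 : ℝ) ≤ c * (39 / 40) ^ (M₀ / 2) := by positivity
    norm_num
    linarith
  refine (add_le_add (add_le_add e1 e2) le_rfl).trans ?_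
  have hs1 := (pi_sum hγ hγ1 S).1
  have b1 := mul_le_mul_of_nonneg_right hs1 g0
  have hQ0 : 0 ≤ Q := Nat.cast_nonneg _
  simp only [← hQ]
  calc _ ≤ 10 ^ 17 * Q * (128 / γ ^ 2 * gap G θ θ' R j k o + 2048 / γ ^ 3 * (θ - θ') ^ 2 +
          10000000 * ((39 / 40) ^ (M₀ / 2) * exp (-((3 / 2 : ℝ) ^ (M₀ / 4) / 2))) +
          ((M : ℝ) + 1) ^ 4 * η) +
        10 ^ 17 * Q * (((M₀ : ℝ) + 1) ^ 2 * gap G θ θ' R j k o +
          ((M₀ : ℝ) + 1) ^ 3 * ((θ - θ') ^ 2 + η)) + φ := by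
        gcongr <;> norm_num
    _ ≤ _ := by
        have p1 : 0 ≤ 10 ^ 17 * Q * (((M₀ : ℝ) + 1) ^ 2 * gap G θ θ' R j k o) := by positivity
        have p2 : 0 ≤ 10 ^ 17 * Q * (1 / γ ^ 2 * gap G θ θ' R j k o) := by positivity
        have p3 : 0 ≤ 10 ^ 17 * Q * (1 / γ ^ 3 * (θ - θ') ^ 2) := by positivity
        have p4 : 0 ≤ 10 ^ 17 * Q * (((M₀ : ℝ) + 1) ^ 3 * (θ - θ') ^ 2) := by positivity
        have p5 : 0 ≤ 10 ^ 17 * Q * (((M₀ : ℝ) + 1) ^ 3 * η) := by positivity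
        have p6 : 0 ≤ 10 ^ 17 * Q * (((M : ℝ) + 1) ^ 4 * η) := by positivity
        rw [div_eq_mul_one_div (128 : ℝ), div_eq_mul_one_div (2048 : ℝ)]
        linarith

theorem combine_small {Q Kn g η X e E M4 P σp σx Cx h BC m W Bg N3 r G3 : ℝ} (hQ : 0 ≤ Q)
    (hKn : 0 ≤ Kn) (hg : 0 ≤ g) (hη : 0 ≤ η) (hX : 0 ≤ X) (he : 0 ≤ e) (heX : e ≤ X) (hE : 1 ≤ E)
    (hM : 1 ≤ M4) (hP : 0 ≤ P) (hN3 : 0 ≤ N3) (hr : 0 ≤ r) (hG : 0 ≤ G3)
    (hσp : σp * g ≤ P * g) (hW : (m + 1) * W * g ≤ 24 * E * g) (hσx : σx ≤ 256000 * (Cx * h))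
    (hB : (m + 1) ^ 3 * Bg ≤ 64 * BC * h + 64 * (N3 * r) * η) (hm : (m + 1) ^ 3 ≤ 64 * N3) (φ : ℝ) :
    10 ^ 17 * Q * (σp * g + G3 * e + σx + M4 * η) +
        (m + 1) * (Kn * (W * g + (m + 1) ^ 2 * (Bg + η + X))) + φ ≤
      (24 * Kn + 10 ^ 13 * Q * 16 + 10 ^ 17 * Q * P) * E * g +
        (64 * Kn * BC + 10 ^ 17 * Q * 256000 * Cx) * h + φ +
        (64 * Kn * (N3 * (r + 1)) + 10 ^ 17 * Q * (G3 + 1) + 10 ^ 13 * Q * 1000) * X +
        (64 * Kn * (N3 * (r + 1)) + 10 ^ 17 * Q * (G3 + 1) + 10 ^ 13 * Q * 1000) * M4 * η := by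
  have a1 := mul_le_mul_of_nonneg_left hσp (by positivity : (0 : ℝ) ≤ 10 ^ 17 * Q)
  have a2 := mul_le_mul_of_nonneg_left hW hKn
  have a3 := mul_le_mul_of_nonneg_left hσx (by positivity : (0 : ℝ) ≤ 10 ^ 17 * Q)
  have a4 := mul_le_mul_of_nonneg_left hB hKn
  have a5 := mul_le_mul_of_nonneg_left (mul_le_mul_of_nonneg_right hm hη) hKn
  have a6 := mul_le_mul_of_nonneg_left (mul_le_mul_of_nonneg_right hm hX) hKn
  have a7 := mul_le_mul_of_nonneg_left (mul_le_mul_of_nonneg_left heX hG)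
    (by positivity : (0 : ℝ) ≤ 10 ^ 17 * Q)
  have a8 := mul_le_mul_of_nonneg_left (mul_le_mul_of_nonneg_right hE (mul_nonneg hP hg))
    (by positivity : (0 : ℝ) ≤ 10 ^ 17 * Q)
  have a9 : 64 * Kn * (N3 * (r + 1)) * η ≤ 64 * Kn * (N3 * (r + 1)) * M4 * η :=
    mul_le_mul_of_nonneg_right (le_mul_of_one_le_right (by positivity) hM) hη
  have p1 : 0 ≤ 10 ^ 13 * Q * 16 * E * g := by
    have := mul_nonneg (mul_nonneg hQ (zero_le_one.trans hE)) hg
    linarith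
  have p2 : 0 ≤ 10 ^ 13 * Q * 1000 * X := by positivity
  have p3 : 0 ≤ 10 ^ 13 * Q * 1000 * M4 * η := by
    have := mul_nonneg (mul_nonneg hQ (zero_le_one.trans hM)) hη
    linarith
  have p4 : 0 ≤ 10 ^ 17 * Q * X := by positivity
  have p5 : 0 ≤ 10 ^ 17 * Q * G3 * M4 * η := by
    have := mul_nonneg (mul_nonneg (mul_nonneg hQ hG) (zero_le_one.trans hM)) hη
    linarith
  have p6 : 0 ≤ Kn * N3 * r * X := by positivity
  linarith

theorem scale_W {u N m : ℝ} (hu : 1 ≤ u) (hN : N = u ^ 10) (hm0 : 0 ≤ m) (hmax : m + 1 ≤ 4 * N) :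
    (m + 1) * (1 + m * (1 / (2 * u ^ 3)) ^ 2 + m ^ 2 * (1 / (2 * u ^ 3)) ^ 6) ≤ 24 * u ^ 14 := by
  subst hN
  have hu0 : 0 < u := by linarith
  have a1 : m ≤ 4 * u ^ 10 := by linarith
  have b1 : m * (1 / (2 * u ^ 3)) ^ 2 ≤ u ^ 4 := by
    refine (mul_le_mul_of_nonneg_right a1 (sq_nonneg _)).trans (le_of_eq ?_)
    field_simp; ring
  have b2 : m ^ 2 * (1 / (2 * u ^ 3)) ^ 6 ≤ u ^ 4 := by
    refine (mul_le_mul_of_nonneg_right (pow_le_pow_left₀ hm0 a1 2) (by positivity)).trans ?_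
    have e : (4 * u ^ 10) ^ 2 * (1 / (2 * u ^ 3)) ^ 6 = u ^ 2 / 4 := by field_simp; ring
    rw [e]
    have := pow_le_pow_right₀ hu (show 2 ≤ 4 by norm_num)
    linarith [sq_nonneg u]
  have b3 := one_le_pow₀ (n := 4) hu
  refine (mul_le_mul hmax (show _ ≤ 3 * u ^ 4 by linarith) (by positivity) (by positivity)).trans ?_
  have : 4 * u ^ 10 * (3 * u ^ 4) = 12 * u ^ 14 := by ring
  linarith [pow_nonneg hu0.le 14]

theorem scale_tail {δ₀ u N γ : ℝ} (hδ : 0 < δ₀) (hu : 1 ≤ u) (hN : N = u ^ 10)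
    (hγ : γ = δ₀ / (256 * u ^ 8)) :
    512 / γ ^ 2 * exp (-(γ * N / 8)) ≤
      512 * 2 ^ 16 / δ₀ ^ 2 * (Nat.factorial 8 * (2048 / δ₀) ^ 8) := by
  subst hN hγ
  have hu0 : 0 < u := by linarith
  set y := δ₀ / (256 * u ^ 8) * u ^ 10 / 8 with hyd
  have hy : y = δ₀ * u ^ 2 / 2048 := by rw [hyd]; field_simp; ring
  have hy0 : 0 < y := by positivity
  have h8 : exp (-y) ≤ Nat.factorial 8 / y ^ 8 := by
    have := Real.pow_div_factorial_le_exp y hy0.le 8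
    rw [Real.exp_neg, inv_eq_one_div, div_le_div_iff₀ (exp_pos _) (by positivity), one_mul]
    rwa [div_le_iff₀ (by positivity), mul_comm] at this
  refine (mul_le_mul_of_nonneg_left h8 (by positivity)).trans (le_of_eq ?_)
  rw [hy]
  generalize (Nat.factorial 8 : ℝ) = f
  field_simp
  ring

theorem scale_B {u N m μ η Cq : ℝ} {i p q : ℕ} (hpq : p + 30 ≤ q) (hu : u = 2 ^ i)
    (hN : N = u ^ 10) (hm0 : 0 ≤ m) (hmax : m + 1 ≤ 4 * N) (hC : 0 ≤ Cq) (hη : 0 ≤ η)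
    (hμ : μ = Cq * (1 / 2) ^ (4 * i * q)) :
    (m + 1) ^ 3 * ((16 / (1 / (2 * u ^ 3))) ^ q * (μ + η)) ≤
      64 * (32 ^ q * Cq) * (1 / 2) ^ (p * i) + 64 * (N ^ 3 * (16 / (1 / (2 * u ^ 3))) ^ q) * η := by
  have hu0 : 0 < u := by rw [hu]; positivity
  have hμ0 : 0 ≤ μ := by rw [hμ]; positivity
  refine (mul_le_mul_of_nonneg_right (pow_le_pow_left₀ (by positivity) hmax 3)
    (by positivity)).trans ?_
  have e : (16 / (1 / (2 * u ^ 3))) ^ q * μ = 32 ^ q * Cq * (1 / 2) ^ (i * q) := by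
    subst hu hμ
    rw [div_div_eq_mul_div, div_one, show (16 : ℝ) * (2 * (2 ^ i) ^ 3) = 32 * (2 ^ i) ^ 3 by ring,
      mul_pow, show 4 * i * q = i * q + 3 * (i * q) by ring, pow_add, ← pow_mul, ← pow_mul,
      show i * (3 * q) = 3 * (i * q) by ring]
    have h2 : (2 : ℝ) ^ (3 * (i * q)) * (1 / 2) ^ (3 * (i * q)) = 1 := by
      rw [← mul_pow, show (2 : ℝ) * (1 / 2) = 1 by norm_num, one_pow]
    calc (32 : ℝ) ^ q * 2 ^ (3 * (i * q)) * (Cq * ((1 / 2) ^ (i * q) * (1 / 2) ^ (3 * (i * q))))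
        = 32 ^ q * Cq * (1 / 2) ^ (i * q) * (2 ^ (3 * (i * q)) * (1 / 2) ^ (3 * (i * q))) := by ring
      _ = _ := by rw [h2, mul_one]
  have h3 : N ^ 3 * (1 / 2) ^ (i * q) ≤ (1 / 2) ^ (p * i) := by
    rw [hN, hu, ← pow_mul, ← pow_mul]
    calc (2 : ℝ) ^ (i * (10 * 3)) * (1 / 2) ^ (i * q)
        ≤ 2 ^ (i * (10 * 3)) * (1 / 2) ^ (i * (10 * 3) + p * i) := by
          refine mul_le_mul_of_nonneg_left (pow_le_pow_of_le_one (by norm_num) (by norm_num) ?_)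
            (by positivity)
          have := Nat.mul_le_mul_left i hpq
          rw [Nat.mul_add, Nat.mul_comm i p] at this
          omega
      _ = _ := by
          rw [pow_add, ← mul_assoc, ← mul_pow, show (2 : ℝ) * (1 / 2) = 1 by norm_num, one_pow, one_mul]
  calc (4 * N) ^ 3 * ((16 / (1 / (2 * u ^ 3))) ^ q * (μ + η))
      = 64 * (32 ^ q * Cq) * (N ^ 3 * (1 / 2) ^ (i * q)) +
          64 * (N ^ 3 * (16 / (1 / (2 * u ^ 3))) ^ q) * η := by rw [mul_add, e]; ring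
    _ ≤ _ := by gcongr

/-- The rate in the block of times around `(1/2) ^ (16 i)`. -/
theorem rate_small (hT : RTree G d) : ∃ K : ℝ, 0 ≤ K ∧ ∀ δ₀ : ℝ, 0 < δ₀ → δ₀ ≤ 1 / 4 →
    ∃ K' : ℝ, 0 ≤ K' ∧ ∀ p q : ℕ, p + 30 ≤ q → ∀ Cq : ℝ, 0 ≤ Cq →
    ∃ Cp : ℝ, 0 ≤ Cp ∧ ∀ i : ℕ, ∃ A : ℝ, 0 ≤ A ∧
    ∀ (θ θ' η φ : ℝ) (R M T j k L : ℕ), Near G d θ R M T j k η →
      Near G d θ' R M T j k η → M + L < R → 0 < (k : ℝ) * dt j →
      Ret (d - 1) θ (k * dt j) (1 - δ₀ * (1 / 2) ^ (8 * (i + 1))) L →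
      Ret (d - 1) θ' (k * dt j) (1 - δ₀ * (1 / 2) ^ (8 * (i + 1))) L →
      Mom (d - 1) θ (k * dt j) q (Cq * (1 / 2) ^ (4 * i * q)) →
      Mom (d - 1) θ' (k * dt j) q (Cq * (1 / 2) ^ (4 * i * q)) → ∀ o : V,
      (∑ w ∈ ball G o R \ ball G o M, ∫ z, dC G θ θ' R j k o w z ^ 2 ∂gN (ℕ × V) ≤ φ) →
      Phi G θ θ' R j k o ≤ (K + K') * 2 ^ (14 * i) * gap G θ θ' R j k o +
        Cp * (1 / 2) ^ (p * i) + φ +
        A * ((θ - θ') ^ 2 + (1 / ((d - 1 : ℕ) : ℝ) - θ ^ 2) + (1 / ((d - 1 : ℕ) : ℝ) - θ' ^ 2) +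
          (strength (d - 1) θ (k * dt j) R - strength (d - 1) θ' (k * dt j) R) ^ 2) +
        A * ((M : ℝ) + 1) ^ 4 * η := by
  obtain ⟨Kn, hKn, hnear⟩ := near_sphere hT
  set Q := ((d - 1 : ℕ) : ℝ) with hQ
  have hQ0 : 0 ≤ Q := Nat.cast_nonneg _
  refine ⟨24 * Kn + 10 ^ 13 * Q * 16, by positivity, fun δ₀ hδ₀ hδ₁ => ?_⟩
  refine ⟨10 ^ 17 * Q * (512 * 2 ^ 16 / δ₀ ^ 2 *
    (Nat.factorial 8 * (2048 / δ₀) ^ 8)), by positivity, fun p q hpq Cq hCq => ?_⟩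
  obtain ⟨Cx, hCx, hx⟩ := pow_two_pow_bound (show (0 : ℝ) ≤ 39 / 40 by norm_num) (by norm_num) p
  refine ⟨64 * Kn * (32 ^ q * Cq) + 10 ^ 17 * Q * 256000 * Cx, by positivity, fun i => ?_⟩
  set γ := δ₀ * (1 / 2 : ℝ) ^ (8 * (i + 1)) with hγdef
  have hγ : 0 < γ := by positivity
  have hγ1 : γ ≤ 1 / 4 := (mul_le_of_le_one_right hδ₀.le (pow_le_one₀ (by norm_num) (by norm_num))).trans hδ₁
  set N := 2 ^ (10 * i) with hN'def
  set lam := (1 / 2 : ℝ) ^ (3 * i + 1) with hlam'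
  set A₁ := 64 * Kn * ((N : ℝ) ^ 3 * ((16 / lam) ^ q + 1)) + 10 ^ 17 * Q * (2048 / γ ^ 3 + 1) +
    10 ^ 13 * Q * 1000
  refine ⟨A₁, by positivity,
    fun θ θ' η φ R M T j k L hN hN' hR ht hret hret' hm hm' o hfar => ?_⟩
  refine (phi_split hT (by omega) o hfar).trans ?_
  rw [← Finset.sum_filter_add_sum_filter_not (range (M + 1)) (fun n => max N 3 < n)]
  set S := (range (M + 1)).filter (fun n => max N 3 < n) with hSdef
  set S' := (range (M + 1)).filter (fun n => ¬max N 3 < n) with hS'def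
  have hS : ∀ n ∈ S, max N 3 < n ∧ n ≤ M := fun n hn => by
    rw [hSdef, Finset.mem_filter, Finset.mem_range] at hn; exact ⟨hn.2, by omega⟩
  have e1 := tail_range hT hN hN' hγ hγ1 hR hret hret' o S
    (fun n hn => ⟨by have := (hS n hn).1; omega, (hS n hn).2⟩)
  have g0 := gap_nonneg (G := G) θ θ' R j k o
  have hη := hN.eta_nn o
  have hε1 : 0 ≤ 1 / Q - θ ^ 2 := sub_nonneg.2 (sq_le_inv (Q_two hT) hN.crit)
  have hε2 : 0 ≤ 1 / Q - θ' ^ 2 := sub_nonneg.2 (sq_le_inv (Q_two hT) hN'.crit)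
  set g := gap G θ θ' R j k o
  set X := (θ - θ') ^ 2 + (1 / Q - θ ^ 2) + (1 / Q - θ' ^ 2) +
    (strength (d - 1) θ (k * dt j) R - strength (d - 1) θ' (k * dt j) R) ^ 2 with hX
  have hX0 : 0 ≤ X := by
    simp only [hX]
    linarith [sq_nonneg (θ - θ'), sq_nonneg (strength (d - 1) θ (k * dt j) R -
      strength (d - 1) θ' (k * dt j) R)]
  have hlam : 0 < lam := by positivity
  have hlam2 : lam ≤ 1 / 2 := by
    simp only [hlam']
    calc (1 / 2 : ℝ) ^ (3 * i + 1) ≤ (1 / 2 : ℝ) ^ 1 :=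
          pow_le_pow_of_le_one (by norm_num) (by norm_num) (by omega)
      _ = 1 / 2 := pow_one _
  set μ := Cq * (1 / 2 : ℝ) ^ (4 * i * q) with hμ
  have hμ0 : 0 ≤ μ := by positivity
  set W := (1 + (max N 3 : ℕ) * lam ^ 2 + ((max N 3 : ℕ) : ℝ) ^ 2 * lam ^ 6) with hW
  have hN1 : (1 : ℝ) ≤ N := by exact_mod_cast Nat.one_le_two_pow
  have hmax : ((max N 3 : ℕ) : ℝ) + 1 ≤ 4 * N := by
    rcases le_total N 3 with h | h
    · rw [max_eq_right h]; push_cast; linarith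
    · rw [max_eq_left h]; linarith
  set m := ((max N 3 : ℕ) : ℝ) with hmdef
  have hm0 : 0 ≤ m := Nat.cast_nonneg _
  have e2 : ∑ n ∈ S', ∑ w ∈ sphere G o n, ∫ z, dC G θ θ' R j k o w z ^ 2 ∂gN (ℕ × V) ≤
      (m + 1) * (Kn * (W * g + (m + 1) ^ 2 * (Bg lam q μ η + η + X))) := by
    have hB := hN.nonneg_Bg o (q := q) hlam hμ0
    refine (Finset.sum_le_card_nsmul _ _ (Kn * (W * g + (m + 1) ^ 2 * (Bg lam q μ η + η + X)))
      fun n hn => ?_).trans ?_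
    · rw [hS'def, Finset.mem_filter, Finset.mem_range, not_lt] at hn
      refine (hnear θ θ' η R M T j k q μ lam hN hN' hlam hlam2 (by omega) ht hm hm' o n
        (by omega)).trans ?_
      have hnm : (n : ℝ) ≤ m := Nat.cast_le.2 hn.2
      refine mul_le_mul_of_nonneg_left (add_le_add ?_ ?_) hKn
      · refine mul_le_mul_of_nonneg_right ?_ g0
        rw [hW]; gcongr
      · refine mul_le_mul (by gcongr) (le_of_eq (by simp only [hX]; ring)) ?_ (sq_nonneg _)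
        linarith [sq_nonneg (θ - θ'), sq_nonneg (strength (d - 1) θ (k * dt j) R -
          strength (d - 1) θ' (k * dt j) R)]
    · rw [nsmul_eq_mul]
      refine mul_le_mul_of_nonneg_right ?_ (by positivity)
      have : S'.card ≤ max N 3 + 1 := by
        refine (Finset.card_le_card (t := range (max N 3 + 1)) fun n hn => ?_).trans_eq
          (Finset.card_range _)
        rw [hS'def, Finset.mem_filter, not_lt] at hn
        exact Finset.mem_range.2 (Nat.lt_succ_of_le hn.2)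
      simp only [hmdef]
      exact_mod_cast this
  refine (add_le_add (add_le_add e1 e2) le_rfl).trans ?_
  -- the scales
  set u := (2 : ℝ) ^ i with hu
  have hu1 : 1 ≤ u := one_le_pow₀ (by norm_num)
  have hu0 : 0 < u := by positivity
  have hNu : (N : ℝ) = u ^ 10 := by
    simp only [hN'def, hu]; push_cast; rw [← pow_mul, Nat.mul_comm]
  have hlu : lam = 1 / (2 * u ^ 3) := by
    rw [hlam', hu, ← pow_mul, div_pow, one_pow, pow_succ, Nat.mul_comm 3 i, mul_comm]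
  have hγu : γ = δ₀ / (256 * u ^ 8) := by
    simp only [hγdef, hu]
    rw [← pow_mul, mul_add, div_pow, one_pow, pow_add, Nat.mul_comm 8 i]; ring
  have hW' : (m + 1) * W ≤ 24 * 2 ^ (14 * i) := by
    rw [hW, hlu, Nat.mul_comm 14 i, pow_mul]
    exact scale_W hu1 hNu hm0 hmax
  have hpi : ∑ n ∈ S, ((n : ℝ) + 1) * (1 - γ) ^ (n / 4 - 1) ≤
      512 * 2 ^ 16 / δ₀ ^ 2 * (Nat.factorial 8 * (2048 / δ₀) ^ 8) :=
    (pi_sum_tail hγ hγ1 (N := N) fun n hn => (le_max_left N 3).trans_lt (hS n hn).1).trans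
      (scale_tail hδ₀ hu1 hNu hγu)
  have hdx : ∑ n ∈ S, ((n : ℝ) + 1) ^ 2 * exp (-((3 / 2 : ℝ) ^ (n / 4))) ≤
      256000 * (Cx * (1 / 2) ^ (p * i)) :=
    (dexp_sum (N := N) fun n hn => (le_max_left N 3).trans_lt (hS n hn).1).trans
      (mul_le_mul_of_nonneg_left (hx i) (by norm_num))
  have hB : (m + 1) ^ 3 * Bg lam q μ η ≤ 64 * (32 ^ q * Cq) * (1 / 2) ^ (p * i) +
      64 * ((N : ℝ) ^ 3 * (16 / lam) ^ q) * η := by
    rw [Bg, hlu]
    exact scale_B hpq hu hNu hm0 hmax hCq hη hμ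
  have q1 := mul_le_mul_of_nonneg_right hW' g0
  have q2 := mul_le_mul_of_nonneg_right hpi g0
  have hm3 : (m + 1) ^ 3 ≤ 64 * (N : ℝ) ^ 3 :=
    (pow_le_pow_left₀ (by positivity) hmax 3).trans_eq (by ring)
  have q3 := mul_le_mul_of_nonneg_right hm3 hX0
  have q4 := mul_le_mul_of_nonneg_right hm3 hη
  have h14 : (1 : ℝ) ≤ 2 ^ (14 * i) := one_le_pow₀ (by norm_num)
  have hM4 : (1 : ℝ) ≤ ((M : ℝ) + 1) ^ 4 :=
    one_le_pow₀ (by linarith [Nat.cast_nonneg (α := ℝ) M])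
  have heX : (θ - θ') ^ 2 ≤ X := by
    simp only [hX]
    linarith [sq_nonneg (strength (d - 1) θ (k * dt j) R - strength (d - 1) θ' (k * dt j) R)]
  exact combine_small hQ0 hKn g0 hη hX0 (sq_nonneg (θ - θ')) heX
    h14 hM4 (by positivity) (by positivity) (by positivity) (by positivity) q2 q1 hdx hB hm3 φ

end Vale.Agent.P161
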