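import Vale.Agent.P161.Compare
import Mathlib.Analysis.SpecialFunctions.Artanh
import Mathlib.Probability.Distributions.Gaussian.Real
import Mathlib.Analysis.Complex.ExponentialBounds

/-!
# Magnetization laws satisfying the Nishimori identity

A law of a log-likelihood ratio `x`, conditioned on the plus sign, gives to a function `h` the
same value of `∫ h(-x) (1 - tanh x)` and `∫ h(x) (1 - tanh x)`.
-/

open MeasureTheory ProbabilityTheory Finset Real
open scoped ENNReal NNReal Classical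

noncomputable section

namespace Vale.Agent.P161

variable {θ : ℝ}

theorem tanh_add' (x y : ℝ) :
    tanh (x + y) = (tanh x + tanh y) / (1 + tanh x * tanh y) := by
  have hx := (Real.cosh_pos x).ne'
  have hy := (Real.cosh_pos y).ne'
  simp only [Real.tanh_eq_sinh_div_cosh, Real.sinh_add, Real.cosh_add]
  rw [div_add_div _ _ hx hy, div_mul_div_comm, one_add_div (mul_ne_zero hx hy),
    div_div_div_cancel_right₀ (mul_ne_zero hx hy)]

theorem one_add_tanh_mul_pos (x y : ℝ) : 0 < 1 + tanh x * tanh y := by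
  have hx := abs_lt.1 (Real.abs_tanh_lt_one x)
  have hy := abs_lt.1 (Real.abs_tanh_lt_one y)
  nlinarith [mul_pos (sub_pos.2 hx.2) (sub_pos.2 hy.2),
    mul_pos (neg_lt_iff_pos_add.1 hx.1) (neg_lt_iff_pos_add.1 hy.1)]

theorem tanh_le_tanh {x y : ℝ} (h : x ≤ y) : tanh x ≤ tanh y := by
  by_contra hc
  have := artanh_lt_artanh (Real.neg_one_lt_tanh y) (Real.tanh_lt_one x) (not_le.1 hc)
  rw [artanh_tanh, artanh_tanh] at this
  linarith

theorem tanh_nonneg' {x : ℝ} (h : 0 ≤ x) : 0 ≤ tanh x := by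
  simpa using tanh_le_tanh h

theorem half_le_tanh {x : ℝ} (h0 : 0 ≤ x) (h1 : x ≤ 1) : x / 3 ≤ tanh x := by
  rw [Real.tanh_eq, le_div_iff₀ (by positivity)]
  have e1 : x + 1 ≤ exp x := Real.add_one_le_exp x
  have e2 : exp (-x) ≤ 1 := Real.exp_le_one_iff.2 (by linarith)
  have e3 : exp x ≤ exp 1 := Real.exp_le_exp.2 h1
  have e4 : exp 1 < 2.7182818286 := Real.exp_one_lt_d9
  nlinarith [exp_pos (-x)]

theorem abs_tanh_abs (x : ℝ) : |tanh x| = tanh |x| := by
  rcases le_total 0 x with h | h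
  · rw [abs_of_nonneg (tanh_nonneg' h), abs_of_nonneg h]
  · rw [abs_of_nonpos h, Real.tanh_neg, abs_of_nonpos]
    have := tanh_le_tanh h
    simpa using this

theorem leafShift_eq (h0 : 0 ≤ θ) (h1 : θ < 1) (x : ℝ) :
    leafShift θ x = artanh (θ * tanh x) := by
  have hb := abs_lt.1 (Real.abs_tanh_lt_one x)
  have hm : θ * tanh x ∈ Set.Ioo (-1 : ℝ) 1 := ⟨by nlinarith, by nlinarith⟩
  rw [artanh_eq_half_log (Set.Ioo_subset_Icc_self hm), leafShift]
  have p1 := leafSum_pos h0 h1 x (s := 1) (Or.inl rfl)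
  have p2 := leafSum_pos h0 h1 x (s := -1) (Or.inr rfl)
  rw [← Real.log_div p1.ne' p2.ne']
  have he : leafSum θ x 1 / leafSum θ x (-1) = (1 + θ * tanh x) / (1 - θ * tanh x) := by
    have hc : 0 < exp x + exp (-x) := by positivity
    have hn : 1 - θ * tanh x ≠ 0 := by linarith [hm.2]
    rw [div_eq_div_iff p2.ne' hn, Real.tanh_eq, leafSum, leafSum]
    field_simp
    ring
  rw [he]
  ring

theorem tanh_leafShift (h0 : 0 ≤ θ) (h1 : θ < 1) (x : ℝ) :
    tanh (leafShift θ x) = θ * tanh x := by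
  have hb := abs_lt.1 (Real.abs_tanh_lt_one x)
  rw [leafShift_eq h0 h1, tanh_artanh ⟨by nlinarith, by nlinarith⟩]

theorem leafShift_neg (h0 : 0 ≤ θ) (h1 : θ < 1) (x : ℝ) :
    leafShift θ (-x) = -leafShift θ x := by
  apply tanh_injective
  rw [Real.tanh_neg, tanh_leafShift h0 h1, tanh_leafShift h0 h1, Real.tanh_neg, mul_neg]

theorem measurable_leafShift : Measurable (leafShift θ) := by
  unfold leafShift leafSum; fun_prop

theorem abs_leafShift_le (h0 : 0 ≤ θ) (h1 : θ < 1) (x : ℝ) :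
    |leafShift θ x| ≤ 2 / (1 - θ) * |θ * tanh x| := by
  have key : ∀ u : ℝ, 0 ≤ u → u ≤ θ → artanh u ≤ 2 / (1 - θ) * u := by
    intro u hu0 hu
    rw [artanh_eq_half_log (Set.mem_Icc.2 ⟨by linarith, by linarith⟩)]
    have e := Real.log_le_sub_one_of_pos (div_pos (by linarith : 0 < 1 + u) (by linarith : 0 < 1 - u))
    have e2 : (1 + u) / (1 - u) - 1 ≤ 4 / (1 - θ) * u := by
      rw [div_sub_one (by linarith : 1 - u ≠ 0), show (1 + u) - (1 - u) = 2 * u by ring]
      calc 2 * u / (1 - u) ≤ 2 * u / (1 - θ) :=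
            div_le_div_of_nonneg_left (by linarith) (by linarith) (by linarith)
        _ ≤ 4 * u / (1 - θ) := div_le_div_of_nonneg_right (by linarith) (by linarith)
        _ = 4 / (1 - θ) * u := by ring
    have e3 : (4 / (1 - θ) * u) = 2 * (2 / (1 - θ) * u) := by ring
    linarith
  rcases le_total 0 x with h | h
  · have ht := tanh_nonneg' h
    have hb := (abs_lt.1 (Real.abs_tanh_lt_one x)).2
    rw [leafShift_eq h0 h1, abs_of_nonneg (mul_nonneg h0 ht),
      abs_of_nonneg (artanh_nonneg (mul_nonneg h0 ht))]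
    exact key _ (mul_nonneg h0 ht) (by nlinarith)
  · have ht := tanh_nonneg' (neg_nonneg.2 h)
    have hb := (abs_lt.1 (Real.abs_tanh_lt_one (-x))).2
    rw [← abs_neg, ← leafShift_neg h0 h1, ← abs_neg (θ * tanh x), ← mul_neg, ← Real.tanh_neg,
      leafShift_eq h0 h1, abs_of_nonneg (mul_nonneg h0 ht),
      abs_of_nonneg (artanh_nonneg (mul_nonneg h0 ht))]
    exact key _ (mul_nonneg h0 ht) (by nlinarith)

/-- The Nishimori identity. -/
def Nish (μ : Measure ℝ) : Prop :=
  IsProbabilityMeasure μ ∧ ∀ h : ℝ → ℝ, Measurable h → (∃ B, ∀ x, |h x| ≤ B) →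
    ∫ x, h (-x) * (1 - tanh x) ∂μ = ∫ x, h x * (1 - tanh x) ∂μ

theorem integrable_weight {μ : Measure ℝ} [IsFiniteMeasure μ] {h : ℝ → ℝ} (hm : Measurable h)
    {B : ℝ} (hB : ∀ x, |h x| ≤ B) : Integrable (fun x => h x * (1 - tanh x)) μ := by
  refine integrable_of_bdd (hm.mul (measurable_tanh'.const_sub 1)) (B := B * 2) fun x => ?_
  show |h x * (1 - tanh x)| ≤ B * 2
  rw [abs_mul]
  exact mul_le_mul (hB x) ((abs_sub _ _).trans (by rw [abs_one]; linarith [abs_tanh_le x]))
    (abs_nonneg _) ((abs_nonneg _).trans (hB x))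

theorem Nish.half {μ : Measure ℝ} (hμ : Nish μ) {f : ℝ → ℝ} (hf : Measurable f) {B : ℝ}
    (hB : ∀ x, |f x| ≤ B) :
    ∫ x, f x ∂μ = ∫ x, ((1 + tanh x) * f x + (1 - tanh x) * f (-x)) / 2 ∂μ := by
  have := hμ.1
  have hfn : Measurable fun x => f (-x) := hf.comp measurable_neg
  have e := hμ.2 f hf ⟨B, hB⟩
  have i1 : Integrable f μ := integrable_of_bdd hf hB
  have i2 := integrable_weight (μ := μ) hf hB
  have i3 := integrable_weight (μ := μ) hfn (fun x => hB (-x))
  have eq : (fun x => ((1 + tanh x) * f x + (1 - tanh x) * f (-x)) / 2) =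
      fun x => f x + ((f (-x) * (1 - tanh x)) - f x * (1 - tanh x)) / 2 := by
    funext x; ring
  have i4 : Integrable (fun x => ((f (-x) * (1 - tanh x)) - f x * (1 - tanh x)) / 2) μ :=
    (i3.sub i2).div_const 2
  rw [eq, integral_add i1 i4, integral_div, integral_sub i3 i2, e]
  ring

theorem Nish.tanh_sq {μ : Measure ℝ} (hμ : Nish μ) :
    ∫ x, tanh x ∂μ = ∫ x, tanh x ^ 2 ∂μ := by
  rw [hμ.half measurable_tanh' abs_tanh_le]
  refine integral_congr_ae (ae_of_all _ fun x => ?_)
  simp only [Real.tanh_neg]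
  ring

/-- The law of an independent sum. -/
def addLaw (μ ν : Measure ℝ) : Measure ℝ := (μ.prod ν).map fun p => p.1 + p.2

theorem addLaw_prob {μ ν : Measure ℝ} [IsProbabilityMeasure μ] [IsProbabilityMeasure ν] :
    IsProbabilityMeasure (addLaw μ ν) :=
  Measure.isProbabilityMeasure_map (by fun_prop)

theorem integral_addLaw {μ ν : Measure ℝ} [IsProbabilityMeasure μ] [IsProbabilityMeasure ν]
    {f : ℝ → ℝ} (hf : Measurable f) {B : ℝ} (hB : ∀ x, |f x| ≤ B) :
    ∫ x, f x ∂addLaw μ ν = ∫ x, ∫ y, f (x + y) ∂ν ∂μ := by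
  rw [addLaw, integral_map (by fun_prop) hf.aestronglyMeasurable]
  exact integral_prod _ (integrable_of_bdd (hf.comp (measurable_fst.add measurable_snd))
    fun p => hB _)

theorem Nish.of_half {μ : Measure ℝ} [IsProbabilityMeasure μ]
    (H : ∀ f : ℝ → ℝ, Measurable f → ∀ B : ℝ, (∀ x, |f x| ≤ B) →
      ∫ x, f x ∂μ = ∫ x, ((1 + tanh x) * f x + (1 - tanh x) * f (-x)) / 2 ∂μ) : Nish μ := by
  refine ⟨inferInstance, fun h hm ⟨B, hB⟩ => ?_⟩
  have hm1 : Measurable fun x => h (-x) * (1 - tanh x) :=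
    (hm.comp measurable_neg).mul (measurable_tanh'.const_sub 1)
  have hm2 : Measurable fun x => h x * (1 - tanh x) := hm.mul (measurable_tanh'.const_sub 1)
  have i1 := integrable_weight (μ := μ) (hm.comp measurable_neg) (B := B) fun x => hB _
  have i2 := integrable_weight (μ := μ) hm hB
  have hd : ∀ x, |h (-x) * (1 - tanh x) - h x * (1 - tanh x)| ≤ 4 * B := fun x => by
    have a1 := abs_le.1 (hB x); have a2 := abs_le.1 (hB (-x)); have a3 := abs_le.1 (abs_tanh_le x)
    rw [abs_le]; constructor <;> nlinarith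
  have hd' : Measurable fun x => h (-x) * (1 - tanh x) - h x * (1 - tanh x) := hm1.sub hm2
  rw [← sub_eq_zero, ← integral_sub (f := fun x => h (-x) * (1 - tanh x)) i1 i2, H _ hd' _ hd]
  refine integral_eq_zero_of_ae (ae_of_all _ fun x => ?_)
  simp only [neg_neg, Real.tanh_neg, Pi.zero_apply]
  ring

/-- The average over the signs of two summands with their likelihoods. -/
def fourSum (f : ℝ → ℝ) (a b : ℝ) : ℝ :=
  ((1 + tanh a) * (1 + tanh b) * f (a + b) + (1 + tanh a) * (1 - tanh b) * f (a + -b) +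
    (1 - tanh a) * (1 + tanh b) * f (-a + b) + (1 - tanh a) * (1 - tanh b) * f (-a + -b)) / 4

/-- The average over the sign of the first summand with its likelihood. -/
def twoSum (f : ℝ → ℝ) (a b : ℝ) : ℝ :=
  ((1 + tanh a) * f (a + b) + (1 - tanh a) * f (-a + b)) / 2

theorem measurable_twoSum {f : ℝ → ℝ} (hf : Measurable f) :
    Measurable fun p : ℝ × ℝ => twoSum f p.1 p.2 := by
  have t1 : Measurable fun p : ℝ × ℝ => tanh p.1 := measurable_tanh'.comp measurable_fst
  have h1 : Measurable fun p : ℝ × ℝ => f (p.1 + p.2) := hf.comp (measurable_fst.add measurable_snd)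
  have h2 : Measurable fun p : ℝ × ℝ => f (-p.1 + p.2) :=
    hf.comp (measurable_fst.neg.add measurable_snd)
  exact (((t1.const_add 1).mul h1).add ((t1.const_sub 1).mul h2)).div_const 2

theorem abs_twoSum {f : ℝ → ℝ} {B : ℝ} (hB : ∀ x, |f x| ≤ B) (a b : ℝ) : |twoSum f a b| ≤ B := by
  have a1 := abs_le.1 (hB (a + b)); have a2 := abs_le.1 (hB (-a + b))
  have a3 := abs_le.1 (abs_tanh_le a)
  rw [twoSum, abs_le]; constructor <;> nlinarith

theorem integral_addLaw_four {μ ν : Measure ℝ} (hμ : Nish μ) (hν : Nish ν) {f : ℝ → ℝ}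
    (hf : Measurable f) {B : ℝ} (hB : ∀ x, |f x| ≤ B) :
    ∫ x, f x ∂addLaw μ ν = ∫ a, ∫ b, fourSum f a b ∂ν ∂μ := by
  have := hμ.1
  have := hν.1
  have fm : Measurable fun p : ℝ × ℝ => f (p.1 + p.2) := hf.comp (measurable_fst.add measurable_snd)
  have i0 : Integrable (fun p : ℝ × ℝ => f (p.1 + p.2)) (μ.prod ν) :=
    Integrable.of_bound fm.aestronglyMeasurable B (ae_of_all _ fun p => hB _)
  have i1 : Integrable (fun p : ℝ × ℝ => twoSum f p.1 p.2) (μ.prod ν) :=
    Integrable.of_bound (measurable_twoSum hf).aestronglyMeasurable B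
      (ae_of_all _ fun p => abs_twoSum hB _ _)
  have e1 : ∀ b, ∫ a, f (a + b) ∂μ = ∫ a, twoSum f a b ∂μ := by
    intro b
    have hfb : Measurable fun a => f (a + b) := hf.comp (measurable_add_const b)
    exact hμ.half hfb (B := B) (fun a => hB (a + b))
  rw [integral_addLaw hf hB]
  calc ∫ a, ∫ b, f (a + b) ∂ν ∂μ = ∫ b, ∫ a, f (a + b) ∂μ ∂ν :=
        integral_integral_swap (f := fun a b => f (a + b)) i0
    _ = ∫ b, ∫ a, twoSum f a b ∂μ ∂ν := by simp only [e1]
    _ = ∫ a, ∫ b, twoSum f a b ∂ν ∂μ :=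
        (integral_integral_swap (f := fun a b => twoSum f a b) i1).symm
    _ = ∫ a, ∫ b, fourSum f a b ∂ν ∂μ := by
        refine integral_congr_ae (ae_of_all _ fun a => ?_)
        have hga : Measurable fun b => twoSum f a b := by
          unfold twoSum
          exact (((hf.comp (measurable_const_add a)).const_mul _).add
            ((hf.comp (measurable_const_add (-a))).const_mul _)).div_const 2
        show ∫ b, twoSum f a b ∂ν = ∫ b, fourSum f a b ∂ν
        rw [hν.half hga (B := B) (fun b => abs_twoSum hB a b)]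
        refine integral_congr_ae (ae_of_all _ fun b => ?_)
        simp only [twoSum, fourSum]
        ring

theorem tanh_weight (a b : ℝ) : (1 + tanh a) * (1 + tanh b) * (1 - tanh (a + b)) =
    (1 - tanh a) * (1 - tanh b) * (1 + tanh (a + b)) := by
  rw [tanh_add', one_sub_div (one_add_tanh_mul_pos a b).ne', one_add_div (one_add_tanh_mul_pos a b).ne']
  ring

theorem Nish.add {μ ν : Measure ℝ} (hμ : Nish μ) (hν : Nish ν) : Nish (addLaw μ ν) := by
  have := hμ.1
  have := hν.1
  have : IsProbabilityMeasure (addLaw μ ν) := addLaw_prob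
  refine Nish.of_half fun f hf B hB => ?_
  have hm : Measurable fun x => ((1 + tanh x) * f x + (1 - tanh x) * f (-x)) / 2 :=
    (((measurable_tanh'.const_add 1).mul hf).add
      ((measurable_tanh'.const_sub 1).mul (hf.comp measurable_neg))).div_const 2
  have hb : ∀ x, |((1 + tanh x) * f x + (1 - tanh x) * f (-x)) / 2| ≤ B := fun x => by
    have a1 := abs_le.1 (hB x); have a2 := abs_le.1 (hB (-x)); have a3 := abs_le.1 (abs_tanh_le x)
    rw [abs_le]; constructor <;> nlinarith
  rw [integral_addLaw_four hμ hν hf hB, integral_addLaw_four hμ hν hm hb]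
  refine integral_congr_ae (ae_of_all _ fun a => integral_congr_ae (ae_of_all _ fun b => ?_))
  have w1 := tanh_weight a b
  have w2 := tanh_weight a (-b)
  rw [Real.tanh_neg] at w2
  simp only [fourSum, show -a + -b = -(a + b) by ring, show -a + b = -(a + -b) by ring, neg_neg,
    Real.tanh_neg]
  linear_combination ((f (a + b) - f (-(a + b))) / 8) * w1 +
    ((f (a + -b) - f (-(a + -b))) / 8) * w2

theorem nish_gauss {t : ℝ≥0} (ht : t ≠ 0) : Nish (gaussianReal t t) := by
  refine ⟨inferInstance, fun h hm hB => ?_⟩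
  have key : ∀ x : ℝ, gaussianPDFReal t t (-x) * (1 + tanh x) =
      gaussianPDFReal t t x * (1 - tanh x) := by
    intro x
    have ht' : (t : ℝ) ≠ 0 := NNReal.coe_ne_zero.2 ht
    have e : gaussianPDFReal t t (-x) = gaussianPDFReal t t x * exp (-(2 * x)) := by
      simp only [gaussianPDFReal, mul_assoc, ← Real.exp_add]
      congr 2
      field_simp
      ring
    have hc : exp x + exp (-x) ≠ 0 := by positivity
    have hxx : exp (-(2 * x)) * exp x = exp (-x) := by rw [← Real.exp_add]; congr 1; ring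
    rw [e, Real.tanh_eq, one_add_div hc, one_sub_div hc]
    field_simp
    linear_combination (2 * gaussianPDFReal t t x) * hxx
  rw [integral_gaussianReal_eq_integral_smul ht, integral_gaussianReal_eq_integral_smul ht,
    ← integral_neg_eq_self]
  refine integral_congr_ae (ae_of_all _ fun x => ?_)
  simp only [smul_eq_mul, neg_neg, Real.tanh_neg, sub_neg_eq_add]
  linear_combination h x * key x

/-- The uniform label turned into a sign with mean `θ`. -/
def sgn (θ u : ℝ) : ℝ := if u < (1 + θ) / 2 then 1 else -1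

theorem measurable_sgn : Measurable (sgn θ) :=
  Measurable.ite measurableSet_Iio measurable_const measurable_const

theorem sgn_cases (u : ℝ) : sgn θ u = 1 ∨ sgn θ u = -1 := by
  unfold sgn; split_ifs <;> simp

theorem integral_sgn (h0 : 0 ≤ θ) (h1 : θ < 1) (a : ℝ → ℝ) :
    ∫ u, a (sgn θ u) ∂unifLaw = (1 + θ) / 2 * a 1 + (1 - θ) / 2 * a (-1) := by
  have e : (fun u => a (sgn θ u)) = fun u => (Set.Iio ((1 + θ) / 2)).indicator (fun _ => a 1) u +
      (Set.Ici ((1 + θ) / 2)).indicator (fun _ => a (-1)) u := by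
    funext u
    by_cases hu : u < (1 + θ) / 2
    · simp [sgn, hu, Set.indicator, not_le.2 hu]
    · simp [sgn, hu, Set.indicator, not_lt.1 hu]
  have v1 : unifLaw.real (Set.Iio ((1 + θ) / 2)) = (1 + θ) / 2 := by
    rw [measureReal_def, unifLaw, Measure.restrict_apply measurableSet_Iio,
      show Set.Iio ((1 + θ) / 2) ∩ Set.Icc 0 1 = Set.Ico 0 ((1 + θ) / 2) by
        ext x; simp only [Set.mem_inter_iff, Set.mem_Iio, Set.mem_Icc, Set.mem_Ico]
        exact ⟨fun h => ⟨h.2.1, h.1⟩, fun h => ⟨h.2, h.1, by linarith [h.2]⟩⟩,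
      Real.volume_Ico, sub_zero, ENNReal.toReal_ofReal (by linarith)]
  have v2 : unifLaw.real (Set.Ici ((1 + θ) / 2)) = (1 - θ) / 2 := by
    rw [measureReal_def, unifLaw, Measure.restrict_apply measurableSet_Ici,
      show Set.Ici ((1 + θ) / 2) ∩ Set.Icc 0 1 = Set.Icc ((1 + θ) / 2) 1 by
        ext x; simp only [Set.mem_inter_iff, Set.mem_Ici, Set.mem_Icc]
        exact ⟨fun h => ⟨h.1, h.2.2⟩, fun h => ⟨h.1, by linarith [h.1], h.2⟩⟩,
      Real.volume_Icc, ENNReal.toReal_ofReal (by linarith)]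
    ring
  rw [e, integral_add ((integrable_const _).indicator measurableSet_Iio)
      ((integrable_const _).indicator measurableSet_Ici),
    integral_indicator measurableSet_Iio, integral_indicator measurableSet_Ici, setIntegral_const,
    setIntegral_const, v1, v2, smul_eq_mul, smul_eq_mul]

/-- The law of the message a child sends to its parent. -/
def childLaw (θ : ℝ) (μ : Measure ℝ) : Measure ℝ :=
  (μ.prod unifLaw).map fun p => sgn θ p.2 * leafShift θ p.1

theorem measurable_childMap : Measurable (fun p : ℝ × ℝ => sgn θ p.2 * leafShift θ p.1) :=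
  (measurable_sgn.comp measurable_snd).mul (measurable_leafShift.comp measurable_fst)

theorem integral_childLaw (h0 : 0 ≤ θ) (h1 : θ < 1) {μ : Measure ℝ} [IsProbabilityMeasure μ]
    {f : ℝ → ℝ} (hf : Measurable f) {B : ℝ} (hB : ∀ x, |f x| ≤ B) :
    ∫ x, f x ∂childLaw θ μ =
      ∫ x, ((1 + θ) / 2 * f (leafShift θ x) + (1 - θ) / 2 * f (-leafShift θ x)) ∂μ := by
  rw [childLaw, integral_map measurable_childMap.aemeasurable hf.aestronglyMeasurable,
    integral_prod (f := fun p : ℝ × ℝ => f (sgn θ p.2 * leafShift θ p.1))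
      (integrable_of_bdd (hf.comp measurable_childMap) fun p => hB _)]
  refine integral_congr_ae (ae_of_all _ fun x => ?_)
  show ∫ u, f (sgn θ u * leafShift θ x) ∂unifLaw = _
  rw [integral_sgn h0 h1 fun s => f (s * leafShift θ x), one_mul, neg_one_mul]

theorem Nish.child (h0 : 0 ≤ θ) (h1 : θ < 1) {μ : Measure ℝ} (hμ : Nish μ) :
    Nish (childLaw θ μ) := by
  have := hμ.1
  refine ⟨Measure.isProbabilityMeasure_map measurable_childMap.aemeasurable, fun h hm ⟨B, hB⟩ => ?_⟩
  have hb : ∀ g : ℝ → ℝ, (∀ x, |g x| ≤ B) → ∀ x, |g x * (1 - tanh x)| ≤ B * 2 := fun g hg x => by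
    rw [abs_mul]
    exact mul_le_mul (hg x) ((abs_sub _ _).trans (by rw [abs_one]; linarith [abs_tanh_le x]))
      (abs_nonneg _) ((abs_nonneg _).trans (hB 0))
  have hm1 : Measurable fun x => h (-x) * (1 - tanh x) :=
    (hm.comp measurable_neg).mul (measurable_tanh'.const_sub 1)
  have hm2 : Measurable fun x => h x * (1 - tanh x) := hm.mul (measurable_tanh'.const_sub 1)
  rw [integral_childLaw h0 h1 hm1 (hb _ fun x => hB _), integral_childLaw h0 h1 hm2 (hb _ hB)]
  set u := fun x => h (-leafShift θ x) - h (leafShift θ x) with hu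
  have hum : Measurable u :=
    (hm.comp measurable_leafShift.neg).sub (hm.comp measurable_leafShift)
  have hub : ∀ x, |u x| ≤ 2 * B := fun x => (abs_sub _ _).trans (by linarith [hB (-leafShift θ x), hB (leafShift θ x)])
  have e := hμ.2 u hum ⟨_, hub⟩
  have hodd : ∀ x, u (-x) = -u x := fun x => by simp [hu, leafShift_neg h0 h1]
  simp only [hodd, neg_mul, integral_neg] at e
  have hzero : ∫ x, u x * (1 - tanh x) ∂μ = 0 := by linarith
  have i1 := integrable_weight (μ := μ) hum hub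
  have eq : ∀ x, ((1 + θ) / 2 * (h (-leafShift θ x) * (1 - tanh (leafShift θ x))) +
      (1 - θ) / 2 * (h (- -leafShift θ x) * (1 - tanh (-leafShift θ x)))) =
      ((1 + θ) / 2 * (h (leafShift θ x) * (1 - tanh (leafShift θ x))) +
        (1 - θ) / 2 * (h (-leafShift θ x) * (1 - tanh (-leafShift θ x)))) +
      θ * (u x * (1 - tanh x)) := by
    intro x
    simp only [hu, Real.tanh_neg, tanh_leafShift h0 h1, neg_neg]
    ring
  simp only [eq]
  rw [integral_add _ (i1.const_mul θ), integral_const_mul, hzero, mul_zero, add_zero]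
  have a1 : Measurable fun x => h x * (1 - tanh x) := hm.mul (measurable_tanh'.const_sub 1)
  exact integrable_of_bdd (((a1.comp measurable_leafShift).const_mul _).add
    ((a1.comp measurable_leafShift.neg).const_mul _)) (B := (1 + θ) / 2 * (B * 2) + (1 - θ) / 2 * (B * 2))
    fun x => (abs_add_le _ _).trans (by
      simp only [abs_mul ((1 + θ) / 2), abs_mul ((1 - θ) / 2),
        abs_of_nonneg (by linarith : (0 : ℝ) ≤ (1 + θ) / 2),
        abs_of_nonneg (by linarith : (0 : ℝ) ≤ (1 - θ) / 2)]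
      exact add_le_add (mul_le_mul_of_nonneg_left (hb _ hB _) (by linarith))
        (mul_le_mul_of_nonneg_left (hb _ hB _) (by linarith)))

theorem childLaw_tanh (h0 : 0 ≤ θ) (h1 : θ < 1) {μ : Measure ℝ} [IsProbabilityMeasure μ] :
    ∫ x, tanh x ∂childLaw θ μ = θ ^ 2 * ∫ x, tanh x ∂μ := by
  rw [integral_childLaw h0 h1 measurable_tanh' abs_tanh_le, ← integral_const_mul]
  refine integral_congr_ae (ae_of_all _ fun x => ?_)
  simp only [Real.tanh_neg, tanh_leafShift h0 h1]
  ring

/-- The strength of an independent combination. -/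
theorem Nish.add_tanh {μ ν : Measure ℝ} (hμ : Nish μ) (hν : Nish ν) :
    let A := ∫ x, tanh x ∂μ; let B := ∫ x, tanh x ∂ν
    A + B - 2 * (A * B) ≤ ∫ x, tanh x ∂addLaw μ ν ∧
      ∫ x, tanh x ∂addLaw μ ν ≤ A + B - A * B := by
  intro A B
  have := hμ.1
  have := hν.1
  set k : ℝ → ℝ → ℝ := fun a b =>
    (tanh a ^ 2 + tanh b ^ 2 - 2 * (tanh a ^ 2 * tanh b ^ 2)) / (1 - tanh a ^ 2 * tanh b ^ 2) with hk
  have den : ∀ a b, 0 < 1 - tanh a ^ 2 * tanh b ^ 2 := fun a b => by
    nlinarith [mul_pos (one_add_tanh_mul_pos a b)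
      (by simpa using one_add_tanh_mul_pos a (-b) : 0 < 1 + -(tanh a * tanh b))]
  have kb : ∀ a b, tanh a ^ 2 + tanh b ^ 2 - 2 * (tanh a ^ 2 * tanh b ^ 2) ≤ k a b ∧
      k a b ≤ tanh a ^ 2 + tanh b ^ 2 - tanh a ^ 2 * tanh b ^ 2 := by
    intro a b
    have hd := den a b
    have ha : tanh a ^ 2 ≤ 1 := by rw [← sq_abs]; exact pow_le_one₀ (abs_nonneg _) (abs_tanh_le a)
    have hb : tanh b ^ 2 ≤ 1 := by rw [← sq_abs]; exact pow_le_one₀ (abs_nonneg _) (abs_tanh_le b)
    have hab : 0 ≤ tanh a ^ 2 + tanh b ^ 2 - 2 * (tanh a ^ 2 * tanh b ^ 2) := by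
      nlinarith [sq_nonneg (tanh a), sq_nonneg (tanh b)]
    constructor
    · rw [le_div_iff₀ hd]
      nlinarith [mul_nonneg (mul_nonneg (sq_nonneg (tanh a)) (sq_nonneg (tanh b))) hab]
    · rw [div_le_iff₀ hd]
      nlinarith [mul_nonneg (mul_nonneg (sq_nonneg (tanh a)) (sq_nonneg (tanh b)))
        (mul_nonneg (sub_nonneg.2 ha) (sub_nonneg.2 hb))]
  have key : ∫ x, tanh x ∂addLaw μ ν = ∫ a, ∫ b, k a b ∂ν ∂μ := by
    rw [integral_addLaw_four hμ hν measurable_tanh' abs_tanh_le]
    refine integral_congr_ae (ae_of_all _ fun a => integral_congr_ae (ae_of_all _ fun b => ?_))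
    have d1 := (one_add_tanh_mul_pos a b).ne'
    have d2 := (one_add_tanh_mul_pos a (-b)).ne'
    have d3 := (den a b).ne'
    rw [Real.tanh_neg, mul_neg, ← sub_eq_add_neg] at d2
    have f2 : tanh (a + -b) = (tanh a - tanh b) / (1 - tanh a * tanh b) := by
      rw [tanh_add', Real.tanh_neg, mul_neg, ← sub_eq_add_neg, ← sub_eq_add_neg]
    simp only [fourSum, show -a + -b = -(a + b) by ring, show -a + b = -(a + -b) by ring,
      Real.tanh_neg]
    rw [tanh_add' a b, f2]
    simp only [hk]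
    field_simp
    ring
  have km : Measurable (fun p : ℝ × ℝ => k p.1 p.2) := by
    have a1 : Measurable fun p : ℝ × ℝ => tanh p.1 ^ 2 := (measurable_tanh'.comp measurable_fst).pow_const 2
    have a2 : Measurable fun p : ℝ × ℝ => tanh p.2 ^ 2 := (measurable_tanh'.comp measurable_snd).pow_const 2
    exact ((a1.add a2).sub ((a1.mul a2).const_mul 2)).div ((a1.mul a2).const_sub 1)
  have kB : ∀ a b, |k a b| ≤ 2 := fun a b => by
    have := kb a b
    have ha : tanh a ^ 2 ≤ 1 := by rw [← sq_abs]; exact pow_le_one₀ (abs_nonneg _) (abs_tanh_le a)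
    have hb : tanh b ^ 2 ≤ 1 := by rw [← sq_abs]; exact pow_le_one₀ (abs_nonneg _) (abs_tanh_le b)
    rw [abs_le]; constructor <;> nlinarith [this.1, this.2, sq_nonneg (tanh a), sq_nonneg (tanh b)]
  have ta : Measurable fun a : ℝ => tanh a ^ 2 := measurable_tanh'.pow_const 2
  have tb : ∀ a : ℝ, |tanh a ^ 2| ≤ 1 := fun a => by
    rw [abs_pow]; exact pow_le_one₀ (abs_nonneg _) (abs_tanh_le a)
  have ik : Integrable (fun p : ℝ × ℝ => k p.1 p.2) (μ.prod ν) := integrable_of_bdd km fun p => kB _ _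
  have i1 : Integrable (fun p : ℝ × ℝ => tanh p.1 ^ 2) (μ.prod ν) :=
    integrable_of_bdd (ta.comp measurable_fst) fun p => tb _
  have i2 : Integrable (fun p : ℝ × ℝ => tanh p.2 ^ 2) (μ.prod ν) :=
    integrable_of_bdd (ta.comp measurable_snd) fun p => tb _
  have i3 : Integrable (fun p : ℝ × ℝ => tanh p.1 ^ 2 * tanh p.2 ^ 2) (μ.prod ν) :=
    integrable_of_bdd ((ta.comp measurable_fst).mul (ta.comp measurable_snd)) (B := 1) fun p => by
      show |tanh p.1 ^ 2 * tanh p.2 ^ 2| ≤ 1
      rw [abs_mul]; exact mul_le_one₀ (tb _) (abs_nonneg _) (tb _)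
  have hA : ∫ a, tanh a ^ 2 ∂μ = A := hμ.tanh_sq.symm
  have hB : ∫ b, tanh b ^ 2 ∂ν = B := hν.tanh_sq.symm
  have e3 : ∀ c : ℝ, ∫ p, (tanh p.1 ^ 2 + tanh p.2 ^ 2 - c * (tanh p.1 ^ 2 * tanh p.2 ^ 2)) ∂μ.prod ν =
      A + B - c * (A * B) := by
    intro c
    rw [integral_sub (f := fun p : ℝ × ℝ => tanh p.1 ^ 2 + tanh p.2 ^ 2) (i1.add i2) (i3.const_mul c),
      integral_add i1 i2, integral_const_mul, integral_prod_mul (fun a => tanh a ^ 2) (fun b => tanh b ^ 2),
      integral_fun_fst (fun a => tanh a ^ 2), integral_fun_snd (fun b => tanh b ^ 2), hA, hB]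
    simp
  rw [key, ← integral_prod _ ik]
  constructor
  · rw [← e3 2]
    exact integral_mono ((i1.add i2).sub (i3.const_mul 2)) ik fun p => (kb p.1 p.2).1
  · rw [← one_mul (A * B), ← e3 1]
    refine integral_mono ik ((i1.add i2).sub (i3.const_mul 1)) fun p => ?_
    show k p.1 p.2 ≤ _
    rw [one_mul]
    exact (kb p.1 p.2).2

end Vale.Agent.P161
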