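import Vale.Agent.P161.Crit.Sym
import Mathlib.MeasureTheory.Constructions.Pi

/-!
# Messages on a regular branch, in the gauge of the spins

A branch is indexed by words; each vertex carries a uniform label, giving the sign of the spin
relative to the parent, and a standard Gaussian.  All variables are then independent.
-/

open MeasureTheory ProbabilityTheory Finset Real
open scoped ENNReal NNReal Classical

noncomputable section

namespace Vale.Agent.P161

variable {Q : ℕ} {θ t : ℝ}

/-- The labels of a branch. -/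
abbrev Lbl (Q : ℕ) := List (Fin Q) → ℝ × ℝ

/-- The law of one label. -/
def nodeLaw : Measure (ℝ × ℝ) := unifLaw.prod (gaussianReal 0 1)

instance : IsProbabilityMeasure nodeLaw := by unfold nodeLaw; infer_instance

/-- The law of the labels. -/
def lblLaw (Q : ℕ) : Measure (Lbl Q) := Measure.infinitePi fun _ => nodeLaw

instance : IsProbabilityMeasure (lblLaw Q) := by unfold lblLaw; infer_instance

/-- The labels seen from a child of the root. -/
def sub (i : Fin Q) (ω : Lbl Q) : Lbl Q := fun l => ω (i :: l)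

theorem measurable_sub (i : Fin Q) : Measurable (sub i) :=
  measurable_pi_lambda _ fun _ => measurable_pi_apply _

/-- Root label and the branches of the children. -/
def splitLbl (ω : Lbl Q) : (ℝ × ℝ) × (Fin Q → Lbl Q) := (ω [], fun i => sub i ω)

/-- The inverse of `splitLbl`. -/
def glueLbl (p : (ℝ × ℝ) × (Fin Q → Lbl Q)) : Lbl Q
  | [] => p.1
  | i :: l => p.2 i l

theorem measurable_splitLbl : Measurable (splitLbl (Q := Q)) :=
  (measurable_pi_apply _).prodMk (measurable_pi_lambda _ fun i => measurable_sub i)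

theorem measurable_glueLbl : Measurable (glueLbl (Q := Q)) := by
  refine measurable_pi_lambda _ fun l => ?_
  cases l with
  | nil => exact measurable_fst
  | cons i l => exact (measurable_pi_apply l).comp ((measurable_pi_apply i).comp measurable_snd)

theorem glue_map :
    (nodeLaw.prod (Measure.pi fun _ : Fin Q => lblLaw Q)).map glueLbl = lblLaw Q := by
  refine Measure.eq_infinitePi _ fun s T hT => ?_
  rw [Measure.map_apply measurable_glueLbl (.pi s.countable_toSet fun i _ => hT i)]
  set si : Fin Q → Finset (List (Fin Q)) := fun i =>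
    s.preimage (List.cons i) (fun a _ b _ h => (List.cons.injEq _ _ _ _ ▸ h : _ ∧ _).2) with hsi
  have hpre : glueLbl ⁻¹' (Set.pi (s : Set (List (Fin Q))) T) =
      (if [] ∈ s then T [] else Set.univ) ×ˢ
        Set.pi Set.univ (fun i => Set.pi (si i : Set (List (Fin Q))) fun l => T (i :: l)) := by
    ext p
    simp only [Set.mem_preimage, Set.mem_pi, Finset.mem_coe, Set.mem_prod, Set.mem_univ,
      forall_true_left, hsi, Finset.mem_preimage]
    constructor
    · intro h
      refine ⟨?_, fun i l hl => h (i :: l) (Finset.mem_preimage.1 hl)⟩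
      split_ifs with h0
      · exact h [] h0
      · trivial
    · rintro ⟨h1, h2⟩ l hl
      cases l with
      | nil => rw [if_pos hl] at h1; exact h1
      | cons i l => exact h2 i l (Finset.mem_preimage.2 hl)
  rw [hpre, Measure.prod_prod, Measure.pi_pi]
  have hcyl : ∀ i, lblLaw Q (Set.pi (si i : Set (List (Fin Q))) fun l => T (i :: l)) =
      ∏ l ∈ si i, nodeLaw (T (i :: l)) := fun i =>
    Measure.infinitePi_pi _ (fun l _ => hT (i :: l))
  simp only [hcyl]
  have herase : s.erase [] = Finset.univ.biUnion fun i => (si i).image (List.cons i) := by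
    ext l
    simp only [Finset.mem_erase, Finset.mem_biUnion, Finset.mem_univ, true_and, Finset.mem_image]
    cases l with
    | nil => simp
    | cons i l =>
      constructor
      · exact fun h => ⟨i, l, Finset.mem_preimage.2 h.2, rfl⟩
      · rintro ⟨j, m, hm, he⟩
        rw [← he]
        exact ⟨by simp, Finset.mem_preimage.1 hm⟩
  have hprod : ∏ l ∈ s.erase [], nodeLaw (T l) = ∏ i, ∏ l ∈ si i, nodeLaw (T (i :: l)) := by
    rw [herase, Finset.prod_biUnion]
    · exact Finset.prod_congr rfl fun i _ => Finset.prod_image fun a _ b _ h => (List.cons.inj h).2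
    · intro i _ j _ hij
      rw [Function.onFun, Finset.disjoint_left]
      intro l hl hl'
      simp only [Finset.mem_image] at hl hl'
      obtain ⟨a, -, rfl⟩ := hl
      obtain ⟨b, -, hb⟩ := hl'
      exact hij (List.cons.inj hb).1.symm
  rw [← hprod]
  by_cases h0 : ([] : List (Fin Q)) ∈ s
  · rw [if_pos h0, ← Finset.mul_prod_erase _ _ h0]
  · rw [if_neg h0, measure_univ, one_mul, Finset.erase_eq_of_notMem h0]

theorem split_mp : MeasurePreserving (splitLbl (Q := Q)) (lblLaw Q)
    (nodeLaw.prod (Measure.pi fun _ : Fin Q => lblLaw Q)) := by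
  refine ⟨measurable_splitLbl, ?_⟩
  conv_lhs => rw [← glue_map]
  rw [Measure.map_map measurable_splitLbl measurable_glueLbl]
  have : splitLbl (Q := Q) ∘ glueLbl = id := by funext p; rfl
  rw [this, Measure.map_id]

theorem integral_split {f : (ℝ × ℝ) × (Fin Q → Lbl Q) → ℝ} (hf : Measurable f) :
    ∫ ω, f (splitLbl ω) ∂lblLaw Q = ∫ p, f p ∂(nodeLaw.prod (Measure.pi fun _ : Fin Q => lblLaw Q)) := by
  rw [← (split_mp (Q := Q)).map_eq,
    integral_map measurable_splitLbl.aemeasurable hf.aestronglyMeasurable]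

/-- The field at the root of a branch of depth `R`, times the spin of the root. -/
def msgX (θ t : ℝ) : ℕ → Lbl Q → ℝ
  | 0, ω => t + √t * (ω []).2
  | R + 1, ω => t + √t * (ω []).2 + ∑ i, sgn θ (ω [i]).1 * leafShift θ (msgX θ t R (sub i ω))

/-- The message to the parent, times the spin of the parent. -/
def msgW (θ t : ℝ) (R : ℕ) (ω : Lbl Q) : ℝ := sgn θ (ω []).1 * leafShift θ (msgX θ t R ω)

theorem msgX_succ (R : ℕ) (ω : Lbl Q) :
    msgX θ t (R + 1) ω = t + √t * (ω []).2 + ∑ i, msgW θ t R (sub i ω) := rfl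

theorem measurable_msgX (R : ℕ) : Measurable (msgX (Q := Q) θ t R) := by
  induction R with
  | zero =>
    show Measurable fun ω : Lbl Q => t + √t * (ω []).2
    fun_prop
  | succ R ih =>
    show Measurable fun ω : Lbl Q => t + √t * (ω []).2 +
      ∑ i, sgn θ (ω [i]).1 * leafShift θ (msgX θ t R (sub i ω))
    exact ((measurable_const.add (measurable_const.mul (measurable_pi_apply _).snd))).add
      (Finset.measurable_sum _ fun i _ => (measurable_sgn.comp (measurable_pi_apply _).fst).mul
        (measurable_leafShift.comp (ih.comp (measurable_sub i))))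

theorem measurable_msgW (R : ℕ) : Measurable (msgW (Q := Q) θ t R) :=
  (measurable_sgn.comp (measurable_pi_apply _).fst).mul
    (measurable_leafShift.comp (measurable_msgX R))

theorem msgW_bdd (h0 : 0 ≤ θ) (h1 : θ < 1) (R : ℕ) (ω : Lbl Q) :
    |msgW θ t R ω| ≤ 2 / (1 - θ) := by
  have hs : |sgn θ (ω []).1| = 1 := by rcases sgn_cases (θ := θ) (ω []).1 with h | h <;> simp [h]
  rw [msgW, abs_mul, hs, one_mul]
  refine (abs_leafShift_le h0 h1 _).trans (mul_le_of_le_one_right (div_nonneg zero_le_two (by linarith)) ?_)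
  rw [abs_mul, abs_of_nonneg h0]
  nlinarith [abs_tanh_le (msgX θ t R ω)]

/-- The law of a sum of independent copies. -/
def sumLaw (μ : Measure ℝ) (n : ℕ) : Measure ℝ :=
  (Measure.pi fun _ : Fin n => μ).map fun x => ∑ i, x i

theorem sumLaw_prob (μ : Measure ℝ) [IsProbabilityMeasure μ] (n : ℕ) :
    IsProbabilityMeasure (sumLaw μ n) := Measure.isProbabilityMeasure_map (by fun_prop)

theorem sumLaw_zero (μ : Measure ℝ) [IsProbabilityMeasure μ] :
    sumLaw μ 0 = Measure.dirac 0 := by
  rw [sumLaw, show (fun x : Fin 0 → ℝ => ∑ i, x i) = fun _ => (0 : ℝ) from funext fun _ => by simp,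
    Measure.map_const, measure_univ, one_smul]

theorem sumLaw_succ (μ : Measure ℝ) [IsProbabilityMeasure μ] (n : ℕ) :
    sumLaw μ (n + 1) = addLaw μ (sumLaw μ n) := by
  have hm := measurePreserving_piFinSuccAbove (fun _ : Fin (n + 1) => μ) 0
  have hs : Measurable fun x : Fin n → ℝ => ∑ i, x i := by fun_prop
  have hpm := Measure.map_prod_map μ (Measure.pi fun _ : Fin n => μ) measurable_id hs
  rw [Measure.map_id] at hpm
  rw [addLaw, sumLaw, sumLaw, hpm, Measure.map_map (by fun_prop) (measurable_id.prodMap hs),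
    ← hm.map_eq, Measure.map_map (by fun_prop) hm.measurable]
  congr 1
  funext x
  simp [Fin.sum_univ_succ, MeasurableEquiv.piFinSuccAbove, Fin.tail]

theorem nish_sumLaw {μ : Measure ℝ} (hμ : Nish μ) : ∀ n, Nish (sumLaw μ n)
  | 0 => by
    have := hμ.1
    rw [sumLaw_zero]
    exact ⟨inferInstance, fun h _ _ => by simp⟩
  | n + 1 => by
    have := hμ.1
    rw [sumLaw_succ]
    exact hμ.add (nish_sumLaw hμ n)

/-- The law of `msgX`. -/
def XLaw (Q : ℕ) (θ t : ℝ) (R : ℕ) : Measure ℝ := (lblLaw Q).map (msgX θ t R)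

/-- The law of `msgW`. -/
def WLaw (Q : ℕ) (θ t : ℝ) (R : ℕ) : Measure ℝ := (lblLaw Q).map (msgW θ t R)

instance (R : ℕ) : IsProbabilityMeasure (XLaw Q θ t R) :=
  Measure.isProbabilityMeasure_map (measurable_msgX R).aemeasurable

instance (R : ℕ) : IsProbabilityMeasure (WLaw Q θ t R) :=
  Measure.isProbabilityMeasure_map (measurable_msgW R).aemeasurable

theorem own_law (ht : 0 ≤ t) :
    nodeLaw.map (fun x => t + √t * x.2) = gaussianReal t t.toNNReal := by
  rw [show (fun x : ℝ × ℝ => t + √t * x.2) = (fun z => t + z) ∘ (fun z => √t * z) ∘ Prod.snd from rfl,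
    ← Measure.map_map (by fun_prop) (by fun_prop), ← Measure.map_map (by fun_prop) measurable_snd,
    nodeLaw, Measure.map_snd_prod, measure_univ, one_smul, gaussianReal_map_const_mul,
    gaussianReal_map_const_add, mul_zero, zero_add, mul_one]
  congr 1
  ext
  simp [Real.sq_sqrt ht, ht]

theorem XLaw_zero (ht : 0 ≤ t) : XLaw Q θ t 0 = gaussianReal t t.toNNReal := by
  have hs : MeasurePreserving (fun ω : Lbl Q => ω []) (lblLaw Q) nodeLaw :=
    measurePreserving_eval_infinitePi _ _
  have hm : Measurable fun x : ℝ × ℝ => t + √t * x.2 := by fun_prop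
  rw [XLaw, show msgX (Q := Q) θ t 0 = (fun x : ℝ × ℝ => t + √t * x.2) ∘ fun ω => ω [] from rfl,
    ← Measure.map_map hm hs.measurable, hs.map_eq, own_law ht]

theorem XLaw_succ (ht : 0 ≤ t) (R : ℕ) :
    XLaw Q θ t (R + 1) = addLaw (gaussianReal t t.toNNReal) (sumLaw (WLaw Q θ t R) Q) := by
  have ha : Measurable fun x : ℝ × ℝ => t + √t * x.2 := by fun_prop
  have hb : Measurable fun ωs : Fin Q → Lbl Q => ∑ i, msgW θ t R (ωs i) :=
    Finset.measurable_sum _ fun i _ => (measurable_msgW R).comp (measurable_pi_apply i)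
  have hW : (Measure.pi fun _ : Fin Q => lblLaw Q).map (fun ωs i => msgW θ t R (ωs i)) =
      Measure.pi fun _ : Fin Q => WLaw Q θ t R :=
    Measure.pi_map_pi fun _ => (measurable_msgW R).aemeasurable
  have hsum : (Measure.pi fun _ : Fin Q => lblLaw Q).map (fun ωs => ∑ i, msgW θ t R (ωs i)) =
      sumLaw (WLaw Q θ t R) Q := by
    have hg : Measurable fun ωs : Fin Q → Lbl Q => fun i => msgW θ t R (ωs i) :=
      measurable_pi_lambda _ fun i => (measurable_msgW R).comp (measurable_pi_apply i)
    rw [sumLaw, ← hW, Measure.map_map (g := fun x : Fin Q → ℝ => ∑ i, x i) (by fun_prop) hg]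
    rfl
  have hpm := Measure.map_prod_map nodeLaw (Measure.pi fun _ : Fin Q => lblLaw Q) ha hb
  rw [own_law ht, hsum] at hpm
  rw [addLaw, hpm, Measure.map_map (by fun_prop) (ha.prodMap hb), ← (split_mp (Q := Q)).map_eq,
    Measure.map_map ((by fun_prop : Measurable fun p : ℝ × ℝ => p.1 + p.2).comp (ha.prodMap hb))
      measurable_splitLbl]
  rfl

/-- The field at the root is independent of the sign of the root. -/
theorem pair_law (R : ℕ) :
    (lblLaw Q).map (fun ω => (msgX θ t R ω, (ω []).1)) = (XLaw Q θ t R).prod unifLaw := by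
  set F : ℝ × (Fin Q → Lbl Q) → ℝ := fun q => msgX θ t R (glueLbl ((0, q.1), q.2)) with hF
  have hFm : Measurable F := (measurable_msgX R).comp (measurable_glueLbl.comp
    ((measurable_const.prodMk measurable_fst).prodMk measurable_snd))
  have hindep : ∀ p : (ℝ × ℝ) × (Fin Q → Lbl Q), msgX θ t R (glueLbl p) = F (p.1.2, p.2) := by
    intro p
    cases R <;> rfl
  set e : (ℝ × ℝ) × (Fin Q → Lbl Q) → ℝ × (ℝ × (Fin Q → Lbl Q)) := fun p => (p.1.1, (p.1.2, p.2))
    with he
  have hme : MeasurePreserving e (nodeLaw.prod (Measure.pi fun _ : Fin Q => lblLaw Q))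
      (unifLaw.prod ((gaussianReal 0 1).prod (Measure.pi fun _ : Fin Q => lblLaw Q))) :=
    measurePreserving_prodAssoc unifLaw (gaussianReal 0 1) (Measure.pi fun _ : Fin Q => lblLaw Q)
  have hmf := Measure.map_prod_map unifLaw ((gaussianReal 0 1).prod (Measure.pi fun _ : Fin Q => lblLaw Q))
    measurable_id hFm
  rw [Measure.map_id] at hmf
  have hX : XLaw Q θ t R = ((gaussianReal 0 1).prod (Measure.pi fun _ : Fin Q => lblLaw Q)).map F := by
    have hs : ((gaussianReal 0 1).prod (Measure.pi fun _ : Fin Q => lblLaw Q)) =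
        (nodeLaw.prod (Measure.pi fun _ : Fin Q => lblLaw Q)).map (fun p => (p.1.2, p.2)) := by
      rw [show (fun p : (ℝ × ℝ) × (Fin Q → Lbl Q) => (p.1.2, p.2)) = Prod.snd ∘ e from rfl,
        ← Measure.map_map measurable_snd hme.measurable, hme.map_eq, Measure.map_snd_prod,
        measure_univ, one_smul]
    rw [hs, Measure.map_map hFm (by fun_prop), XLaw]
    conv_lhs => rw [← glue_map]
    rw [Measure.map_map (measurable_msgX R) measurable_glueLbl]
    congr 1
    funext p
    exact hindep p
  have := (Measure.isProbabilityMeasure_map hFm.aemeasurable :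
    IsProbabilityMeasure (((gaussianReal 0 1).prod (Measure.pi fun _ : Fin Q => lblLaw Q)).map F))
  rw [hX, ← Measure.prod_swap (ν := ((gaussianReal 0 1).prod (Measure.pi fun _ : Fin Q => lblLaw Q)).map F)
      (μ := unifLaw), hmf,
    Measure.map_map measurable_swap (measurable_id.prodMap hFm), ← hme.map_eq,
    Measure.map_map (measurable_swap.comp (measurable_id.prodMap hFm)) hme.measurable]
  conv_lhs => rw [← glue_map]
  rw [Measure.map_map ((measurable_msgX R).prodMk (measurable_pi_apply _).fst) measurable_glueLbl]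
  congr 1
  funext p
  exact Prod.ext (hindep p) rfl

theorem WLaw_eq (R : ℕ) : WLaw Q θ t R = childLaw θ (XLaw Q θ t R) := by
  rw [childLaw, ← pair_law, Measure.map_map measurable_childMap
    ((measurable_msgX R).prodMk (measurable_pi_apply _).fst), WLaw]
  rfl

theorem nish_XLaw (h0 : 0 ≤ θ) (h1 : θ < 1) (ht : 0 < t) : ∀ R, Nish (XLaw Q θ t R) := by
  have hg : Nish (gaussianReal t t.toNNReal) := by
    have := nish_gauss (t := t.toNNReal) (by simpa using ht)
    rwa [Real.coe_toNNReal t ht.le] at this
  intro R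
  induction R with
  | zero => rw [XLaw_zero ht.le]; exact hg
  | succ R ih =>
    rw [XLaw_succ ht.le]
    refine hg.add (nish_sumLaw ?_ Q)
    rw [WLaw_eq]
    exact ih.child h0 h1

theorem nish_WLaw (h0 : 0 ≤ θ) (h1 : θ < 1) (ht : 0 < t) (R : ℕ) : Nish (WLaw Q θ t R) := by
  rw [WLaw_eq]; exact (nish_XLaw h0 h1 ht R).child h0 h1

end Vale.Agent.P161
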